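import Vale.Agent.P305.MM.Machine

/-! MODULE A1, part 2: the compiler, and its correctness for expressions. -/

set_option autoImplicit false

namespace Vale.Agent.P305.MM

open Function (update)

/-! ### The compiler -/

namespace Comp

/-- Temporaries. -/
def tm (t : ℕ) : ℕ := 2 * t + 11

/-- Variables. -/
def vr (x : ℕ) : ℕ := 2 * x + 10

/-- Copy register `x` to register `d` (uses register `1`). -/
def cpy (d x : ℕ) : RProg := .seq (.const 1 0) (.op .add d x 1)

/-- Put the address of entry `reg h` of array `j` into register `1` (uses register `2`). -/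
def addr (K j h : ℕ) : RProg :=
  .seq (.const 1 K) (.seq (.op .mul 1 1 h) (.seq (.const 2 j)
    (.seq (.op .add 1 1 2) (.op .add 1 1 0))))

/-- Expressions: the value goes to temporary `t`, temporaries `≥ t` are used. -/
def compE (K : ℕ) : E → ℕ → RProg
  | .reg x, t => cpy (tm t) (vr x)
  | .const c, t => .const (tm t) c
  | .add e₁ e₂, t => .seq (compE K e₁ t) (.seq (compE K e₂ (t + 1))
      (.op .add (tm t) (tm t) (tm (t + 1))))
  | .sub e₁ e₂, t => .seq (compE K e₁ t) (.seq (compE K e₂ (t + 1))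
      (.op .sub (tm t) (tm t) (tm (t + 1))))
  | .mul e₁ e₂, t => .seq (compE K e₁ t) (.seq (compE K e₂ (t + 1))
      (.op .mul (tm t) (tm t) (tm (t + 1))))
  | .div e₁ e₂, t => .seq (compE K e₁ t) (.seq (compE K e₂ (t + 1))
      (.op .div (tm t) (tm t) (tm (t + 1))))
  | .mod e₁ e₂, t => .seq (compE K e₁ t) (.seq (compE K e₂ (t + 1))
      (.op .mod (tm t) (tm t) (tm (t + 1))))
  | .ld j e, t => .seq (compE K e t) (.seq (addr K j (tm t)) (.load (tm t) 1))
  | .raw e, t => .seq (compE K e t) (.ite (.lt (tm t) 0) (.load (tm t) (tm t)) (.const (tm t) 0))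
  | .ifLt e₁ e₂ e₃ e₄, t => .seq (compE K e₁ t) (.seq (compE K e₂ (t + 1))
      (.ite (.lt (tm t) (tm (t + 1))) (compE K e₃ t) (compE K e₄ t)))
  | .ifEq e₁ e₂ e₃ e₄, t => .seq (compE K e₁ t) (.seq (compE K e₂ (t + 1))
      (.ite (.eq (tm t) (tm (t + 1))) (compE K e₃ t) (compE K e₄ t)))

/-- Commands; temporaries `≥ t` are used. -/
def compC (K : ℕ) : C → ℕ → RProg
  | .skip, _ => .const 1 0
  | .asg d e, t => .seq (compE K e t) (cpy (vr d) (tm t))
  | .sto j e₁ e₂, t => .seq (compE K e₁ t) (.seq (compE K e₂ (t + 1))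
      (.seq (addr K j (tm t)) (.store 1 (tm (t + 1)))))
  | .coin d, _ => .coin (vr d)
  | .seq p q, t => .seq (compC K p t) (compC K q t)
  | .ite e₁ e₂ p q, t => .seq (compE K e₁ t) (.seq (compE K e₂ (t + 1))
      (.ite (.lt (tm t) (tm (t + 1))) (compC K p t) (compC K q t)))
  | .for_ x e p, t => .seq (compE K e t) (.seq (.const (tm (t + 1)) 0)
      (.loop (.lt (tm (t + 1)) (tm t)) (.seq (cpy (vr x) (tm (t + 1)))
        (.seq (compC K p (t + 2)) (.seq (.const 1 1)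
          (.op .add (tm (t + 1)) (tm (t + 1)) 1))))))

/-- Arrays are among the first `K`. -/
def okE (K : ℕ) : E → Prop
  | .reg _ => True
  | .const _ => True
  | .add e₁ e₂ => okE K e₁ ∧ okE K e₂
  | .sub e₁ e₂ => okE K e₁ ∧ okE K e₂
  | .mul e₁ e₂ => okE K e₁ ∧ okE K e₂
  | .div e₁ e₂ => okE K e₁ ∧ okE K e₂
  | .mod e₁ e₂ => okE K e₁ ∧ okE K e₂
  | .ld j e => j < K ∧ okE K e
  | .raw e => okE K e
  | .ifLt e₁ e₂ e₃ e₄ => okE K e₁ ∧ okE K e₂ ∧ okE K e₃ ∧ okE K e₄
  | .ifEq e₁ e₂ e₃ e₄ => okE K e₁ ∧ okE K e₂ ∧ okE K e₃ ∧ okE K e₄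

def okC (K : ℕ) : C → Prop
  | .skip => True
  | .asg _ e => okE K e
  | .sto j e₁ e₂ => j < K ∧ okE K e₁ ∧ okE K e₂
  | .coin _ => True
  | .seq p q => okC K p ∧ okC K q
  | .ite e₁ e₂ p q => okE K e₁ ∧ okE K e₂ ∧ okC K p ∧ okC K q
  | .for_ _ e p => okE K e ∧ okC K p

/-- A bound for the arrays used. -/
def nE : E → ℕ
  | .reg _ => 0
  | .const _ => 0
  | .add e₁ e₂ => nE e₁ + nE e₂
  | .sub e₁ e₂ => nE e₁ + nE e₂
  | .mul e₁ e₂ => nE e₁ + nE e₂
  | .div e₁ e₂ => nE e₁ + nE e₂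
  | .mod e₁ e₂ => nE e₁ + nE e₂
  | .ld j e => j + 1 + nE e
  | .raw e => nE e
  | .ifLt e₁ e₂ e₃ e₄ => nE e₁ + nE e₂ + nE e₃ + nE e₄
  | .ifEq e₁ e₂ e₃ e₄ => nE e₁ + nE e₂ + nE e₃ + nE e₄

def nC : C → ℕ
  | .skip => 0
  | .asg _ e => nE e
  | .sto j e₁ e₂ => j + 1 + nE e₁ + nE e₂
  | .coin _ => 0
  | .seq p q => nC p + nC q
  | .ite e₁ e₂ p q => nE e₁ + nE e₂ + nC p + nC q
  | .for_ _ e p => nE e + nC p

theorem okE_of_le {K : ℕ} (e : E) (h : nE e ≤ K) : okE K e := by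
  induction e with
  | reg x => trivial
  | const c => trivial
  | add e₁ e₂ h₁ h₂ => simp only [nE] at h; exact ⟨h₁ (by omega), h₂ (by omega)⟩
  | sub e₁ e₂ h₁ h₂ => simp only [nE] at h; exact ⟨h₁ (by omega), h₂ (by omega)⟩
  | mul e₁ e₂ h₁ h₂ => simp only [nE] at h; exact ⟨h₁ (by omega), h₂ (by omega)⟩
  | div e₁ e₂ h₁ h₂ => simp only [nE] at h; exact ⟨h₁ (by omega), h₂ (by omega)⟩
  | mod e₁ e₂ h₁ h₂ => simp only [nE] at h; exact ⟨h₁ (by omega), h₂ (by omega)⟩
  | ld j e ih => simp only [nE] at h; exact ⟨by omega, ih (by omega)⟩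
  | raw e ih => simp only [nE] at h; exact ih h
  | ifLt e₁ e₂ e₃ e₄ h₁ h₂ h₃ h₄ =>
    simp only [nE] at h
    exact ⟨h₁ (by omega), h₂ (by omega), h₃ (by omega), h₄ (by omega)⟩
  | ifEq e₁ e₂ e₃ e₄ h₁ h₂ h₃ h₄ =>
    simp only [nE] at h
    exact ⟨h₁ (by omega), h₂ (by omega), h₃ (by omega), h₄ (by omega)⟩

theorem okC_of_le {K : ℕ} (c : C) (h : nC c ≤ K) : okC K c := by
  induction c with
  | skip => trivial
  | asg d e => exact okE_of_le e h
  | sto j e₁ e₂ =>
    simp only [nC] at h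
    exact ⟨by omega, okE_of_le _ (by omega), okE_of_le _ (by omega)⟩
  | coin d => trivial
  | seq p q hp hq => simp only [nC] at h; exact ⟨hp (by omega), hq (by omega)⟩
  | ite e₁ e₂ p q hp hq =>
    simp only [nC] at h
    exact ⟨okE_of_le _ (by omega), okE_of_le _ (by omega), hp (by omega), hq (by omega)⟩
  | for_ x e p hp =>
    simp only [nC] at h
    exact ⟨okE_of_le _ (by omega), hp (by omega)⟩

def sizeE : E → ℕ
  | .reg _ => 1
  | .const _ => 1
  | .add e₁ e₂ => sizeE e₁ + sizeE e₂ + 1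
  | .sub e₁ e₂ => sizeE e₁ + sizeE e₂ + 1
  | .mul e₁ e₂ => sizeE e₁ + sizeE e₂ + 1
  | .div e₁ e₂ => sizeE e₁ + sizeE e₂ + 1
  | .mod e₁ e₂ => sizeE e₁ + sizeE e₂ + 1
  | .ld _ e => sizeE e + 1
  | .raw e => sizeE e + 1
  | .ifLt e₁ e₂ e₃ e₄ => sizeE e₁ + sizeE e₂ + sizeE e₃ + sizeE e₄ + 1
  | .ifEq e₁ e₂ e₃ e₄ => sizeE e₁ + sizeE e₂ + sizeE e₃ + sizeE e₄ + 1

def sizeC : C → ℕ
  | .skip => 1
  | .asg _ e => sizeE e + 1
  | .sto _ e₁ e₂ => sizeE e₁ + sizeE e₂ + 1
  | .coin _ => 1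
  | .seq p q => sizeC p + sizeC q
  | .ite e₁ e₂ p q => sizeE e₁ + sizeE e₂ + sizeC p + sizeC q + 1
  | .for_ _ e p => sizeE e + sizeC p + 1

/-- The exponent of the bound of an expression. -/
def kE : E → ℕ
  | .reg _ => 1
  | .const c => c + 1
  | .add e₁ e₂ => kE e₁ + kE e₂
  | .sub e₁ e₂ => kE e₁ + kE e₂
  | .mul e₁ e₂ => kE e₁ + kE e₂
  | .div e₁ e₂ => kE e₁ + kE e₂
  | .mod e₁ e₂ => kE e₁ + kE e₂
  | .ld _ e => kE e
  | .raw e => kE e
  | .ifLt e₁ e₂ e₃ e₄ => kE e₁ + kE e₂ + kE e₃ + kE e₄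
  | .ifEq e₁ e₂ e₃ e₄ => kE e₁ + kE e₂ + kE e₃ + kE e₄

def kC : C → ℕ
  | .skip => 0
  | .asg _ e => kE e
  | .sto _ e₁ e₂ => kE e₁ + kE e₂
  | .coin _ => 0
  | .seq p q => kC p + kC q
  | .ite e₁ e₂ p q => kE e₁ + kE e₂ + kC p + kC q
  | .for_ _ e p => kE e + kC p

theorem one_le_kE (e : E) : 1 ≤ kE e := by
  induction e <;> simp only [kE] <;> omega

/-- The fixed parameters. -/
structure Par (env : Env) (W K b cap : ℕ) : Prop where
  two : 2 ≤ cap
  b_eq : b = env.inp.length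
  b_le : b ≤ cap
  inp : ∀ i, env.inp.getD i 0 ≤ cap

section

variable {env : Env} {W K b cap : ℕ}

theorem pow_mono' (hP : Par env W K b cap) {x y : ℕ} (h : x ≤ y) : cap ^ x ≤ cap ^ y :=
  Nat.pow_le_pow_right (by have := hP.two; omega) h

theorem two_le_pow (hP : Par env W K b cap) {x : ℕ} (h : 1 ≤ x) : 2 ≤ cap ^ x := by
  have h1 := pow_mono' hP h
  have h2 := hP.two
  rw [pow_one] at h1
  omega

theorem eval_le (hP : Par env W K b cap) {s : St} (hs : s.Bdd cap) (e : E) :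
    e.eval env s ≤ cap ^ kE e := by
  have h2 := hP.two
  induction e with
  | reg x => simp only [E.eval, kE, pow_one]; exact hs.reg x
  | const c =>
    simp only [E.eval, kE]
    have h3 : c < 2 ^ c := Nat.lt_two_pow_self
    have h4 : 2 ^ c ≤ cap ^ c := Nat.pow_le_pow_left h2 c
    have h5 := pow_mono' hP (show c ≤ c + 1 by omega)
    omega
  | add e₁ e₂ h₁ h₂ =>
    simp only [E.eval, kE, pow_add]
    have a1 := two_le_pow hP (one_le_kE e₁)
    have a2 := two_le_pow hP (one_le_kE e₂)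
    nlinarith
  | sub e₁ e₂ h₁ h₂ =>
    simp only [E.eval, kE]
    have := pow_mono' hP (show kE e₁ ≤ kE e₁ + kE e₂ by omega)
    omega
  | mul e₁ e₂ h₁ h₂ =>
    simp only [E.eval, kE, pow_add]
    exact Nat.mul_le_mul h₁ h₂
  | div e₁ e₂ h₁ h₂ =>
    simp only [E.eval, kE]
    have := pow_mono' hP (show kE e₁ ≤ kE e₁ + kE e₂ by omega)
    have := Nat.div_le_self (e₁.eval env s) (e₂.eval env s)
    omega
  | mod e₁ e₂ h₁ h₂ =>
    simp only [E.eval, kE]
    have := pow_mono' hP (show kE e₁ ≤ kE e₁ + kE e₂ by omega)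
    have := Nat.mod_le (e₁.eval env s) (e₂.eval env s)
    omega
  | ld j e ih =>
    simp only [E.eval, kE]
    have := pow_mono' hP (one_le_kE e)
    rw [pow_one] at this
    exact (hs.arr _ _).trans this
  | raw e ih =>
    simp only [E.eval, kE]
    have := pow_mono' hP (one_le_kE e)
    rw [pow_one] at this
    exact (hP.inp _).trans this
  | ifLt e₁ e₂ e₃ e₄ h₁ h₂ h₃ h₄ =>
    simp only [E.eval, kE]
    have := pow_mono' hP (show kE e₃ ≤ kE e₁ + kE e₂ + kE e₃ + kE e₄ by omega)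
    have := pow_mono' hP (show kE e₄ ≤ kE e₁ + kE e₂ + kE e₃ + kE e₄ by omega)
    split_ifs <;> omega
  | ifEq e₁ e₂ e₃ e₄ h₁ h₂ h₃ h₄ =>
    simp only [E.eval, kE]
    have := pow_mono' hP (show kE e₃ ≤ kE e₁ + kE e₂ + kE e₃ + kE e₄ by omega)
    have := pow_mono' hP (show kE e₄ ≤ kE e₁ + kE e₂ + kE e₃ + kE e₄ by omega)
    split_ifs <;> omega

theorem addr_le (hP : Par env W K b cap) {k v j : ℕ} (hv : v ≤ cap ^ k) (hj : j < K)
    (hW : cap ^ (k + K + 2) ≤ W) : K * v + j + b ≤ W := by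
  have h2 := hP.two
  have hb := hP.b_le
  have h3 : K < 2 ^ K := Nat.lt_two_pow_self
  have h4 : 2 ^ K ≤ cap ^ K := Nat.pow_le_pow_left h2 K
  have h5 : K * v ≤ cap ^ K * cap ^ k := Nat.mul_le_mul (by omega) hv
  have h6 : cap ^ (k + K + 2) = cap ^ K * cap ^ k * (cap * cap) := by ring
  have h7 : 1 ≤ cap ^ k := Nat.one_le_pow _ _ (by omega)
  have h8 : cap ^ K ≤ cap ^ K * cap ^ k := Nat.le_mul_of_pos_right _ (by omega)
  have h9 : 4 ≤ cap * cap := by nlinarith
  set X := cap ^ K * cap ^ k with hX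
  have h10 : X * (cap * cap) ≥ X * 2 + X * cap := by
    have : cap * cap ≥ 2 + cap := by nlinarith
    nlinarith
  have h11 : X * cap ≥ cap := Nat.le_mul_of_pos_left _ (by omega)
  omega

theorem runs_cpy {ω : ℕ → Bool} {S : State} {i d x : ℕ} {Q : State → ℕ → Prop} (hx : x ≠ 1)
    (h : S.reg x ≤ W) (hQ : Q ⟨update (update S.reg 1 0) d (S.reg x), S.mem⟩ i) :
    Runs W ω (cpy d x) S i 2 Q := by
  apply runs_seq (T := 1) (T' := 1)
  apply runs_const (Nat.zero_le _)
  apply runs_op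
  · simpa [Op.eval, Function.update_of_ne hx] using h
  · simpa [Op.eval, Function.update_of_ne hx] using hQ

theorem runs_addr {ω : ℕ → Bool} {S : State} {i j h : ℕ} {Q : State → ℕ → Prop}
    (hh : h ≠ 1) (hb : S.reg 0 = b) (hK : K ≤ W) (hv : K * S.reg h + j + b ≤ W)
    (hQ : Q ⟨update (update S.reg 2 j) 1 (b + (K * S.reg h + j)), S.mem⟩ i) :
    Runs W ω (addr K j h) S i 5 Q := by
  apply runs_seq (T := 1) (T' := 4)
  apply runs_const hK
  apply runs_seq (T := 1) (T' := 3)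
  apply runs_op
  · simp only [Op.eval, Function.update_self, Function.update_of_ne hh]
    omega
  apply runs_seq (T := 1) (T' := 2)
  apply runs_const (by omega)
  apply runs_seq (T := 1) (T' := 1)
  have n1 : (1 : ℕ) ≠ 2 := by omega
  have n3 : (0 : ℕ) ≠ 2 := by omega
  have n4 : (0 : ℕ) ≠ 1 := by omega
  apply runs_op
  · simp only [Op.eval, Function.update_self, Function.update_of_ne hh, Function.update_of_ne n1]
    omega
  apply runs_op
  · simp only [Op.eval, Function.update_self, Function.update_of_ne hh, Function.update_of_ne n1,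
      Function.update_of_ne n3, Function.update_of_ne n4, hb]
    omega
  · simp only [Op.eval, Function.update_self, Function.update_of_ne hh, Function.update_of_ne n1,
      Function.update_of_ne n3, Function.update_of_ne n4, hb]
    have e : update (update (update (update (update S.reg 1 K) 1 (K * S.reg h)) 2 j) 1
        (K * S.reg h + j)) 1 (K * S.reg h + j + b) =
        update (update S.reg 2 j) 1 (b + (K * S.reg h + j)) := by
      funext y
      simp only [Function.update_apply]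
      split_ifs <;> first | rfl | omega
    rw [e]
    exact hQ

/-- Only the scratch registers and the temporaries from `t` on have changed. -/
structure Frame (t : ℕ) (S S' : State) : Prop where
  mem : S'.mem = S.mem
  reg : ∀ y, y ≠ 1 → y ≠ 2 → (∀ i, t ≤ i → y ≠ tm i) → S'.reg y = S.reg y

theorem Frame.refl (t : ℕ) (S : State) : Frame t S S := ⟨rfl, fun _ _ _ _ => rfl⟩

theorem Frame.trans {t t' : ℕ} {S S' S'' : State} (h : Frame t S S') (h' : Frame t' S' S'')
    (ht : t ≤ t') : Frame t S S'' :=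
  ⟨h'.mem.trans h.mem, fun y h1 h2 h3 =>
    (h'.reg y h1 h2 fun i hi => h3 i (ht.trans hi)).trans (h.reg y h1 h2 h3)⟩

theorem Frame.of_update {t y v : ℕ} {S S' : State} (h : Frame t S S')
    (hy : y = 1 ∨ y = 2 ∨ ∃ i, t ≤ i ∧ y = tm i) :
    Frame t S ⟨update S'.reg y v, S'.mem⟩ :=
  ⟨h.mem, fun z h1 h2 h3 => by
    have : z ≠ y := by
      rintro rfl
      rcases hy with hy | hy | ⟨i, hi, hy⟩
      · exact h1 hy
      · exact h2 hy
      · exact h3 i hi hy
    simpa [Function.update_of_ne this] using h.reg z h1 h2 h3⟩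

theorem Frame.tm {t t' : ℕ} {S S' : State} (h : Frame t S S') (ht : t' < t) :
    S'.reg (tm t') = S.reg (tm t') :=
  h.reg _ (by unfold Comp.tm; omega) (by unfold Comp.tm; omega) fun i hi => by
    unfold Comp.tm; omega

theorem Frame.sim {t : ℕ} {s : St} {S S' : State} (h : Frame t S S')
    (hS : Sim b K env s S) : Sim b K env s S' where
  base := (h.reg _ (by omega) (by omega) fun i _ => by unfold Comp.tm; omega).trans hS.base
  reg x := (h.reg _ (by omega) (by omega) fun i _ => by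
    unfold Comp.tm; omega).trans (hS.reg x)
  arr j hj i := by rw [h.mem]; exact hS.arr j hj i
  inp i hi := by rw [h.mem]; exact hS.inp i hi

/-- Binary operations. -/
theorem runs_bin {ω : ℕ → Bool} {s : St} {f : Op} {e₁ e₂ : E} {n : ℕ}
    (h₁ : ∀ (t : ℕ) (S : State) (i : ℕ) (Q : State → ℕ → Prop), Sim b K env s S →
      (∀ S' : State, Frame t S S' → S'.reg (tm t) = e₁.eval env s → Q S' i) →
      Runs W ω (compE K e₁ t) S i (7 * sizeE e₁) Q)
    (h₂ : ∀ (t : ℕ) (S : State) (i : ℕ) (Q : State → ℕ → Prop), Sim b K env s S →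
      (∀ S' : State, Frame t S S' → S'.reg (tm t) = e₂.eval env s → Q S' i) →
      Runs W ω (compE K e₂ t) S i (7 * sizeE e₂) Q)
    (hle : f.eval (e₁.eval env s) (e₂.eval env s) ≤ W)
    (hn : n = sizeE e₁ + sizeE e₂ + 1)
    (t : ℕ) (S : State) (i : ℕ) (Q : State → ℕ → Prop) (hS : Sim b K env s S)
    (hQ : ∀ S' : State, Frame t S S' →
      S'.reg (tm t) = f.eval (e₁.eval env s) (e₂.eval env s) → Q S' i) :
    Runs W ω (.seq (compE K e₁ t) (.seq (compE K e₂ (t + 1))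
      (.op f (tm t) (tm t) (tm (t + 1))))) S i (7 * n) Q := by
  subst hn
  refine Runs.mono (T := 7 * sizeE e₁ + (7 * sizeE e₂ + 1)) ?_ (by omega) (fun _ _ h => h)
  apply runs_seq
  apply h₁ t S i _ hS
  intro S₁ hf₁ hv₁
  apply runs_seq
  apply h₂ (t + 1) S₁ i _ (hf₁.sim hS)
  intro S₂ hf₂ hv₂
  have hv₁' : S₂.reg (tm t) = e₁.eval env s := (hf₂.tm (Nat.lt_succ_self t)).trans hv₁
  apply runs_op
  · rw [hv₁', hv₂]; exact hle
  · refine hQ _ ?_ ?_
    · exact (hf₁.trans hf₂ (Nat.le_succ t)).of_update (Or.inr (Or.inr ⟨t, le_rfl, rfl⟩))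
    · simp only [Function.update_self, hv₁', hv₂]

/-- Conditional expressions. -/
theorem runs_cond {ω : ℕ → Bool} {s : St} {e₁ e₂ : E} {T : ℕ} {c : Test}
    {P : Prop} {p q : RProg} {t : ℕ}
    (hc : ∀ r : ℕ → ℕ, r (tm t) = e₁.eval env s → r (tm (t + 1)) = e₂.eval env s →
      (c.holds r ↔ P))
    (h₁ : ∀ (t : ℕ) (S : State) (i : ℕ) (Q : State → ℕ → Prop), Sim b K env s S →
      (∀ S' : State, Frame t S S' → S'.reg (tm t) = e₁.eval env s → Q S' i) →
      Runs W ω (compE K e₁ t) S i (7 * sizeE e₁) Q)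
    (h₂ : ∀ (t : ℕ) (S : State) (i : ℕ) (Q : State → ℕ → Prop), Sim b K env s S →
      (∀ S' : State, Frame t S S' → S'.reg (tm t) = e₂.eval env s → Q S' i) →
      Runs W ω (compE K e₂ t) S i (7 * sizeE e₂) Q)
    (S : State) (i : ℕ) (Q : State → ℕ → Prop) (hS : Sim b K env s S)
    (h3 : ∀ S' : State, Frame t S S' → P → Runs W ω p S' i T Q)
    (h4 : ∀ S' : State, Frame t S S' → ¬ P → Runs W ω q S' i T Q) :
    Runs W ω (.seq (compE K e₁ t) (.seq (compE K e₂ (t + 1)) (.ite c p q))) S i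
      (7 * sizeE e₁ + (7 * sizeE e₂ + (T + 1))) Q := by
  apply runs_seq
  apply h₁ t S i _ hS
  intro S₁ hf₁ hv₁
  apply runs_seq
  apply h₂ (t + 1) S₁ i _ (hf₁.sim hS)
  intro S₂ hf₂ hv₂
  have hv₁' : S₂.reg (tm t) = e₁.eval env s := (hf₂.tm (Nat.lt_succ_self t)).trans hv₁
  have hf := hf₁.trans hf₂ (Nat.le_succ t)
  apply runs_ite
  · intro h
    exact h3 _ hf ((hc _ hv₁' hv₂).1 h)
  · intro h
    exact h4 _ hf fun h' => h ((hc _ hv₁' hv₂).2 h')

theorem runs_compE (hP : Par env W K b cap) {ω : ℕ → Bool} {s : St} (hs : s.Bdd cap) (e : E) :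
    ∀ (t : ℕ) (S : State) (i : ℕ) (Q : State → ℕ → Prop), okE K e → cap ^ (kE e + K + 2) ≤ W →
    Sim b K env s S →
    (∀ S' : State, Frame t S S' → S'.reg (tm t) = e.eval env s → Q S' i) →
    Runs W ω (compE K e t) S i (7 * sizeE e) Q := by
  induction e with
  | reg x =>
    intro t S i Q _ hW hS hQ
    refine Runs.mono (T := 2) ?_ (by simp [sizeE]) (fun _ _ h => h)
    apply runs_cpy
    · unfold vr; omega
    · rw [show S.reg (vr x) = s.r x from hS.reg x]
      have := eval_le hP hs (.reg x)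
      simp only [E.eval] at this
      exact this.trans ((pow_mono' hP (by omega)).trans hW)
    · refine hQ _ ?_ ?_
      · exact (((Frame.refl t S).of_update (Or.inl rfl)).of_update
          (Or.inr (Or.inr ⟨t, le_rfl, rfl⟩)))
      · simp only [Function.update_self]
        exact hS.reg x
  | const c =>
    intro t S i Q _ hW hS hQ
    refine Runs.mono (T := 1) ?_ (by simp [sizeE]) (fun _ _ h => h)
    apply runs_const
    · have := eval_le hP hs (.const c)
      simp only [E.eval] at this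
      exact this.trans ((pow_mono' hP (by omega)).trans hW)
    · exact hQ _ ((Frame.refl t S).of_update (Or.inr (Or.inr ⟨t, le_rfl, rfl⟩)))
        (by simp only [Function.update_self, E.eval])
  | add e₁ e₂ h₁ h₂ =>
    intro t S i Q hok hW hS hQ
    have hk : kE (.add e₁ e₂) = kE e₁ + kE e₂ := rfl
    have w1 : cap ^ (kE e₁ + K + 2) ≤ W := (pow_mono' hP (by omega)).trans hW
    have w2 : cap ^ (kE e₂ + K + 2) ≤ W := (pow_mono' hP (by omega)).trans hW
    have w3 := (eval_le hP hs (.add e₁ e₂)).trans ((pow_mono' hP (by omega)).trans hW)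
    exact runs_bin (f := .add) (fun t S i Q => h₁ t S i Q hok.1 w1)
      (fun t S i Q => h₂ t S i Q hok.2 w2) w3 rfl t S i Q hS hQ
  | sub e₁ e₂ h₁ h₂ =>
    intro t S i Q hok hW hS hQ
    have hk : kE (.sub e₁ e₂) = kE e₁ + kE e₂ := rfl
    have w1 : cap ^ (kE e₁ + K + 2) ≤ W := (pow_mono' hP (by omega)).trans hW
    have w2 : cap ^ (kE e₂ + K + 2) ≤ W := (pow_mono' hP (by omega)).trans hW
    have w3 := (eval_le hP hs (.sub e₁ e₂)).trans ((pow_mono' hP (by omega)).trans hW)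
    exact runs_bin (f := .sub) (fun t S i Q => h₁ t S i Q hok.1 w1)
      (fun t S i Q => h₂ t S i Q hok.2 w2) w3 rfl t S i Q hS hQ
  | mul e₁ e₂ h₁ h₂ =>
    intro t S i Q hok hW hS hQ
    have hk : kE (.mul e₁ e₂) = kE e₁ + kE e₂ := rfl
    have w1 : cap ^ (kE e₁ + K + 2) ≤ W := (pow_mono' hP (by omega)).trans hW
    have w2 : cap ^ (kE e₂ + K + 2) ≤ W := (pow_mono' hP (by omega)).trans hW
    have w3 := (eval_le hP hs (.mul e₁ e₂)).trans ((pow_mono' hP (by omega)).trans hW)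
    exact runs_bin (f := .mul) (fun t S i Q => h₁ t S i Q hok.1 w1)
      (fun t S i Q => h₂ t S i Q hok.2 w2) w3 rfl t S i Q hS hQ
  | div e₁ e₂ h₁ h₂ =>
    intro t S i Q hok hW hS hQ
    have hk : kE (.div e₁ e₂) = kE e₁ + kE e₂ := rfl
    have w1 : cap ^ (kE e₁ + K + 2) ≤ W := (pow_mono' hP (by omega)).trans hW
    have w2 : cap ^ (kE e₂ + K + 2) ≤ W := (pow_mono' hP (by omega)).trans hW
    have w3 := (eval_le hP hs (.div e₁ e₂)).trans ((pow_mono' hP (by omega)).trans hW)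
    exact runs_bin (f := .div) (fun t S i Q => h₁ t S i Q hok.1 w1)
      (fun t S i Q => h₂ t S i Q hok.2 w2) w3 rfl t S i Q hS hQ
  | mod e₁ e₂ h₁ h₂ =>
    intro t S i Q hok hW hS hQ
    have hk : kE (.mod e₁ e₂) = kE e₁ + kE e₂ := rfl
    have w1 : cap ^ (kE e₁ + K + 2) ≤ W := (pow_mono' hP (by omega)).trans hW
    have w2 : cap ^ (kE e₂ + K + 2) ≤ W := (pow_mono' hP (by omega)).trans hW
    have w3 := (eval_le hP hs (.mod e₁ e₂)).trans ((pow_mono' hP (by omega)).trans hW)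
    exact runs_bin (f := .mod) (fun t S i Q => h₁ t S i Q hok.1 w1)
      (fun t S i Q => h₂ t S i Q hok.2 w2) w3 rfl t S i Q hS hQ
  | ld j e ih =>
    intro t S i Q hok hW hS hQ
    have hk : kE (.ld j e) = kE e := rfl
    rw [hk] at hW
    refine Runs.mono (T := 7 * sizeE e + (5 + 1)) ?_
      (by simp only [sizeE]; omega) (fun _ _ h => h)
    apply runs_seq
    apply ih t S i _ hok.2 hW hS
    intro S₁ hf₁ hv₁
    have hS₁ := hf₁.sim hS
    apply runs_seq
    have ha := addr_le hP (eval_le hP hs e) hok.1 hW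
    have hKW : K ≤ W := by
      have := addr_le hP (v := 1) (k := kE e) (j := 0)
        (Nat.one_le_pow _ _ (by have := hP.two; omega)) (by have := hok.1; omega) hW
      omega
    apply runs_addr
    · unfold tm; omega
    · exact hS₁.base
    · exact hKW
    · rw [hv₁]; exact ha
    apply runs_load
    refine hQ _ ?_ ?_
    · exact ((hf₁.of_update (Or.inr (Or.inl rfl))).of_update (Or.inl rfl)).of_update
        (Or.inr (Or.inr ⟨t, le_rfl, rfl⟩))
    · simp only [Function.update_self, hv₁]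
      exact hS₁.arr j hok.1 _
  | raw e ih =>
    intro t S i Q hok hW hS hQ
    have hk : kE (.raw e) = kE e := rfl
    rw [hk] at hW
    refine Runs.mono (T := 7 * sizeE e + (1 + 1)) ?_
      (by simp only [sizeE]; omega) (fun _ _ h => h)
    apply runs_seq
    apply ih t S i _ hok hW hS
    intro S₁ hf₁ hv₁
    have hS₁ := hf₁.sim hS
    apply runs_ite
    · intro hlt
      have hlt : S₁.reg (tm t) < S₁.reg 0 := hlt
      rw [hv₁, hS₁.base] at hlt
      apply runs_load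
      refine hQ _ (hf₁.of_update (Or.inr (Or.inr ⟨t, le_rfl, rfl⟩))) ?_
      simp only [Function.update_self, hv₁, E.eval]
      exact hS₁.inp _ hlt
    · intro hlt
      have hlt : ¬ S₁.reg (tm t) < S₁.reg 0 := hlt
      rw [hv₁, hS₁.base] at hlt
      apply runs_const (Nat.zero_le _)
      refine hQ _ (hf₁.of_update (Or.inr (Or.inr ⟨t, le_rfl, rfl⟩))) ?_
      simp only [Function.update_self, E.eval]
      rw [List.getD_eq_default _ _ (by have := hP.b_eq; omega)]
  | ifLt e₁ e₂ e₃ e₄ h₁ h₂ h₃ h₄ =>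
    intro t S i Q hok hW hS hQ
    have hk : kE (.ifLt e₁ e₂ e₃ e₄) = kE e₁ + kE e₂ + kE e₃ + kE e₄ := rfl
    have w1 : cap ^ (kE e₁ + K + 2) ≤ W := (pow_mono' hP (by omega)).trans hW
    have w2 : cap ^ (kE e₂ + K + 2) ≤ W := (pow_mono' hP (by omega)).trans hW
    have w3 : cap ^ (kE e₃ + K + 2) ≤ W := (pow_mono' hP (by omega)).trans hW
    have w4 : cap ^ (kE e₄ + K + 2) ≤ W := (pow_mono' hP (by omega)).trans hW
    refine Runs.mono (T := 7 * sizeE e₁ + (7 * sizeE e₂ + (7 * (sizeE e₃ + sizeE e₄) + 1))) ?_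
      (by simp only [sizeE]; omega) (fun _ _ h => h)
    refine runs_cond (P := e₁.eval env s < e₂.eval env s) ?_
      (fun t S i Q => h₁ t S i Q hok.1 w1) (fun t S i Q => h₂ t S i Q hok.2.1 w2)
      S i Q hS ?_ ?_
    · intro r hr1 hr2
      simp only [Test.holds, hr1, hr2]
    · intro S₁ hf₁ hc
      refine Runs.mono (T := 7 * sizeE e₃) ?_ (by omega) (fun _ _ h => h)
      apply h₃ t S₁ i _ hok.2.2.1 w3 (hf₁.sim hS)
      intro S₂ hf₂ hv₂
      refine hQ _ (hf₁.trans hf₂ le_rfl) ?_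
      simp only [E.eval, if_pos hc, hv₂]
    · intro S₁ hf₁ hc
      refine Runs.mono (T := 7 * sizeE e₄) ?_ (by omega) (fun _ _ h => h)
      apply h₄ t S₁ i _ hok.2.2.2 w4 (hf₁.sim hS)
      intro S₂ hf₂ hv₂
      refine hQ _ (hf₁.trans hf₂ le_rfl) ?_
      simp only [E.eval, if_neg hc, hv₂]
  | ifEq e₁ e₂ e₃ e₄ h₁ h₂ h₃ h₄ =>
    intro t S i Q hok hW hS hQ
    have hk : kE (.ifEq e₁ e₂ e₃ e₄) = kE e₁ + kE e₂ + kE e₃ + kE e₄ := rfl
    have w1 : cap ^ (kE e₁ + K + 2) ≤ W := (pow_mono' hP (by omega)).trans hW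
    have w2 : cap ^ (kE e₂ + K + 2) ≤ W := (pow_mono' hP (by omega)).trans hW
    have w3 : cap ^ (kE e₃ + K + 2) ≤ W := (pow_mono' hP (by omega)).trans hW
    have w4 : cap ^ (kE e₄ + K + 2) ≤ W := (pow_mono' hP (by omega)).trans hW
    refine Runs.mono (T := 7 * sizeE e₁ + (7 * sizeE e₂ + (7 * (sizeE e₃ + sizeE e₄) + 1))) ?_
      (by simp only [sizeE]; omega) (fun _ _ h => h)
    refine runs_cond (P := e₁.eval env s = e₂.eval env s) ?_
      (fun t S i Q => h₁ t S i Q hok.1 w1) (fun t S i Q => h₂ t S i Q hok.2.1 w2)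
      S i Q hS ?_ ?_
    · intro r hr1 hr2
      simp only [Test.holds, hr1, hr2]
    · intro S₁ hf₁ hc
      refine Runs.mono (T := 7 * sizeE e₃) ?_ (by omega) (fun _ _ h => h)
      apply h₃ t S₁ i _ hok.2.2.1 w3 (hf₁.sim hS)
      intro S₂ hf₂ hv₂
      refine hQ _ (hf₁.trans hf₂ le_rfl) ?_
      simp only [E.eval, if_pos hc, hv₂]
    · intro S₁ hf₁ hc
      refine Runs.mono (T := 7 * sizeE e₄) ?_ (by omega) (fun _ _ h => h)
      apply h₄ t S₁ i _ hok.2.2.2 w4 (hf₁.sim hS)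
      intro S₂ hf₂ hv₂
      refine hQ _ (hf₁.trans hf₂ le_rfl) ?_
      simp only [E.eval, if_neg hc, hv₂]

end

end Comp

end Vale.Agent.P305.MM
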