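import Vale.Agent.P305.MM.CompE

/-! MODULE A1, part 3: correctness of the compiler for commands (`compile_correct`). -/

set_option autoImplicit false

namespace Vale.Agent.P305.MM

open Function (update)

namespace Comp

section

variable {env : Env} {W K b cap : ℕ}

/-! ### Commands -/

/-- Temporaries below `t` are unchanged. -/
structure CFrame (t : ℕ) (S S' : State) : Prop where
  tm : ∀ i, i < t → S'.reg (tm i) = S.reg (tm i)

theorem CFrame.refl (t : ℕ) (S : State) : CFrame t S S := ⟨fun _ _ => rfl⟩

theorem CFrame.trans {t t' : ℕ} {S S' S'' : State} (h : CFrame t S S') (h' : CFrame t' S' S'')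
    (ht : t ≤ t') : CFrame t S S'' :=
  ⟨fun i hi => (h'.tm i (hi.trans_le ht)).trans (h.tm i hi)⟩

theorem CFrame.of_update {t y v : ℕ} {S S' : State} (h : CFrame t S S')
    (hy : ∀ i, i < t → y ≠ Comp.tm i) : CFrame t S ⟨update S'.reg y v, S'.mem⟩ :=
  ⟨fun i hi => by simpa [Function.update_of_ne (hy i hi).symm] using h.tm i hi⟩

theorem Frame.cframe {t : ℕ} {S S' : State} (h : Frame t S S') : CFrame t S S' :=
  ⟨fun _ hi => h.tm hi⟩

theorem Sim.update_vr {s : St} {S : State} (hS : Sim b K env s S) {x v : ℕ} :
    Sim b K env (s.set x v) ⟨update S.reg (vr x) v, S.mem⟩ where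
  base := by
    have : (0 : ℕ) ≠ vr x := by unfold vr; omega
    simpa [Function.update_of_ne this] using hS.base
  reg y := by
    by_cases h : y = x
    · subst h; simp [vr]
    · have : 2 * y + 10 ≠ vr x := by unfold vr; omega
      simpa [Function.update_of_ne this, Function.update_of_ne h] using hS.reg y
  arr := hS.arr
  inp := hS.inp

theorem Sim.update_other {s : St} {S : State} (hS : Sim b K env s S) {y v : ℕ}
    (h0 : y ≠ 0) (hx : ∀ x, y ≠ vr x) : Sim b K env s ⟨update S.reg y v, S.mem⟩ where
  base := by simpa [Function.update_of_ne h0.symm] using hS.base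
  reg x := by
    have : 2 * x + 10 ≠ y := (hx x).symm
    simpa [Function.update_of_ne this] using hS.reg x
  arr := hS.arr
  inp := hS.inp

theorem Sim.update_arr {s : St} {S : State} (hS : Sim b K env s S) {j i v : ℕ} (hj : j < K) :
    Sim b K env (s.put j i v) ⟨S.reg, update S.mem (b + (K * i + j)) v⟩ where
  base := hS.base
  reg := hS.reg
  arr j' hj' i' := by
    by_cases h : j' = j ∧ i' = i
    · obtain ⟨rfl, rfl⟩ := h; simp
    · have hne : b + (K * i' + j') ≠ b + (K * i + j) := by
        intro he
        have he : K * i' + j' = K * i + j := by omega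
        have h1 : (K * i' + j') / K = i' := by
          rw [Nat.mul_add_div (by omega), Nat.div_eq_of_lt hj', add_zero]
        have h2 : (K * i + j) / K = i := by
          rw [Nat.mul_add_div (by omega), Nat.div_eq_of_lt hj, add_zero]
        have h3 : i' = i := by rw [← h1, he, h2]
        subst h3
        exact h ⟨by omega, rfl⟩
      simp only [Function.update_of_ne hne, St.put_a]
      rw [hS.arr j' hj' i']
      by_cases h' : j' = j
      · subst h'
        have : i' ≠ i := fun h'' => h ⟨rfl, h''⟩
        simp [Function.update_of_ne this]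
      · simp [Function.update_of_ne h']
  inp i' hi' := by
    have : i' ≠ b + (K * i + j) := by omega
    simpa [Function.update_of_ne this] using hS.inp i' hi'

theorem runs_set {ω : ℕ → Bool} {s : St} {S : State} {x d t i : ℕ} {Q : State → ℕ → Prop} {v : ℕ}
    (hS : Sim b K env s S) (hd : S.reg d = v) (hv : v ≤ W) (hd1 : d ≠ 1)
    (hQ : ∀ S', Sim b K env (s.set x v) S' → CFrame t S S' →
      (∀ y, y ≠ 1 → y ≠ vr x → S'.reg y = S.reg y) → Q S' i) :
    Runs W ω (cpy (vr x) d) S i 2 Q := by
  apply runs_cpy hd1
  · rw [hd]; exact hv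
  · rw [hd]
    refine hQ _ ?_ ?_ ?_
    · exact Sim.update_vr (Sim.update_other hS (y := 1) (v := 0) (by omega)
        (fun x => by unfold vr; omega))
    · exact CFrame.of_update ((CFrame.refl t S).of_update
        (fun i _ => by unfold Comp.tm; omega)) (fun i _ => by unfold vr Comp.tm; omega)
    · intro y h1 h2
      simp [Function.update_of_ne h1, Function.update_of_ne h2]

theorem one_le_cost (c : C) (s : St) : 1 ≤ cost env c s := by
  induction c generalizing s with
  | seq p q hp hq => simp only [cost]; exact (hp s).trans (Nat.le_add_right _ _)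
  | ite e₁ e₂ p q hp hq => simp only [cost]; exact Nat.le_add_right _ _
  | for_ x e p hp => simp only [cost]; exact Nat.le_add_right _ _
  | _ => simp only [cost]; exact le_rfl

/-- Correctness of the compiler. -/
theorem runs_compC (hP : Par env W K b cap) (c : C) :
    ∀ (t : ℕ) (s : St) (S : State) (Q : State → ℕ → Prop), Sim b K env s S → s.Bdd cap →
    Safe env cap c s → okC K c → cap ^ (kC c + K + 2) ≤ W →
    (∀ S' : State, Sim b K env (run env c s) S' → CFrame t S S' → Q S' (run env c s).pos) →
    Runs W env.ω (compC K c t) S s.pos (10 * sizeC c * cost env c s) Q := by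
  have hcW : ∀ {k : ℕ}, cap ^ (k + K + 2) ≤ W → cap ≤ W := by
    intro k hk
    have := pow_mono' hP (show 1 ≤ k + K + 2 by omega)
    rw [pow_one] at this
    exact this.trans hk
  induction c with
  | skip =>
    intro t s S Q hS _ _ _ _ hQ
    refine Runs.mono (T := 1) ?_ ?_ (fun _ _ h => h)
    · apply runs_const (Nat.zero_le _)
      simp only [run] at hQ
      refine hQ _ ?_ ?_
      · exact Sim.update_other hS (by omega) (fun x => by unfold vr; omega)
      · exact (CFrame.refl t S).of_update (fun i _ => by unfold Comp.tm; omega)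
    · simp only [sizeC, cost]; omega
  | asg x e =>
    intro t s S Q hS hs hsafe hok hW hQ
    refine Runs.mono (T := 7 * sizeE e + 2) ?_ ?_ (fun _ _ h => h)
    · apply runs_seq
      apply runs_compE hP hs e t S _ _ hok hW hS
      intro S₁ hf₁ hv₁
      simp only [Safe] at hsafe
      simp only [run] at hQ
      apply runs_set (t := t) (hf₁.sim hS) hv₁ (hsafe.trans (hcW hW)) (by unfold tm; omega)
      intro S' h1 h2 _
      exact hQ _ h1 (hf₁.cframe.trans h2 le_rfl)
    · simp only [sizeC, cost]; omega
  | sto j e₁ e₂ =>
    intro t s S Q hS hs hsafe hok hW hQ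
    have hk : kC (.sto j e₁ e₂) = kE e₁ + kE e₂ := rfl
    rw [hk] at hW
    have w1 : cap ^ (kE e₁ + K + 2) ≤ W := (pow_mono' hP (by omega)).trans hW
    have w2 : cap ^ (kE e₂ + K + 2) ≤ W := (pow_mono' hP (by omega)).trans hW
    refine Runs.mono (T := 7 * sizeE e₁ + (7 * sizeE e₂ + (5 + 1))) ?_ ?_ (fun _ _ h => h)
    · apply runs_seq
      apply runs_compE hP hs e₁ t S _ _ hok.2.1 w1 hS
      intro S₁ hf₁ hv₁
      apply runs_seq
      apply runs_compE hP hs e₂ (t + 1) S₁ _ _ hok.2.2 w2 (hf₁.sim hS)
      intro S₂ hf₂ hv₂
      have hS₂ := hf₂.sim (hf₁.sim hS)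
      have hv₁' : S₂.reg (tm t) = e₁.eval env s := (hf₂.tm (Nat.lt_succ_self t)).trans hv₁
      have ha := addr_le hP (eval_le hP hs e₁) hok.1 w1
      have hKW : K ≤ W := by
        have := addr_le hP (v := 1) (k := kE e₁) (j := 0)
          (Nat.one_le_pow _ _ (by have := hP.two; omega)) (by have := hok.1; omega) w1
        omega
      apply runs_seq
      apply runs_addr
      · unfold tm; omega
      · exact hS₂.base
      · exact hKW
      · rw [hv₁']; exact ha
      apply runs_store
      have n1 : tm (t + 1) ≠ 1 := by unfold tm; omega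
      have n2 : tm (t + 1) ≠ 2 := by unfold tm; omega
      simp only [Function.update_self, Function.update_of_ne n1, Function.update_of_ne n2]
      rw [hv₁', hv₂]
      simp only [run] at hQ
      refine hQ _ ?_ ?_
      · have h1 := Sim.update_other hS₂ (y := 2) (v := j) (by omega)
          (fun x => by unfold vr; omega)
        have h2 := Sim.update_other h1 (y := 1) (v := b + (K * e₁.eval env s + j)) (by omega)
          (fun x => by unfold vr; omega)
        exact Sim.update_arr h2 hok.1
      · have h0 : CFrame t S S₂ := hf₁.cframe.trans hf₂.cframe (Nat.le_succ t)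
        have h1 := h0.of_update (y := 2) (v := j) (fun i _ => by unfold Comp.tm; omega)
        have h2 := h1.of_update (y := 1) (v := b + (K * e₁.eval env s + j))
          (fun i _ => by unfold Comp.tm; omega)
        exact ⟨h2.tm⟩
    · simp only [sizeC, cost]; omega
  | coin x =>
    intro t s S Q hS hs hsafe hok hW hQ
    refine Runs.mono (T := 1) ?_ ?_ (fun _ _ h => h)
    · apply runs_coin
      · have := hcW hW; have := hP.two; omega
      simp only [run] at hQ
      refine hQ _ ?_ ?_
      · have := Sim.update_vr hS (x := x) (v := if env.ω s.pos then 1 else 0)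
        exact ⟨this.base, this.reg, this.arr, this.inp⟩
      · exact (CFrame.refl t S).of_update (fun i _ => by unfold vr Comp.tm; omega)
    · simp only [sizeC, cost]; omega
  | seq p q hp hq =>
    intro t s S Q hS hs hsafe hok hW hQ
    have hk : kC (.seq p q) = kC p + kC q := rfl
    rw [hk] at hW
    have w1 : cap ^ (kC p + K + 2) ≤ W := (pow_mono' hP (by omega)).trans hW
    have w2 : cap ^ (kC q + K + 2) ≤ W := (pow_mono' hP (by omega)).trans hW
    simp only [Safe] at hsafe
    simp only [run] at hQ
    refine Runs.mono (T := 10 * sizeC p * cost env p s +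
      10 * sizeC q * cost env q (run env p s)) ?_ ?_ (fun _ _ h => h)
    · apply runs_seq
      apply hp t s S _ hS hs hsafe.1 hok.1 w1
      intro S₁ h1 hf1
      apply hq t _ S₁ _ h1 (hsafe.1.bdd (by have := hP.two; omega) hs) hsafe.2 hok.2 w2
      intro S₂ h2 hf2
      exact hQ _ h2 (hf1.trans hf2 le_rfl)
    · simp only [sizeC, cost]
      nlinarith [Nat.zero_le (sizeC p * cost env q (run env p s)),
        Nat.zero_le (sizeC q * cost env p s)]
  | ite e₁ e₂ p q hp hq =>
    intro t s S Q hS hs hsafe hok hW hQ
    have hk : kC (.ite e₁ e₂ p q) = kE e₁ + kE e₂ + kC p + kC q := rfl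
    rw [hk] at hW
    have w1 : cap ^ (kE e₁ + K + 2) ≤ W := (pow_mono' hP (by omega)).trans hW
    have w2 : cap ^ (kE e₂ + K + 2) ≤ W := (pow_mono' hP (by omega)).trans hW
    have w3 : cap ^ (kC p + K + 2) ≤ W := (pow_mono' hP (by omega)).trans hW
    have w4 : cap ^ (kC q + K + 2) ≤ W := (pow_mono' hP (by omega)).trans hW
    simp only [Safe] at hsafe
    simp only [run] at hQ
    set T := 10 * (sizeC p + sizeC q) *
      (if e₁.eval env s < e₂.eval env s then cost env p s else cost env q s) with hT
    refine Runs.mono (T := 7 * sizeE e₁ + (7 * sizeE e₂ + (T + 1))) ?_ ?_ (fun _ _ h => h)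
    · refine runs_cond (P := e₁.eval env s < e₂.eval env s) ?_
        (fun t S i Q => runs_compE hP hs e₁ t S i Q hok.1 w1)
        (fun t S i Q => runs_compE hP hs e₂ t S i Q hok.2.1 w2) S _ Q hS ?_ ?_
      · intro r hr1 hr2
        simp only [Test.holds, hr1, hr2]
      · intro S₁ hf₁ hc
        rw [if_pos hc] at hsafe hT
        refine Runs.mono (T := 10 * sizeC p * cost env p s) ?_ ?_ (fun _ _ h => h)
        · apply hp t s S₁ _ (hf₁.sim hS) hs hsafe hok.2.2.1 w3
          intro S₂ h2 hf2
          rw [if_pos hc] at hQ
          exact hQ _ h2 (hf₁.cframe.trans hf2 le_rfl)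
        · rw [hT]
          exact Nat.mul_le_mul_right _ (by omega)
      · intro S₁ hf₁ hc
        rw [if_neg hc] at hsafe hT
        refine Runs.mono (T := 10 * sizeC q * cost env q s) ?_ ?_ (fun _ _ h => h)
        · apply hq t s S₁ _ (hf₁.sim hS) hs hsafe hok.2.2.2 w4
          intro S₂ h2 hf2
          rw [if_neg hc] at hQ
          exact hQ _ h2 (hf₁.cframe.trans hf2 le_rfl)
        · rw [hT]
          exact Nat.mul_le_mul_right _ (by omega)
    · simp only [sizeC, cost]
      generalize (if e₁.eval env s < e₂.eval env s then cost env p s else cost env q s) = a at *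
      rw [hT]
      nlinarith [Nat.zero_le (sizeE e₁ * a), Nat.zero_le (sizeE e₂ * a), Nat.zero_le a]
  | for_ x e p hp =>
    intro t s S Q hS hs hsafe hok hW hQ
    have hk : kC (.for_ x e p) = kE e + kC p := rfl
    rw [hk] at hW
    have w1 : cap ^ (kE e + K + 2) ≤ W := (pow_mono' hP (by omega)).trans hW
    have w2 : cap ^ (kC p + K + 2) ≤ W := (pow_mono' hP (by omega)).trans hW
    have hcapW := hcW w1
    have hcap2 := hP.two
    simp only [Safe] at hsafe
    simp only [run] at hQ
    set N := e.eval env s with hN
    have hNW : N ≤ W := hsafe.1.trans hcapW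
    set T : ℕ → ℕ := fun k => cost env p ((iter x (run env p) s k).set x k) with hT
    set A := 10 * sizeC p with hA
    have hbdd : ∀ k, k ≤ N → (iter x (run env p) s k).Bdd cap := by
      intro k
      induction k with
      | zero => intro _; simpa only [iter] using hs
      | succ k ih =>
        intro hk'
        simp only [iter]
        exact (hsafe.2 k (by omega)).bdd (by omega) ((ih (by omega)).set _ (by omega))
    have key : ∀ (m k : ℕ) (S₁ : State), k + m = N → Sim b K env (iter x (run env p) s k) S₁ →
        S₁.reg (tm (t + 1)) = k → S₁.reg (tm t) = N → CFrame t S S₁ →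
        Runs W env.ω (.loop (.lt (tm (t + 1)) (tm t)) (.seq (cpy (vr x) (tm (t + 1)))
        (.seq (compC K p (t + 2)) (.seq (.const 1 1)
          (.op .add (tm (t + 1)) (tm (t + 1)) 1))))) S₁ (iter x (run env p) s k).pos
          (1 + ∑ j ∈ Finset.range m, (5 + A * T (k + j))) Q := by
      intro m
      induction m with
      | zero =>
        intro k S₁ hk' hS₁ hc hb hf
        refine Runs.mono (T := 1) ?_ (by simp) (fun _ _ h => h)
        apply runs_loop_done
        · show ¬ (S₁.reg (tm (t + 1)) < S₁.reg (tm t))
          rw [hc, hb]; omega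
        · have : N = k := by omega
          rw [this] at hQ
          exact hQ _ hS₁ hf
      | succ m ih =>
        intro k S₁ hk' hS₁ hc hb hf
        refine Runs.mono (T := (2 + (A * T k + (1 + 1))) +
          (1 + ∑ j ∈ Finset.range m, (5 + A * T (k + 1 + j))) + 1) ?_ ?_ (fun _ _ h => h)
        · apply runs_loop_step
          · show S₁.reg (tm (t + 1)) < S₁.reg (tm t)
            rw [hc, hb]; omega
          apply runs_seq
          apply runs_set (t := t + 2) hS₁ hc (by omega) (by unfold tm; omega)
          intro S₂ h2 hf2 hy2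
          apply runs_seq
          apply hp (t + 2) _ S₂ _ h2 ((hbdd k (by omega)).set _ (by omega)) (hsafe.2 k (by omega))
            hok.2 w2
          intro S₃ h3 hf3
          have hc3 : S₃.reg (tm (t + 1)) = k :=
            (hf3.tm (t + 1) (by omega)).trans ((hf2.tm (t + 1) (by omega)).trans hc)
          have hb3 : S₃.reg (tm t) = N :=
            (hf3.tm t (by omega)).trans ((hf2.tm t (by omega)).trans hb)
          have n1 : tm (t + 1) ≠ 1 := by unfold tm; omega
          have n2 : tm t ≠ 1 := by unfold tm; omega
          have n3 : tm t ≠ tm (t + 1) := by unfold tm; omega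
          apply runs_seq
          apply runs_const (by omega)
          apply runs_op
          · simp only [Op.eval, Function.update_self, Function.update_of_ne n1, hc3]
            omega
          simp only [Op.eval, Function.update_self, Function.update_of_ne n1, hc3]
          apply ih (k + 1)
          · omega
          · have g1 := Sim.update_other h3 (y := 1) (v := 1) (by omega)
              (fun x => by unfold vr; omega)
            exact Sim.update_other g1 (y := tm (t + 1)) (v := k + 1) (by unfold tm; omega)
              (fun x => by unfold tm vr; omega)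
          · simp
          · simp only [Function.update_of_ne n3, Function.update_of_ne n2, hb3]
          · have g0 : CFrame t S S₃ := (hf.trans hf2 (by omega)).trans hf3 (by omega)
            have g1 := g0.of_update (y := 1) (v := 1) (fun i _ => by unfold Comp.tm; omega)
            exact g1.of_update (y := tm (t + 1)) (v := k + 1)
              (fun i _ => by unfold Comp.tm; omega)
        · rw [Finset.sum_range_succ', Finset.sum_congr rfl (fun j _ => by
            rw [show k + (j + 1) = k + 1 + j by ring] :
              ∀ j ∈ Finset.range m, 5 + A * T (k + (j + 1)) = 5 + A * T (k + 1 + j)),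
            show k + 0 = k from rfl]
          omega
    refine Runs.mono (T := 7 * sizeE e + (1 +
      (1 + ∑ j ∈ Finset.range N, (5 + A * T (0 + j))))) ?_ ?_ (fun _ _ h => h)
    · apply runs_seq
      apply runs_compE hP hs e t S _ _ hok.1 w1 hS
      intro S₁ hf₁ hv₁
      have hS₁ := hf₁.sim hS
      apply runs_seq
      apply runs_const (Nat.zero_le _)
      have n1 : tm t ≠ tm (t + 1) := by unfold tm; omega
      have hit : (iter x (run env p) s 0) = s := by simp only [iter]
      have := key N 0 ⟨update S₁.reg (tm (t + 1)) 0, S₁.mem⟩ (by omega) ?_ ?_ ?_ ?_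
      · rw [hit] at this
        exact this
      · rw [hit]
        exact Sim.update_other hS₁ (by unfold tm; omega) (fun x => by unfold tm vr; omega)
      · simp
      · simp only [Function.update_of_ne n1]
        exact hv₁
      · exact hf₁.cframe.of_update (fun i _ => by unfold Comp.tm; omega)
    · simp only [sizeC, cost]
      rw [← hN]
      have h1 : ∑ j ∈ Finset.range N, (5 + A * T (0 + j)) ≤
          10 * (sizeE e + sizeC p + 1) * ∑ j ∈ Finset.range N, (1 + T j) := by
        rw [Finset.mul_sum]
        refine Finset.sum_le_sum fun j _ => ?_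
        rw [Nat.zero_add, hA]
        generalize T j = a
        have e1 : 10 * (sizeE e + sizeC p + 1) * (1 + a) = 10 * sizeC p * a +
          (10 * (sizeE e + 1) * a + 10 * (sizeE e + sizeC p) + 10) := by ring
        omega
      have h2 : 10 * (sizeE e + sizeC p + 1) * (1 + ∑ j ∈ Finset.range N, (1 + T j))
          = 10 * (sizeE e + sizeC p + 1) +
          10 * (sizeE e + sizeC p + 1) * ∑ j ∈ Finset.range N, (1 + T j) := by ring
      have h4 : (∑ k ∈ Finset.range N, (1 + cost env p ((iter x (run env p) s k).set x k)))
        = ∑ j ∈ Finset.range N, (1 + T j) := rfl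
      rw [h4, h2]
      omega

end

end Comp

/-- Every program of the language is simulated by a program of the word RAM with random bits. -/
theorem compile_correct (c : C) : ∃ (K κ C0 : ℕ) (p : RProg), 1 ≤ K ∧
    ∀ (env : Env) (cap W : ℕ) (s : St) (S : State), 2 ≤ cap → env.inp.length ≤ cap →
      (∀ i, env.inp.getD i 0 ≤ cap) → cap ^ κ ≤ W → Sim env.inp.length K env s S → s.Bdd cap →
      Safe env cap c s →
      Runs W env.ω p S s.pos (C0 * cost env c s) (fun S' i' =>
        Sim env.inp.length K env (run env c s) S' ∧ (run env c s).Bdd cap ∧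
        i' = (run env c s).pos) := by
  refine ⟨Comp.nC c + 1, Comp.kC c + (Comp.nC c + 1) + 2, 10 * Comp.sizeC c,
    Comp.compC (Comp.nC c + 1) c 0, by omega, ?_⟩
  intro env cap W s S h2 hl hi hW hS hs hsafe
  refine Comp.runs_compC (b := env.inp.length) ⟨h2, rfl, hl, hi⟩ c 0 s S _ hS hs hsafe
    (Comp.okC_of_le c (Nat.le_succ _)) hW ?_
  intro S' h1 _
  exact ⟨h1, hsafe.bdd (by omega) hs, rfl⟩

end Vale.Agent.P305.MM
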