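import Vale.Agent.P305.MM.Compile

/-! TASK A2: prologue, epilogue, and `randSolves_of_C` from the simulation theorem. -/

set_option autoImplicit false

namespace Vale.Agent.P305.MM

open Finset
open Function (update)

section Encode

variable {n : ℕ} {G : SimpleGraph (Fin n)} (L : AdjLists G)

theorem IO.length_nbrs (v : Fin n) [Fintype (G.neighborSet v)] :
    (L.nbrs v).length = G.degree v := by
  classical
  rw [← List.toFinset_card_of_nodup (L.nodup v)]
  unfold SimpleGraph.degree
  congr 1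
  ext w
  simp only [List.mem_toFinset, L.mem_iff, SimpleGraph.mem_neighborFinset]

theorem IO.upTo_self : L.upTo n = (List.finRange n).flatMap L.nbrs := by
  unfold AdjLists.upTo
  rw [List.take_of_length_le (by simp)]

theorem IO.upTo_length : (L.upTo n).length = 2 * G.edgeSet.ncard := by
  classical
  rw [IO.upTo_self L, List.length_flatMap]
  have h1 := G.sum_degrees_eq_twice_card_edges
  have h2 : G.edgeSet.ncard = G.edgeFinset.card := by
    rw [← SimpleGraph.coe_edgeFinset, Set.ncard_coe_finset]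
  rw [h2, ← h1, ← List.sum_toFinset _ (List.nodup_finRange n)]
  · simp only [List.toFinset_finRange]
    exact Finset.sum_congr rfl fun v _ => IO.length_nbrs L v

theorem IO.upTo_le {k l : ℕ} (h : k ≤ l) : (L.upTo k).length ≤ (L.upTo l).length := by
  unfold AdjLists.upTo
  exact ((List.take_sublist_take_left h).flatMap _).length_le

theorem IO.encode_length : L.encode.length = n + 2 + (L.upTo n).length := by
  simp only [AdjLists.encode, List.length_cons, List.length_append, List.length_map,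
    List.length_range]; omega

theorem IO.encode_zero : L.encode.getD 0 0 = n := by
  simp only [AdjLists.encode, List.getD_cons_zero]

theorem IO.encode_off {k : ℕ} (hk : k ≤ n) :
    L.encode.getD (k + 1) 0 = (L.upTo k).length := by
  simp only [AdjLists.encode, List.getD_cons_succ]
  rw [List.getD_append _ _ _ _ (by simp; omega)]
  simp only [List.getD_eq_getElem?_getD, List.getElem?_map,
    List.getElem?_range (show k < n + 1 by omega), Option.map_some, Option.getD_some]

theorem IO.encode_adj (k : ℕ) :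
    L.encode.getD (n + 2 + k) 0 = ((L.upTo n).map Fin.val).getD k 0 := by
  rw [show n + 2 + k = (n + 1 + k) + 1 by omega]
  simp only [AdjLists.encode, List.getD_cons_succ]
  rw [List.getD_append_right _ _ _ _ (by simp)]
  simp only [List.length_map, List.length_range, add_tsub_cancel_left,
    List.getD_eq_getElem?_getD, List.getElem?_map]

theorem IO.encode_le (i : ℕ) : L.encode.getD i 0 ≤ n + 2 * G.edgeSet.ncard := by
  rcases i with _ | i
  · rw [IO.encode_zero L]; omega
  · by_cases h : i ≤ n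
    · rw [IO.encode_off L h, ← IO.upTo_length L]
      exact (IO.upTo_le L h).trans (by omega)
    · obtain ⟨k, rfl⟩ : ∃ k, i = n + 1 + k := ⟨i - (n + 1), by omega⟩
      rw [show n + 1 + k + 1 = n + 2 + k by omega, IO.encode_adj L]
      by_cases hk : k < ((L.upTo n).map Fin.val).length
      · rw [List.getD_eq_getElem _ _ hk, List.getElem_map]
        exact (Fin.is_lt _).le.trans (by omega)
      · rw [List.getD_eq_default _ _ (by omega)]
        omega

end Encode

/-- Register `0` gets the length of the input. -/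
def prologue : RProg :=
  .seq (.const 1 0) <| .seq (.load 2 1) <| .seq (.const 3 1) <| .seq (.op .add 4 2 3) <|
  .seq (.load 5 4) <| .seq (.op .add 6 5 4) <| .op .add 0 6 3

theorem prologue_exec {W n d : ℕ} {ω : ℕ → Bool} (S : State) (i : ℕ) (h0 : S.mem 0 = n)
    (h1 : S.mem (n + 1) = d) (hW : n + 2 + d ≤ W) :
    ∃ S', RExec W ω prologue S i 7 S' i ∧ S'.mem = S.mem ∧ S'.reg 0 = n + 2 + d ∧
      ∀ x, 10 ≤ x → S'.reg x = S.reg x := by
  refine ⟨_, .seq _ _ _ _ _ _ _ _ 1 6 (.const _ _ _ _ (by omega)) <|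
    .seq _ _ _ _ _ _ _ _ 1 5 (.load _ _ _ _) <|
    .seq _ _ _ _ _ _ _ _ 1 4 (.const _ _ _ _ (by omega)) <|
    .seq _ _ _ _ _ _ _ _ 1 3 (.op _ _ _ _ _ _ ?_) <|
    .seq _ _ _ _ _ _ _ _ 1 2 (.load _ _ _ _) <|
    .seq _ _ _ _ _ _ _ _ 1 1 (.op _ _ _ _ _ _ ?_) (.op _ _ _ _ _ _ ?_), rfl, ?_, ?_⟩
  all_goals simp [Op.eval, Function.update, h0, h1]
  all_goals first | omega | skip
  intro x hx
  have e0 : x ≠ 0 := by omega
  have e1 : x ≠ 1 := by omega
  have e2 : x ≠ 2 := by omega
  have e3 : x ≠ 3 := by omega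
  have e4 : x ≠ 4 := by omega
  have e5 : x ≠ 5 := by omega
  have e6 : x ≠ 6 := by omega
  simp [e0, e1, e2, e3, e4, e5, e6]

/-- The copy loop: register `1` = counter, `2` = number of entries, `3` = `K`, `4` = address of the
next entry, `6` = `1`. -/
def copyBody : RProg :=
  .seq (.load 5 4) <| .seq (.store 1 5) <| .seq (.op .add 4 4 3) <| .op .add 1 1 6

theorem copy_loop {W b K n : ℕ} {ω : ℕ → Bool} (f : ℕ → ℕ) (hn : n ≤ b)
    (hW : b + K * n ≤ W) (hW' : n ≤ W) :
    ∀ (m : ℕ) (S : State) (i : ℕ), m ≤ n → S.reg 1 = n - m → S.reg 2 = n → S.reg 3 = K →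
      S.reg 4 = b + K * (n - m) → S.reg 6 = 1 → (∀ x, S.mem (b + K * x) = f x) →
      (∀ x < n - m, S.mem x = f x) →
      ∃ S', RExec W ω (.loop (.lt 1 2) copyBody) S i (5 * m + 1) S' i ∧
        ∀ x < n, S'.mem x = f x := by
  intro m
  induction m with
  | zero =>
    intro S i _ h1 h2 h3 h4 h6 hf hx
    refine ⟨S, ?_, by simpa using hx⟩
    exact .loopDone _ _ _ _ (by simp [Test.holds, h1, h2])
  | succ m ih =>
    intro S i hm h1 h2 h3 h4 h6 hf hx
    obtain ⟨c, hc⟩ : ∃ c, c = n - (m + 1) := ⟨_, rfl⟩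
    rw [← hc] at h1 h4 hx
    have hcn : c < n := by omega
    have hK : K * c + K ≤ K * n := by
      calc K * c + K = K * (c + 1) := by ring
        _ ≤ K * n := Nat.mul_le_mul_left _ hcn
    obtain ⟨S1, hS1⟩ : ∃ S1 : State, S1 = ⟨update (update (update S.reg 5 (f c)) 4
      (b + K * c + K)) 1 (c + 1), update S.mem c (f c)⟩ := ⟨_, rfl⟩
    have hbody : RExec W ω copyBody S i 4 S1 i := by
      have e1 : RExec W ω (.load 5 4) S i 1 ⟨update S.reg 5 (f c), S.mem⟩ i := by
        have := RExec.load (W := W) (ω := ω) S i 5 4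
        rwa [h4, hf] at this
      have e2 : RExec W ω (.store 1 5) ⟨update S.reg 5 (f c), S.mem⟩ i 1
          ⟨update S.reg 5 (f c), update S.mem c (f c)⟩ i := by
        have := RExec.store (W := W) (ω := ω) ⟨update S.reg 5 (f c), S.mem⟩ i 1 5
        simpa [h1] using this
      have e3 : RExec W ω (.op .add 4 4 3) ⟨update S.reg 5 (f c), update S.mem c (f c)⟩ i 1
          ⟨update (update S.reg 5 (f c)) 4 (b + K * c + K), update S.mem c (f c)⟩ i := by
        have := RExec.op (W := W) (ω := ω) ⟨update S.reg 5 (f c), update S.mem c (f c)⟩ i .add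
          4 4 3 (by simp [Op.eval, Function.update, h4, h3]; omega)
        simpa [Op.eval, Function.update, h4, h3] using this
      have e4 : RExec W ω (.op .add 1 1 6)
          ⟨update (update S.reg 5 (f c)) 4 (b + K * c + K), update S.mem c (f c)⟩ i 1 S1 i := by
        have := RExec.op (W := W) (ω := ω)
          ⟨update (update S.reg 5 (f c)) 4 (b + K * c + K), update S.mem c (f c)⟩ i .add
          1 1 6 (by simp [Op.eval, Function.update, h1, h6]; omega)
        rw [hS1]
        simpa [Op.eval, Function.update, h1, h6] using this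
      exact .seq _ _ _ _ _ _ _ _ 1 3 e1 (.seq _ _ _ _ _ _ _ _ 1 2 e2
        (.seq _ _ _ _ _ _ _ _ 1 1 e3 e4))
    have hnm : n - m = c + 1 := by omega
    obtain ⟨S', hS', hf'⟩ := ih S1 i (by omega) (by rw [hS1, hnm]; simp)
      (by rw [hS1]; simp [Function.update, h2]) (by rw [hS1]; simp [Function.update, h3])
      (by rw [hS1, hnm]; simp [Function.update]; ring) (by rw [hS1]; simp [Function.update, h6])
      (by
        intro x
        rw [hS1]
        show update S.mem c (f c) (b + K * x) = f x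
        rw [Function.update_of_ne (by omega), hf])
      (by
        intro x hx'
        rw [hnm] at hx'
        rw [hS1]
        show update S.mem c (f c) x = f x
        by_cases hxc : x = c
        · rw [hxc, Function.update_self]
        · rw [Function.update_of_ne hxc, hx x (by omega)])
    refine ⟨S', ?_, hf'⟩
    have := RExec.loopStep (.lt 1 2) copyBody S S1 S' i i i 4 (5 * m + 1)
      (by simp [Test.holds, h1, h2, hcn]) hbody hS'
    have e : 4 + (5 * m + 1) + 1 = 5 * (m + 1) + 1 := by ring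
    rwa [e] at this

/-- Copy array `0` to the first cells. -/
def epilogue (K : ℕ) : RProg :=
  .seq (.const 1 0) <| .seq (.load 2 1) <| .seq (.const 3 K) <| .seq (.const 6 1) <|
  .seq (.op .add 4 0 1) (.loop (.lt 1 2) copyBody)

theorem epilogue_exec {W b K n : ℕ} {ω : ℕ → Bool} (f : ℕ → ℕ) (hn : n ≤ b)
    (hW : b + K * n ≤ W) (hK : K ≤ W) (h1W : 1 ≤ W) (S : State) (i : ℕ) (h0 : S.reg 0 = b)
    (hm : S.mem 0 = n) (hf : ∀ x, S.mem (b + K * x) = f x) :
    ∃ S', RExec W ω (epilogue K) S i (5 * n + 6) S' i ∧ ∀ x < n, S'.mem x = f x := by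
  obtain ⟨S1, hS1⟩ : ∃ S1 : State, S1 = ⟨update (update (update (update (update S.reg 1 0) 2 n)
    3 K) 6 1) 4 b, S.mem⟩ := ⟨_, rfl⟩
  obtain ⟨S', hS', hf'⟩ := copy_loop (W := W) (b := b) (K := K) (n := n) (ω := ω) f hn hW
    (by omega) n S1 i le_rfl (by rw [hS1]; simp [Function.update])
    (by rw [hS1]; simp [Function.update]) (by rw [hS1]; simp [Function.update])
    (by rw [hS1]; simp [Function.update]) (by rw [hS1]; simp [Function.update])
    (by intro x; rw [hS1]; exact hf x) (by intro x hx; omega)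
  refine ⟨S', ?_, hf'⟩
  have e1 : RExec W ω (.const 1 0) S i 1 ⟨update S.reg 1 0, S.mem⟩ i :=
    .const _ _ _ _ (by omega)
  have e2 : RExec W ω (.load 2 1) ⟨update S.reg 1 0, S.mem⟩ i 1
      ⟨update (update S.reg 1 0) 2 n, S.mem⟩ i := by
    have := RExec.load (W := W) (ω := ω) ⟨update S.reg 1 0, S.mem⟩ i 2 1
    simpa [hm] using this
  have e3 : RExec W ω (.const 3 K) ⟨update (update S.reg 1 0) 2 n, S.mem⟩ i 1
      ⟨update (update (update S.reg 1 0) 2 n) 3 K, S.mem⟩ i := .const _ _ _ _ hK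
  have e4 : RExec W ω (.const 6 1) ⟨update (update (update S.reg 1 0) 2 n) 3 K, S.mem⟩ i 1
      ⟨update (update (update (update S.reg 1 0) 2 n) 3 K) 6 1, S.mem⟩ i := .const _ _ _ _ h1W
  have e5 : RExec W ω (.op .add 4 0 1)
      ⟨update (update (update (update S.reg 1 0) 2 n) 3 K) 6 1, S.mem⟩ i 1 S1 i := by
    have := RExec.op (W := W) (ω := ω)
      ⟨update (update (update (update S.reg 1 0) 2 n) 3 K) 6 1, S.mem⟩ i .add 4 0 1
      (by simp [Op.eval, Function.update, h0]; omega)
    rw [hS1]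
    simpa [Op.eval, Function.update, h0] using this
  have e : 1 + (1 + (1 + (1 + (1 + (5 * n + 1))))) = 5 * n + 6 := by ring
  rw [← e]
  exact .seq _ _ _ _ _ _ _ _ _ _ e1 (.seq _ _ _ _ _ _ _ _ _ _ e2 (.seq _ _ _ _ _ _ _ _ _ _ e3
    (.seq _ _ _ _ _ _ _ _ _ _ e4 (.seq _ _ _ _ _ _ _ _ _ _ e5 hS'))))

theorem randSolves_of_C (c : C) (k1 : ℕ) (A : ℕ → ℕ → ℕ)
    (hsafe : ∀ (n : ℕ) (G : SimpleGraph (Fin n)) (L : AdjLists G) (ω : ℕ → Bool),
      Safe ⟨L.encode, ω⟩ ((n + G.edgeSet.ncard + 2) ^ k1) c St.init ∧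
      cost ⟨L.encode, ω⟩ c St.init ≤ A n G.edgeSet.ncard)
    (hgood : ∀ (n : ℕ) (G : SimpleGraph (Fin n)) (L : AdjLists G) (B : ℕ),
      A n G.edgeSet.ncard ≤ B → 2 * 2 ^ B ≤ 3 * Nat.card {ω : Fin B → Bool //
        ∃ M : G.Subgraph, IsMaximumMatching G M ∧
          Represents ((run ⟨L.encode, extend ω⟩ c St.init).a 0) M}) :
    ∃ (P : RProg) (K : ℕ), RandSolves P (fun n m => K * (A n m + n + m + 1)) := by
  obtain ⟨K, κ, C0, p, hK1, hp⟩ := compile_correct c
  -- word size
  have main : ∀ (n : ℕ) (G : SimpleGraph (Fin n)) (L : AdjLists G) (ω : ℕ → Bool),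
      ∃ (t : ℕ) (s : State) (i : ℕ),
        RExec ((n + G.edgeSet.ncard + 2) ^ ((k1 + 2) * κ + K + 3)) ω
          (.seq prologue (.seq p (epilogue K))) (State.init L.encode) 0 t s i ∧
        t ≤ C0 * A n G.edgeSet.ncard + 5 * n + 13 ∧
        ∀ x < n, s.mem x = (run ⟨L.encode, ω⟩ c St.init).a 0 x := by
    intro n G L ω
    obtain ⟨N, hN⟩ : ∃ N, N = n + G.edgeSet.ncard + 2 := ⟨_, rfl⟩
    rw [← hN]
    have hN2 : 2 ≤ N := by omega
    have hN0 : 0 < N := by omega
    obtain ⟨b, hb⟩ : ∃ b, b = L.encode.length := ⟨_, rfl⟩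
    have hlen : b = n + 2 + 2 * G.edgeSet.ncard := by
      rw [hb, IO.encode_length, IO.upTo_length]
    have hsq : 2 * N ≤ N ^ 2 := by rw [pow_two]; exact Nat.mul_le_mul_right _ hN2
    have hcap2 : N ^ 2 ≤ N ^ (k1 + 2) := Nat.pow_le_pow_right hN0 (by omega)
    have hWκ : (N ^ (k1 + 2)) ^ κ ≤ N ^ ((k1 + 2) * κ + K + 3) := by
      rw [← pow_mul]
      exact Nat.pow_le_pow_right hN0 (by omega)
    have hKN : K ≤ N ^ K := (Nat.lt_pow_self (by omega : 1 < N)).le
    have hW3 : N ^ (K + 3) ≤ N ^ ((k1 + 2) * κ + K + 3) :=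
      Nat.pow_le_pow_right hN0 (by omega)
    have hWbig : b + K * n ≤ N ^ ((k1 + 2) * κ + K + 3) := by
      refine le_trans ?_ hW3
      have h1 : K * n ≤ N ^ K * N := Nat.mul_le_mul hKN (by omega)
      have h2 : 1 ≤ N ^ K := Nat.one_le_pow _ _ hN0
      have h3 : 2 * N ≤ N ^ K * (2 * N) := Nat.le_mul_of_pos_left _ h2
      calc b + K * n ≤ N ^ K * (2 * N) + N ^ K * N := by omega
        _ = N ^ K * (3 * N) := by ring
        _ ≤ N ^ K * (N ^ 3) := by
            apply Nat.mul_le_mul_left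
            calc 3 * N ≤ (N * N) * N := Nat.mul_le_mul_right _ (by nlinarith)
              _ = N ^ 3 := by ring
        _ = N ^ (K + 3) := by rw [pow_add]
    have hWK : K ≤ N ^ ((k1 + 2) * κ + K + 3) :=
      hKN.trans (Nat.pow_le_pow_right hN0 (by omega))
    obtain ⟨W, hW⟩ : ∃ W, W = N ^ ((k1 + 2) * κ + K + 3) := ⟨_, rfl⟩
    rw [← hW] at hWκ hWbig hWK ⊢
    have hW1 : 1 ≤ W := by rw [hW]; exact Nat.one_le_pow _ _ hN0
    -- prologue
    have hoff : (State.init L.encode).mem (n + 1) = 2 * G.edgeSet.ncard := by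
      show L.encode.getD (n + 1) 0 = _
      rw [IO.encode_off L le_rfl, IO.upTo_length]
    obtain ⟨S1, x1, m1, r1, f1⟩ := prologue_exec (W := W) (ω := ω) (State.init L.encode) 0
      (show (State.init L.encode).mem 0 = n from IO.encode_zero L) hoff (by omega)
    -- the compiled program
    have hsim : Sim (L.encode.length) K ⟨L.encode, ω⟩ St.init S1 := by
      refine ⟨?_, ?_, ?_, ?_⟩
      · rw [r1, ← hb, hlen]
      · intro x
        rw [f1 _ (by omega)]
        rfl
      · intro j _ i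
        rw [m1]
        show L.encode.getD _ 0 = 0
        exact List.getD_eq_default _ _ (by omega)
      · intro i _
        rw [m1]
        rfl
    have hs := hsafe n G L ω
    rw [← hN] at hs
    obtain ⟨t2, S2, i2, x2, ht2, hS2, hB2, hi2⟩ := hp ⟨L.encode, ω⟩ (N ^ (k1 + 2)) W St.init S1
      (by omega)
      (by
        show L.encode.length ≤ _
        omega)
      (by
        intro i
        have := IO.encode_le L i
        show L.encode.getD i 0 ≤ _
        omega)
      hWκ hsim ⟨fun x => Nat.zero_le _, fun j i => Nat.zero_le _⟩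
      (Safe.mono (Nat.pow_le_pow_right hN0 (by omega)) hs.1)
    -- epilogue
    obtain ⟨S3, x3, f3⟩ := epilogue_exec (W := W) (b := b) (K := K) (n := n) (ω := ω)
      ((run ⟨L.encode, ω⟩ c St.init).a 0) (by omega) hWbig hWK hW1 S2 i2
      (by rw [hS2.base, hb])
      (by
        have h00 : 0 < L.encode.length := by omega
        rw [hS2.inp 0 h00]
        exact IO.encode_zero L)
      (by
        intro x
        have := hS2.arr 0 (by omega) x
        rw [← hb, Nat.add_zero] at this
        exact this)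
    refine ⟨_, S3, i2, .seq _ _ _ _ _ _ _ _ _ _ x1 (.seq _ _ _ _ _ _ _ _ _ _ x2 x3), ?_, f3⟩
    have h5 : C0 * cost ⟨L.encode, ω⟩ c St.init ≤ C0 * A n G.edgeSet.ncard :=
      Nat.mul_le_mul_left _ hs.2
    omega
  refine ⟨.seq prologue (.seq p (epilogue K)), C0 + 13, (k1 + 2) * κ + K + 3, ?_⟩
  intro n G L
  refine ⟨?_, ?_⟩
  · intro ω
    obtain ⟨t, s, i, h1, h2, _⟩ := main n G L ω
    refine ⟨t, s, i, h1, h2.trans ?_⟩
    beta_reduce
    generalize A n G.edgeSet.ncard = a
    generalize G.edgeSet.ncard = m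
    have h3 : (C0 + 13) * (a + n + m + 1) = C0 * a + C0 * (n + m + 1) + 13 * (a + n + m + 1) := by
      ring
    rw [h3]
    have h4 : 0 ≤ C0 * (n + m + 1) := Nat.zero_le _
    omega
  · intro B hB
    beta_reduce at hB
    have hAB : A n G.edgeSet.ncard ≤ B := by
      refine le_trans ?_ hB
      calc A n G.edgeSet.ncard ≤ A n G.edgeSet.ncard + n + G.edgeSet.ncard + 1 := by omega
        _ ≤ _ := Nat.le_mul_of_pos_left _ (by omega)
    refine (hgood n G L B hAB).trans (Nat.mul_le_mul_left _ ?_)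
    refine Nat.card_le_card_of_injective
      (fun ω => ⟨ω.1, ?_⟩ : {ω : Fin B → Bool //
        ∃ M : G.Subgraph, IsMaximumMatching G M ∧
          Represents ((run ⟨L.encode, extend ω⟩ c St.init).a 0) M} → {ω : Fin B → Bool //
        ∃ (t : ℕ) (s : State) (i : ℕ) (M : G.Subgraph),
          RExec ((n + G.edgeSet.ncard + 2) ^ ((k1 + 2) * κ + K + 3)) (extend ω)
            (.seq prologue (.seq p (epilogue K))) (State.init L.encode) 0 t s i ∧
          IsMaximumMatching G M ∧ Represents s.mem M}) ?_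
    · obtain ⟨M, hM, hr⟩ := ω.2
      obtain ⟨t, s, i, h1, _, h3⟩ := main n G L (extend ω.1)
      refine ⟨t, s, i, M, h1, hM, ?_⟩
      intro v
      rw [h3 v v.2]
      exact hr v
    · intro ω ω' h
      exact Subtype.ext (by simpa using h)

end Vale.Agent.P305.MM
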