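import Vale.Agent.P305.MM.Defs
import Vale.Agent.P305.MM.H81.Alg

/-! MODULE D (pure correctness of the recursive procedure).

D1 (base case). `T` alternating, `det T ≠ 0`, `N = T⁻¹`, `u ≠ v`, `a = N u v`: if `1 - δ a = 0` then
`T + δ K_uv` is singular (kernel vector `N e_u`); else its inverse is
`N - c δ (N e_u e_vᵀ N - N e_v e_uᵀ N)` with `c = (1 - δ a)⁻¹`, so its entries at `u, v` are `c N`.
D2 (block update). `T' = T + P Δ^ Pᵀ` nonsingular (`P` = 0/1 matrix of the index list) implies
`T'⁻¹ = T⁻¹ - T⁻¹ P (Δ^ - Δ^ (Pᵀ T'⁻¹ P) Δ^) Pᵀ T⁻¹`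
(from `T'⁻¹ = T⁻¹ - T⁻¹ E T'⁻¹ = T⁻¹ - T'⁻¹ E T⁻¹`, `E = P Δ^ Pᵀ`).
D3 induction on `l`. -/

set_option autoImplicit false

namespace Vale.Agent.P305.MM

open Finset

namespace CP

/-! ### The order of the positions -/

theorem mem_ord (σ : ℕ) (hσ : 1 ≤ σ) (l : ℕ) : ∀ a b : ℕ,
    (a, b) ∈ ord σ l ↔ a < σ ^ l ∧ b < σ ^ l := by
  induction l with
  | zero => intro a b; simp [ord, Prod.ext_iff]
  | succ l ih =>
    intro a b
    have hpos : 0 < σ ^ l := Nat.pow_pos (by omega)
    simp only [ord, List.mem_flatMap, List.mem_range, List.mem_map, Prod.exists, Prod.mk.injEq]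
    constructor
    · rintro ⟨t, ht, a', b', hab, rfl, rfl⟩
      rw [ih] at hab
      have h1 : t / σ < σ := Nat.div_lt_of_lt_mul ht
      have h2 : t % σ < σ := Nat.mod_lt _ (by omega)
      rw [pow_succ, mul_comm (σ ^ l) σ]
      constructor
      · calc (t / σ) * σ ^ l + a' < (t / σ) * σ ^ l + σ ^ l := by omega
          _ = (t / σ + 1) * σ ^ l := by ring
          _ ≤ σ * σ ^ l := Nat.mul_le_mul_right _ h1
      · calc (t % σ) * σ ^ l + b' < (t % σ) * σ ^ l + σ ^ l := by omega
          _ = (t % σ + 1) * σ ^ l := by ring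
          _ ≤ σ * σ ^ l := Nat.mul_le_mul_right _ h2
    · rintro ⟨ha, hb⟩
      rw [pow_succ] at ha hb
      have h1 : a / σ ^ l < σ := Nat.div_lt_of_lt_mul ha
      have h2 : b / σ ^ l < σ := Nat.div_lt_of_lt_mul hb
      refine ⟨a / σ ^ l * σ + b / σ ^ l, ?_, a % σ ^ l, b % σ ^ l, ?_, ?_, ?_⟩
      · calc a / σ ^ l * σ + b / σ ^ l < a / σ ^ l * σ + σ := by omega
          _ = (a / σ ^ l + 1) * σ := by ring
          _ ≤ σ * σ := Nat.mul_le_mul_right _ h1
      · rw [ih]; exact ⟨Nat.mod_lt _ hpos, Nat.mod_lt _ hpos⟩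
      · have e1 : (a / σ ^ l * σ + b / σ ^ l) / σ = a / σ ^ l := by
          rw [add_comm, Nat.add_mul_div_right _ _ (by omega : 0 < σ), Nat.div_eq_of_lt h2, zero_add]
        rw [e1]
        exact Nat.div_add_mod' a (σ ^ l)
      · have e1 : (a / σ ^ l * σ + b / σ ^ l) % σ = b / σ ^ l := by
          rw [Nat.add_mod, Nat.mul_mod_left, zero_add, Nat.mod_mod, Nat.mod_eq_of_lt h2]
        rw [e1]
        exact Nat.div_add_mod' b (σ ^ l)

theorem ord_nodup (σ : ℕ) (hσ : 1 ≤ σ) (l : ℕ) : (ord σ l).Nodup := by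
  induction l with
  | zero => simp [ord]
  | succ l ih =>
    have hpos : 0 < σ ^ l := Nat.pow_pos (by omega)
    simp only [ord]
    rw [List.nodup_flatMap]
    refine ⟨fun t _ => ih.map ?_, ?_⟩
    · rintro ⟨a, b⟩ ⟨a', b'⟩ h
      simp only [Prod.mk.injEq, Nat.add_left_cancel_iff] at h
      exact Prod.ext h.1 h.2
    · refine (List.nodup_range (n := σ * σ)).imp ?_
      intro t t' htt
      rw [Function.onFun, List.disjoint_left]
      rintro ⟨x, y⟩ h1 h2
      simp only [List.mem_map, Prod.exists, Prod.mk.injEq] at h1 h2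
      obtain ⟨a, b, hab, rfl, rfl⟩ := h1
      obtain ⟨a', b', hab', h3, h4⟩ := h2
      rw [mem_ord σ hσ] at hab hab'
      apply htt
      have h5 : t / σ = t' / σ := by
        have e1 : ((t / σ) * σ ^ l + a) / σ ^ l = t / σ := by
          rw [add_comm, Nat.add_mul_div_right _ _ hpos, Nat.div_eq_of_lt hab.1, zero_add]
        have e2 : ((t' / σ) * σ ^ l + a') / σ ^ l = t' / σ := by
          rw [add_comm, Nat.add_mul_div_right _ _ hpos, Nat.div_eq_of_lt hab'.1, zero_add]
        rw [← e1, ← e2, h3]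
      have h6 : t % σ = t' % σ := by
        have e1 : ((t % σ) * σ ^ l + b) / σ ^ l = t % σ := by
          rw [add_comm, Nat.add_mul_div_right _ _ hpos, Nat.div_eq_of_lt hab.2, zero_add]
        have e2 : ((t' % σ) * σ ^ l + b') / σ ^ l = t' % σ := by
          rw [add_comm, Nat.add_mul_div_right _ _ hpos, Nat.div_eq_of_lt hab'.2, zero_add]
        rw [← e1, ← e2, h4]
      rw [← Nat.div_add_mod' t σ, ← Nat.div_add_mod' t' σ, h5, h6]

theorem ord_sum {M : Type*} [AddCommMonoid M] (σ : ℕ) (hσ : 1 ≤ σ) (l : ℕ) (f : ℕ × ℕ → M) :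
    ((ord σ l).map f).sum = ∑ a ∈ range (σ ^ l), ∑ b ∈ range (σ ^ l), f (a, b) := by
  rw [← List.sum_toFinset f (ord_nodup σ hσ l), ← Finset.sum_product']
  apply Finset.sum_congr
  · ext ⟨a, b⟩
    rw [List.mem_toFinset, mem_ord σ hσ, mem_product, mem_range, mem_range]
  · intro _ _; rfl

/-! ### The sequential run -/

section Seq

variable {F : Type} [Field F] {V : Type} [Fintype V] [DecidableEq V]

theorem seqRun_append (g₁ g₂ : ℕ → V) (L L' : List (ℕ × ℕ)) (TD : Matrix V V F × (ℕ → ℕ → F)) :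
    seqRun g₁ g₂ (L ++ L') TD = seqRun g₁ g₂ L' (seqRun g₁ g₂ L TD) := by
  induction L generalizing TD with
  | nil => rfl
  | cons ab L ih => simp only [List.cons_append, seqRun, ih]

theorem seqRun_out (g₁ g₂ : ℕ → V) (L : List (ℕ × ℕ)) (TD : Matrix V V F × (ℕ → ℕ → F))
    (x y : ℕ) (h : (x, y) ∉ L) : (seqRun g₁ g₂ L TD).2 x y = TD.2 x y := by
  induction L generalizing TD with
  | nil => rfl
  | cons ab L ih =>
    simp only [List.mem_cons, not_or] at h
    simp only [seqRun]
    rw [ih _ h.2]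
    exact if_neg fun hc => h.1 (Prod.ext hc.1 hc.2)

/-- The matrix after the run is the old one plus the accepted changes. -/
theorem seqRun_fst (g₁ g₂ : ℕ → V) (L : List (ℕ × ℕ)) (hL : L.Nodup)
    (TD : Matrix V V F × (ℕ → ℕ → F)) :
    (seqRun g₁ g₂ L TD).1 = TD.1 +
      (L.map fun ab => (seqRun g₁ g₂ L TD).2 ab.1 ab.2 • (Kab (g₁ ab.1) (g₂ ab.2) :
        Matrix V V F)).sum := by
  induction L generalizing TD with
  | nil => simp [seqRun]
  | cons ab L ih =>
    rw [List.nodup_cons] at hL
    simp only [seqRun, List.map_cons, List.sum_cons]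
    rw [ih hL.2, seqRun_out _ _ _ _ _ _ hL.1]
    simp only [and_self, if_true]
    rw [add_assoc]

/-- The run depends only on the proposed changes at the positions of the list. -/
theorem seqRun_congr (g₁ g₂ : ℕ → V) (L : List (ℕ × ℕ)) (T : Matrix V V F) (D D' : ℕ → ℕ → F)
    (h : ∀ ab ∈ L, D ab.1 ab.2 = D' ab.1 ab.2) :
    (seqRun g₁ g₂ L (T, D)).1 = (seqRun g₁ g₂ L (T, D')).1 ∧
      ∀ x y, D x y = D' x y → (seqRun g₁ g₂ L (T, D)).2 x y = (seqRun g₁ g₂ L (T, D')).2 x y := by
  induction L generalizing T D D' with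
  | nil => exact ⟨rfl, fun x y h => h⟩
  | cons ab L ih =>
    simp only [seqRun]
    rw [h ab (List.mem_cons_self)]
    set T' := T + acc T (g₁ ab.1) (g₂ ab.2) (D' ab.1 ab.2) • Kab (g₁ ab.1) (g₂ ab.2) with hT'
    obtain ⟨h1, h2⟩ := ih T' (fun x y => if x = ab.1 ∧ y = ab.2 then
        acc T (g₁ ab.1) (g₂ ab.2) (D' ab.1 ab.2) else D x y)
      (fun x y => if x = ab.1 ∧ y = ab.2 then
        acc T (g₁ ab.1) (g₂ ab.2) (D' ab.1 ab.2) else D' x y) (by
        intro cd hcd
        split_ifs
        · rfl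
        · exact h cd (List.mem_cons_of_mem _ hcd))
    refine ⟨h1, fun x y hxy => h2 x y ?_⟩
    split_ifs
    · rfl
    · exact hxy

/-- Run on shifted positions. -/
theorem seqRun_shift (g₁ g₂ : ℕ → V) (p q : ℕ) (L : List (ℕ × ℕ)) (T : Matrix V V F)
    (D : ℕ → ℕ → F) :
    (seqRun g₁ g₂ (L.map fun ab => (p + ab.1, q + ab.2)) (T, D)).1 =
      (seqRun (fun a => g₁ (p + a)) (fun b => g₂ (q + b)) L
        (T, fun a b => D (p + a) (q + b))).1 ∧
    ∀ a b, (seqRun g₁ g₂ (L.map fun ab => (p + ab.1, q + ab.2)) (T, D)).2 (p + a) (q + b) =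
      (seqRun (fun a => g₁ (p + a)) (fun b => g₂ (q + b)) L
        (T, fun a b => D (p + a) (q + b))).2 a b := by
  induction L generalizing T D with
  | nil => exact ⟨rfl, fun _ _ => rfl⟩
  | cons ab L ih =>
    simp only [List.map_cons, seqRun]
    obtain ⟨h1, h2⟩ := ih (T + acc T (g₁ (p + ab.1)) (g₂ (q + ab.2)) (D (p + ab.1) (q + ab.2)) •
        Kab (g₁ (p + ab.1)) (g₂ (q + ab.2)))
      (fun x y => if x = p + ab.1 ∧ y = q + ab.2 then
        acc T (g₁ (p + ab.1)) (g₂ (q + ab.2)) (D (p + ab.1) (q + ab.2)) else D x y)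
    simp only [Nat.add_left_cancel_iff] at h1 h2
    exact ⟨h1, h2⟩

theorem alt_Kab (u v : V) (c : F) {T : Matrix V V F} (hT : Alt T) : Alt (T + c • Kab u v) := by
  refine ⟨fun a b => ?_, fun a => ?_⟩
  · simp only [Matrix.add_apply, Matrix.smul_apply, Kab, smul_eq_mul]
    rw [hT.1 a b]
    simp only [and_comm (a := b = u), and_comm (a := b = v)]
    ring
  · simp only [Matrix.add_apply, Matrix.smul_apply, Kab, smul_eq_mul]
    rw [hT.2 a]
    simp only [and_comm (a := a = v)]
    ring

theorem step_det (T : Matrix V V F) (hdet : T.det ≠ 0) (u v : V) (δ : F) :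
    (T + acc T u v δ • Kab u v).det ≠ 0 := by
  unfold acc
  split_ifs with h
  · simpa using hdet
  · exact h

theorem seqRun_inv (g₁ g₂ : ℕ → V) (L : List (ℕ × ℕ)) (T : Matrix V V F) (D : ℕ → ℕ → F)
    (hT : Alt T) (hdet : T.det ≠ 0) :
    Alt (seqRun g₁ g₂ L (T, D)).1 ∧ (seqRun g₁ g₂ L (T, D)).1.det ≠ 0 := by
  induction L generalizing T D with
  | nil => exact ⟨hT, hdet⟩
  | cons ab L ih =>
    simp only [seqRun]
    exact ih _ _ (alt_Kab _ _ _ hT) (step_det _ hdet _ _ _)

theorem single2_eq (u v : V) (δ : F) : H81.single2 u v δ = δ • (Kab u v : Matrix V V F) := by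
  ext a b
  simp only [H81.single2, Matrix.sub_apply, Matrix.single_apply, Matrix.smul_apply, Kab,
    smul_eq_mul, mul_sub, mul_ite, mul_one, mul_zero, eq_comm (a := u), eq_comm (a := v)]

theorem alt_conv {T : Matrix V V F} (hT : Alt T) : H81.Alt T :=
  ⟨fun i j => hT.1 j i, hT.2⟩

/-! ### Matrices from functions -/

/-- The `r × c` matrix of a function. -/
def toR (r c : ℕ) (A : ℕ → ℕ → F) : Matrix (Fin r) (Fin c) F := fun a b => A a b

omit [Fintype V] [DecidableEq V] in
theorem toR_mulN (r m c : ℕ) (A B : ℕ → ℕ → F) :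
    toR r c (mulN m A B) = toR r m A * toR m c B := by
  ext i j
  simp [toR, mulN, Matrix.mul_apply, Finset.sum_range]

theorem lift_hat (n' : ℕ) (Δ : ℕ → ℕ → F) (e : ℕ → V) (e' : Fin (2 * n') → V)
    (he : ∀ a, e' a = e a) :
    H81.lift e' (toR (2 * n') (2 * n') (hat n' Δ)) =
      ∑ a ∈ range n', ∑ b ∈ range n', Δ a b • (Kab (e a) (e (n' + b)) : Matrix V V F) := by
  ext u v
  unfold H81.lift
  rw [Matrix.mul_apply]
  simp only [Matrix.mul_apply, H81.sel, Matrix.transpose_apply, toR, he]
  rw [← Finset.sum_range (fun b => (∑ a : Fin (2 * n'), (if u = e a then (1 : F) else 0) *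
    hat n' Δ a b) * (if v = e b then 1 else 0))]
  have h1 : ∀ b : ℕ, (∑ a : Fin (2 * n'), (if u = e a then (1 : F) else 0) * hat n' Δ a b) =
      ∑ a ∈ range (2 * n'), (if u = e a then (1 : F) else 0) * hat n' Δ a b := fun b => by
    rw [← Finset.sum_range (fun a => (if u = e a then (1 : F) else 0) * hat n' Δ a b)]
  simp only [h1]
  rw [two_mul, Finset.sum_range_add]
  simp only [Finset.sum_range_add]
  have e1 : ∑ b ∈ range n', (∑ a ∈ range n', (if u = e a then (1 : F) else 0) * hat n' Δ a b +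
      ∑ a ∈ range n', (if u = e (n' + a) then (1 : F) else 0) * hat n' Δ (n' + a) b) *
        (if v = e b then 1 else 0) =
      ∑ b ∈ range n', ∑ a ∈ range n', -(Δ b a * (if u = e (n' + a) ∧ v = e b then 1 else 0)) := by
    refine Finset.sum_congr rfl fun b hb => ?_
    rw [mem_range] at hb
    have z : ∑ a ∈ range n', (if u = e a then (1 : F) else 0) * hat n' Δ a b = 0 := by
      refine Finset.sum_eq_zero fun a ha => ?_
      rw [mem_range] at ha
      simp [hat, ha, not_le.mpr hb]
    rw [z, zero_add, Finset.sum_mul]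
    refine Finset.sum_congr rfl fun a ha => ?_
    have h2 : ¬ (n' + a < n') := by omega
    have h3 : n' + a - n' = a := by omega
    simp only [hat, h2, if_false, hb, if_true, h3, ite_and]
    split_ifs <;> simp
  have e2 : ∑ b ∈ range n', (∑ a ∈ range n', (if u = e a then (1 : F) else 0) * hat n' Δ a (n' + b) +
      ∑ a ∈ range n', (if u = e (n' + a) then (1 : F) else 0) * hat n' Δ (n' + a) (n' + b)) *
        (if v = e (n' + b) then 1 else 0) =
      ∑ b ∈ range n', ∑ a ∈ range n', Δ a b * (if u = e a ∧ v = e (n' + b) then 1 else 0) := by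
    refine Finset.sum_congr rfl fun b hb => ?_
    have h2 : ∀ a : ℕ, ¬ (n' + a < n') := fun a => by omega
    have h3 : n' + b - n' = b := by omega
    have h4 : n' ≤ n' + b := by omega
    have z : ∑ a ∈ range n', (if u = e (n' + a) then (1 : F) else 0) * hat n' Δ (n' + a) (n' + b)
        = 0 := by
      refine Finset.sum_eq_zero fun a ha => ?_
      simp [hat]
    rw [z, add_zero, Finset.sum_mul]
    refine Finset.sum_congr rfl fun a ha => ?_
    rw [mem_range] at ha
    simp only [hat, ha, if_true, h4, h3, ite_and]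
    split_ifs <;> simp
  rw [e1, e2]
  rw [Finset.sum_comm (s := range n') (t := range n')
    (f := fun b a => Δ a b * (if u = e a ∧ v = e (n' + b) then (1 : F) else 0))]
  rw [← Finset.sum_add_distrib, Matrix.sum_apply]
  refine Finset.sum_congr rfl fun a _ => ?_
  rw [← Finset.sum_add_distrib, Matrix.sum_apply]
  refine Finset.sum_congr rfl fun b _ => ?_
  rw [Matrix.smul_apply, Kab, smul_eq_mul]
  ring

/-- One block update. -/
theorem block_update {T T' : Matrix V V F} (hdet : T.det ≠ 0) (hdet' : T'.det ≠ 0) (g₁ g₂ : ℕ → V)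
    (n' n i j : ℕ) (hi : i * n' + n' ≤ n) (hj : j * n' + n' ≤ n) (Δ N N' : ℕ → ℕ → F)
    (hT' : T' = T + ∑ a ∈ range n', ∑ b ∈ range n',
      Δ a b • (Kab (g₁ (i * n' + a)) (g₂ (j * n' + b)) : Matrix V V F))
    (hN : ∀ x < 2 * n, ∀ y < 2 * n, N x y = T⁻¹ (if x < n then g₁ x else g₂ (x - n))
      (if y < n then g₁ y else g₂ (y - n)))
    (hN' : ∀ x < 2 * n', ∀ y < 2 * n', N' x y =
      T'⁻¹ (if x < n' then g₁ (i * n' + x) else g₂ (j * n' + (x - n')))
        (if y < n' then g₁ (i * n' + y) else g₂ (j * n' + (y - n')))) :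
    ∀ x < 2 * n, ∀ y < 2 * n, updN n' n i j N N' Δ x y =
      T'⁻¹ (if x < n then g₁ x else g₂ (x - n)) (if y < n then g₁ y else g₂ (y - n)) := by
  have hixlt : ∀ a, a < 2 * n' → ix n' n i j a < 2 * n := by
    intro a ha
    unfold ix
    split_ifs <;> omega
  have hixeq : ∀ a, a < 2 * n' → (if ix n' n i j a < n then g₁ (ix n' n i j a)
      else g₂ (ix n' n i j a - n)) =
        if a < n' then g₁ (i * n' + a) else g₂ (j * n' + (a - n')) := by
    intro a ha
    unfold ix
    by_cases h : a < n'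
    · have h1 : i * n' + a < n := by omega
      simp only [h, if_true, h1]
    · have h1 : ¬ (n + (j * n' + (a - n')) < n) := by omega
      have h2 : n + (j * n' + (a - n')) - n = j * n' + (a - n') := by omega
      simp only [h, if_false, h1, h2]
  set f : Fin (2 * n) → V := fun x => if (x : ℕ) < n then g₁ x else g₂ (x - n) with hf
  set g : Fin (2 * n') → Fin (2 * n) := fun a => ⟨ix n' n i j a, hixlt a a.2⟩ with hg
  have hfg : ∀ a : Fin (2 * n'), (f ∘ g) a =
      if (a : ℕ) < n' then g₁ (i * n' + a) else g₂ (j * n' + (a - n')) := fun a => hixeq a a.2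
  have hTN : T * T⁻¹ = 1 := Matrix.mul_nonsing_inv _ (isUnit_iff_ne_zero.mpr hdet)
  have hTN' : T' * T'⁻¹ = 1 := Matrix.mul_nonsing_inv _ (isUnit_iff_ne_zero.mpr hdet')
  have hK : T' = T + H81.lift (f ∘ g) (toR (2 * n') (2 * n') (hat n' Δ)) := by
    rw [lift_hat n' Δ (fun a => if a < n' then g₁ (i * n' + a) else g₂ (j * n' + (a - n')))
      (f ∘ g) hfg, hT']
    congr 1
    refine Finset.sum_congr rfl fun a ha => Finset.sum_congr rfl fun b _ => ?_
    rw [mem_range] at ha
    have h1 : ¬ (n' + b < n') := by omega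
    have h2 : n' + b - n' = b := by omega
    simp only [ha, if_true, h1, if_false, h2]
  have key := H81.restricted_update hTN hTN' f g (toR (2 * n') (2 * n') (hat n' Δ)) hK
  have k1 : toR (2 * n) (2 * n) N = T⁻¹.submatrix f f := by
    ext x y
    exact hN x x.2 y y.2
  have k2 : toR (2 * n') (2 * n') N' = T'⁻¹.submatrix (f ∘ g) (f ∘ g) := by
    ext x y
    rw [Matrix.submatrix_apply, hfg, hfg]
    exact hN' x x.2 y y.2
  have k3 : toR (2 * n) (2 * n) (updN n' n i j N N' Δ) = T'⁻¹.submatrix f f := by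
    rw [key, ← k1, ← k2]
    have e1 : toR (2 * n') (2 * n') (xmat n' N' Δ) = toR (2 * n') (2 * n') (hat n' Δ) -
        toR (2 * n') (2 * n') (hat n' Δ) * toR (2 * n') (2 * n') N' *
          toR (2 * n') (2 * n') (hat n' Δ) := by
      rw [← toR_mulN, ← toR_mulN]
      rfl
    rw [← e1]
    have e2 : (toR (2 * n) (2 * n) N).submatrix id g =
        toR (2 * n) (2 * n') (fun x a => N x (ix n' n i j a)) := rfl
    have e3 : (toR (2 * n) (2 * n) N).submatrix g id =
        toR (2 * n') (2 * n) (fun b y => N (ix n' n i j b) y) := rfl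
    rw [e2, e3, ← toR_mulN, ← toR_mulN]
    rfl
  intro x hx y hy
  exact congrFun (congrFun k3 ⟨x, hx⟩) ⟨y, hy⟩


/-- The base case. -/
theorem base_case [DecidableEq F] {T : Matrix V V F} (hT : Alt T) (hdet : T.det ≠ 0) (u v : V)
    (N D : ℕ → ℕ → F) (hN : ∀ x < 2, ∀ y < 2, N x y = T⁻¹ (if x = 0 then u else v)
      (if y = 0 then u else v)) :
    (∀ x < 2, ∀ y < 2, (crossF 0 0 (N, D)).1 x y =
      (T + acc T u v (D 0 0) • (Kab u v : Matrix V V F))⁻¹ (if x = 0 then u else v)
        (if y = 0 then u else v)) ∧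
    (crossF 0 0 (N, D)).2 0 0 = acc T u v (D 0 0) := by
  have hTN : T * T⁻¹ = 1 := Matrix.mul_nonsing_inv _ (isUnit_iff_ne_zero.mpr hdet)
  have hA := alt_conv hT
  have hNA := hA.inv hTN
  have h01 : N 0 1 = T⁻¹ u v := hN 0 (by omega) 1 (by omega)
  by_cases h : 1 - D 0 0 * N 0 1 = 0
  · have hz : (T + D 0 0 • Kab u v).det = 0 := by
      by_contra hne
      rw [h01] at h
      refine H81.test_fail hA hTN u v (D 0 0) h (T + H81.single2 u v (D 0 0))⁻¹ ?_
      rw [single2_eq]
      exact Matrix.mul_nonsing_inv _ (isUnit_iff_ne_zero.mpr hne)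
    have hacc : acc T u v (D 0 0) = 0 := by unfold acc; rw [if_pos hz]
    simp only [crossF, h, if_true, hacc, zero_smul, add_zero]
    exact ⟨hN, trivial⟩
  · have h' := h
    rw [h01] at h'
    have hok := H81.test_ok hA hTN u v (D 0 0) h'
    rw [single2_eq] at hok
    have hdet' : (T + D 0 0 • Kab u v).det ≠ 0 := by
      intro h0
      have := congrArg Matrix.det hok
      rw [Matrix.det_mul, h0, zero_mul, Matrix.det_one] at this
      exact zero_ne_one this
    have hacc : acc T u v (D 0 0) = D 0 0 := by unfold acc; rw [if_neg hdet']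
    simp only [crossF, h, if_false, hacc]
    refine ⟨?_, trivial⟩
    rw [Matrix.inv_eq_right_inv hok]
    set c := (1 - D 0 0 * T⁻¹ u v)⁻¹ with hc
    have hcc : (1 - D 0 0 * T⁻¹ u v) * c = 1 := mul_inv_cancel₀ h'
    have hvu : T⁻¹ v u = - T⁻¹ u v := hNA.1 u v
    intro x hx y hy
    rw [h01, hN x hx y hy, div_eq_mul_inv, ← hc]
    unfold H81.upd
    have hx' : x = 0 ∨ x = 1 := by omega
    have hy' : y = 0 ∨ y = 1 := by omega
    rcases hx' with rfl | rfl <;> rcases hy' with rfl | rfl
    · simp only [if_true, hNA.2]; ring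
    · simp only [if_true, one_ne_zero, if_false, hNA.2]
      linear_combination (T⁻¹ u v) * hcc
    · simp only [if_true, one_ne_zero, if_false, hNA.2, hvu]
      linear_combination (-T⁻¹ u v) * hcc
    · simp only [one_ne_zero, if_false, hNA.2]; ring

end Seq

end CP

open CP in
theorem cross_correct {F : Type} [Field F] [DecidableEq F] {V : Type} [Fintype V] [DecidableEq V]
    (σ : ℕ) (hσ : 1 ≤ σ) (l : ℕ) (g₁ g₂ : ℕ → V) (T : Matrix V V F) (hT : Alt T) (hdet : T.det ≠ 0)
    (N D : ℕ → ℕ → F) (hD : ∀ a < σ ^ l, ∀ b < σ ^ l, g₁ a = g₂ b → D a b = 0)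
    (hN : ∀ x < 2 * σ ^ l, ∀ y < 2 * σ ^ l,
      N x y = T⁻¹ (if x < σ ^ l then g₁ x else g₂ (x - σ ^ l))
        (if y < σ ^ l then g₁ y else g₂ (y - σ ^ l))) :
    Alt (seqRun g₁ g₂ (ord σ l) (T, D)).1 ∧ (seqRun g₁ g₂ (ord σ l) (T, D)).1.det ≠ 0 ∧
    (∀ x < 2 * σ ^ l, ∀ y < 2 * σ ^ l,
      (crossF σ l (N, D)).1 x y = (seqRun g₁ g₂ (ord σ l) (T, D)).1⁻¹
        (if x < σ ^ l then g₁ x else g₂ (x - σ ^ l))
        (if y < σ ^ l then g₁ y else g₂ (y - σ ^ l))) ∧
    (∀ a < σ ^ l, ∀ b < σ ^ l,
      (crossF σ l (N, D)).2 a b = (seqRun g₁ g₂ (ord σ l) (T, D)).2 a b) := by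
  clear hD
  refine ⟨(seqRun_inv g₁ g₂ _ T D hT hdet).1, (seqRun_inv g₁ g₂ _ T D hT hdet).2, ?_⟩
  induction l generalizing g₁ g₂ T N D with
  | zero =>
    have hif : ∀ x < 2, (if x < σ ^ 0 then g₁ x else g₂ (x - σ ^ 0)) =
        if x = 0 then g₁ 0 else g₂ 0 := by
      intro x hx
      have hx' : x = 0 ∨ x = 1 := by omega
      rcases hx' with rfl | rfl <;> simp
    have hN' : ∀ x < 2, ∀ y < 2, N x y = T⁻¹ (if x = 0 then g₁ 0 else g₂ 0)
        (if y = 0 then g₁ 0 else g₂ 0) := by
      intro x hx y hy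
      rw [hN x (by simpa using hx) y (by simpa using hy), hif x hx, hif y hy]
    obtain ⟨b1, b2⟩ := base_case hT hdet (g₁ 0) (g₂ 0) N D hN'
    constructor
    · intro x hx y hy
      have hx' : x < 2 := by simpa using hx
      have hy' : y < 2 := by simpa using hy
      rw [hif x hx', hif y hy']
      exact b1 x hx' y hy'
    · intro a ha b hb
      have ha' : a = 0 := by simpa using ha
      have hb' : b = 0 := by simpa using hb
      subst ha'; subst hb'
      refine Eq.trans b2 ?_
      simp [ord, seqRun]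
  | succ l ih =>
    have hpos : 0 < σ ^ l := Nat.pow_pos (by omega)
    set n' := σ ^ l with hn'
    set n := σ ^ (l + 1) with hn
    have hnn : n = σ * n' := by rw [hn, hn', pow_succ, mul_comm]
    -- the loop
    have hloop : ∀ k ≤ σ * σ,
        (∀ x < 2 * n, ∀ y < 2 * n,
          (itN (fun t ND' =>
            let r := crossF σ l (childF σ l t ND')
            (updN (σ ^ l) (σ ^ (l + 1)) (t / σ) (t % σ) ND'.1 r.1 r.2,
              updD (σ ^ l) (t / σ) (t % σ) ND'.2 r.2)) (N, D) k).1 x y =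
          (seqRun g₁ g₂ ((List.range k).flatMap fun t =>
            (ord σ l).map fun ab => ((t / σ) * σ ^ l + ab.1, (t % σ) * σ ^ l + ab.2))
              (T, D)).1⁻¹ (if x < n then g₁ x else g₂ (x - n)) (if y < n then g₁ y else g₂ (y - n)))
        ∧ (∀ a < n, ∀ b < n,
          (itN (fun t ND' =>
            let r := crossF σ l (childF σ l t ND')
            (updN (σ ^ l) (σ ^ (l + 1)) (t / σ) (t % σ) ND'.1 r.1 r.2,
              updD (σ ^ l) (t / σ) (t % σ) ND'.2 r.2)) (N, D) k).2 a b =
          (seqRun g₁ g₂ ((List.range k).flatMap fun t =>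
            (ord σ l).map fun ab => ((t / σ) * σ ^ l + ab.1, (t % σ) * σ ^ l + ab.2))
              (T, D)).2 a b) := by
      intro k
      induction k with
      | zero =>
        intro _
        exact ⟨fun x hx y hy => hN x hx y hy, fun a _ b _ => rfl⟩
      | succ k ihk =>
        intro hk
        obtain ⟨i1, i2⟩ := ihk (by omega)
        have hinv := seqRun_inv g₁ g₂ ((List.range k).flatMap fun t =>
            (ord σ l).map fun ab => ((t / σ) * σ ^ l + ab.1, (t % σ) * σ ^ l + ab.2)) T D hT hdet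
        rw [List.range_succ, List.flatMap_append, seqRun_append]
        simp only [itN, List.flatMap_cons, List.flatMap_nil, List.append_nil]
        generalize hND : itN (fun t ND' =>
            let r := crossF σ l (childF σ l t ND')
            (updN (σ ^ l) (σ ^ (l + 1)) (t / σ) (t % σ) ND'.1 r.1 r.2,
              updD (σ ^ l) (t / σ) (t % σ) ND'.2 r.2)) (N, D) k = ND at i1 i2 ⊢
        generalize hTE : seqRun g₁ g₂ ((List.range k).flatMap fun t =>
            (ord σ l).map fun ab => ((t / σ) * σ ^ l + ab.1, (t % σ) * σ ^ l + ab.2)) (T, D) = TE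
            at i1 i2 hinv ⊢
        obtain ⟨Nk, Dk⟩ := ND
        obtain ⟨Tk, Ek⟩ := TE
        simp only at i1 i2 hinv ⊢
        have hi : k / σ < σ := Nat.div_lt_of_lt_mul (by omega)
        have hj : k % σ < σ := Nat.mod_lt _ (by omega)
        set i := k / σ with hidef
        set j := k % σ with hjdef
        have hin : i * n' + n' ≤ n := by
          calc i * n' + n' = (i + 1) * n' := by ring
            _ ≤ σ * n' := Nat.mul_le_mul_right _ hi
            _ = n := hnn.symm
        have hjn : j * n' + n' ≤ n := by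
          calc j * n' + n' = (j + 1) * n' := by ring
            _ ≤ σ * n' := Nat.mul_le_mul_right _ hj
            _ = n := hnn.symm
        -- the child
        have hcN : ∀ x < 2 * n', ∀ y < 2 * n',
            Nk (ix n' n i j x) (ix n' n i j y) =
              Tk⁻¹ (if x < n' then g₁ (i * n' + x) else g₂ (j * n' + (x - n')))
                (if y < n' then g₁ (i * n' + y) else g₂ (j * n' + (y - n'))) := by
          have hixlt : ∀ a, a < 2 * n' → ix n' n i j a < 2 * n := by
            intro a ha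
            unfold ix
            split_ifs <;> omega
          have hixeq : ∀ a, a < 2 * n' → (if ix n' n i j a < n then g₁ (ix n' n i j a)
              else g₂ (ix n' n i j a - n)) =
                if a < n' then g₁ (i * n' + a) else g₂ (j * n' + (a - n')) := by
            intro a ha
            unfold ix
            by_cases h : a < n'
            · have h1 : i * n' + a < n := by omega
              simp only [h, if_true, h1]
            · have h1 : ¬ (n + (j * n' + (a - n')) < n) := by omega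
              have h2 : n + (j * n' + (a - n')) - n = j * n' + (a - n') := by omega
              simp only [h, if_false, h1, h2]
          intro x hx y hy
          rw [i1 _ (hixlt x hx) _ (hixlt y hy), hixeq x hx, hixeq y hy]
        obtain ⟨c1, c2⟩ := ih (fun a => g₁ (i * n' + a)) (fun b => g₂ (j * n' + b)) Tk hinv.1 hinv.2
          (fun a b => Nk (ix n' n i j a) (ix n' n i j b))
          (fun a b => Dk (i * n' + a) (j * n' + b)) hcN
        have hchild : childF σ l k (Nk, Dk) = (fun a b => Nk (ix n' n i j a) (ix n' n i j b),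
          fun a b => Dk (i * n' + a) (j * n' + b)) := rfl
        rw [hchild]
        generalize crossF σ l (fun a b => Nk (ix n' n i j a) (ix n' n i j b),
          fun a b => Dk (i * n' + a) (j * n' + b)) = r at c1 c2 ⊢
        obtain ⟨N', Δ⟩ := r
        simp only at c1 c2 ⊢
        -- congruence and shift
        obtain ⟨s1, s2⟩ := seqRun_shift g₁ g₂ (i * n') (j * n') (ord σ l) Tk Ek
        obtain ⟨q1, q2⟩ := seqRun_congr (fun a => g₁ (i * n' + a)) (fun b => g₂ (j * n' + b))
          (ord σ l) Tk (fun a b => Ek (i * n' + a) (j * n' + b))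
          (fun a b => Dk (i * n' + a) (j * n' + b)) (by
            rintro ⟨a, b⟩ hab
            rw [mem_ord σ hσ] at hab
            exact (i2 _ (by have := hab.1; omega) _ (by have := hab.2; omega)).symm)
        rw [q1] at s1
        have hT' := seqRun_fst (fun a => g₁ (i * n' + a)) (fun b => g₂ (j * n' + b)) (ord σ l)
          (ord_nodup σ hσ l) (Tk, fun a b => Dk (i * n' + a) (j * n' + b))
        rw [ord_sum σ hσ] at hT'
        have hdet' := (seqRun_inv (fun a => g₁ (i * n' + a)) (fun b => g₂ (j * n' + b)) (ord σ l) Tk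
          (fun a b => Dk (i * n' + a) (j * n' + b)) hinv.1 hinv.2).2
        constructor
        · rw [s1]
          refine block_update hinv.2 hdet' g₁ g₂ n' n i j hin hjn Δ Nk N' ?_ i1 c1
          refine Eq.trans hT' ?_
          congr 1
          refine Finset.sum_congr rfl fun a ha => Finset.sum_congr rfl fun b hb => ?_
          rw [mem_range] at ha hb
          rw [c2 a ha b hb]
        · intro x hx y hy
          by_cases hxy : x / n' = i ∧ y / n' = j
          · have ex : x = i * n' + x % n' := by rw [← hxy.1]; exact (Nat.div_add_mod' x n').symm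
            have ey : y = j * n' + y % n' := by rw [← hxy.2]; exact (Nat.div_add_mod' y n').symm
            have e1 : updD (σ ^ l) i j Dk Δ x y = Δ (x % n') (y % n') := by
              unfold updD; rw [if_pos hxy]
            rw [e1]
            conv_rhs => rw [ex, ey]
            rw [s2, q2 _ _ (by rw [← ex, ← ey]; exact (i2 x hx y hy).symm)]
            exact c2 _ (Nat.mod_lt _ hpos) _ (Nat.mod_lt _ hpos)
          · have e1 : updD (σ ^ l) i j Dk Δ x y = Dk x y := by
              unfold updD; rw [if_neg hxy]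
            rw [e1, seqRun_out]
            · exact i2 x hx y hy
            · intro hmem
              simp only [List.mem_map, Prod.exists, Prod.mk.injEq] at hmem
              obtain ⟨a, b, hab, h1, h2⟩ := hmem
              rw [mem_ord σ hσ] at hab
              apply hxy
              constructor
              · rw [← h1, add_comm, Nat.add_mul_div_right _ _ hpos, Nat.div_eq_of_lt hab.1,
                  zero_add]
              · rw [← h2, add_comm, Nat.add_mul_div_right _ _ hpos, Nat.div_eq_of_lt hab.2,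
                  zero_add]
    have := hloop (σ * σ) le_rfl
    exact this

end Vale.Agent.P305.MM
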