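import Vale.Agent.P305.MM.TB

/-! MODULE C2 (one child step of the recursive procedure). Owner: helper197.

Registers at the parent level `l + 1`: `100 + 10 l` = `σ ^ l`, `110 + 10 l` = `σ ^ (l + 1)`,
`111 + 10 l` = `t` (loop counter), `112 + 10 l` = `t / σ`, `113 + 10 l` = `t % σ`,
`114 + 10 l` = `q ^ K`. Loop body of `crossC 𝔸 (l + 1)`:
`.seq (childC l) (.seq (crossC 𝔸 l) (updC 𝔸 l))`. -/

set_option autoImplicit false

namespace Vale.Agent.P305.MM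

open Finset

theorem idx_div {m a b : ℕ} (hb : b < m) : (a * m + b) / m = a := by
  rw [Nat.add_comm, Nat.add_mul_div_right _ _ (by omega), Nat.div_eq_of_lt hb, Nat.zero_add]

theorem idx_mod {m a b : ℕ} (hb : b < m) : (a * m + b) % m = b := by
  rw [Nat.add_comm, Nat.add_mul_mod_self_right, Nat.mod_eq_of_lt hb]

theorem fillM_tri {env : Env} {cap : ℕ} {i : ℕ} {len : E} {j : ℕ} {e : E} {s : St} {p m : ℕ}
    [Fact p.Prime] (A : ℕ → ℕ → ZMod p) (he : e.NoArr j) (hlen : len.eval env s = m * m)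
    (hm : m * m ≤ cap) (hp : p ≤ cap)
    (hv : ∀ a < m, ∀ b < m, e.eval env (s.set i (a * m + b)) = (A a b).val) :
    Tri env cap (fill i len j e) s (2 * (m * m) + 1) (fun s' =>
      Holds (s'.a j) m A ∧ (∀ x, x ≠ i → s'.r x = s.r x) ∧ (∀ j', j' ≠ j → s'.a j' = s.a j') ∧
      s'.pos = s.pos) := by
  have hsplit : ∀ x < m * m, x = (x / m) * m + x % m ∧ x / m < m ∧ x % m < m := by
    intro x hx
    have hm0 : 0 < m := by
      rcases Nat.eq_zero_or_pos m with h | h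
      · subst h; simp at hx
      · exact h
    exact ⟨(Nat.div_add_mod' x m).symm, Nat.div_lt_of_lt_mul hx, Nat.mod_lt _ hm0⟩
  have h := fill_tri (env := env) (cap := cap) (i := i) (len := len) (j := j) (e := e) (s := s)
    he (by rw [hlen]; exact hm) (fun x hx => by
      rw [hlen] at hx
      obtain ⟨h1, h2, h3⟩ := hsplit x hx
      rw [h1, hv _ h2 _ h3]
      exact (ZMod.val_lt _).le.trans hp)
  refine h.mono (by rw [hlen]) ?_
  rintro s' ⟨h1, h2, h3, h4⟩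
  refine ⟨?_, h1, h2, h4⟩
  intro a ha b hb
  have hlt : a * m + b < m * m := by
    calc a * m + b < a * m + m := by omega
      _ = (a + 1) * m := by ring
      _ ≤ m * m := Nat.mul_le_mul_right _ ha
  rw [h3, if_pos (by rw [hlen]; exact hlt), hv a ha b hb]

theorem val_sub' {p : ℕ} [Fact p.Prime] (x y : ZMod p) :
    (x - y).val = (x.val + (p - y.val)) % p := by
  have : NeZero p := ⟨(Fact.out : p.Prime).ne_zero⟩
  rw [sub_eq_add_neg, ZMod.val_add, ZMod.neg_val', Nat.add_mod_mod]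

theorem val_neg' {p : ℕ} [Fact p.Prime] (y : ZMod p) : (-y).val = (p - y.val) % p := by
  have : NeZero p := ⟨(Fact.out : p.Prime).ne_zero⟩
  exact ZMod.neg_val' y


/-! ### Expressions -/

/-- `2 e`. -/
def E.dbl (e : E) : E := .mul (.const 2) e

/-- `(p - e) % p`. -/
def E.neg (e : E) : E := .mod (.sub (.reg 1) e) (.reg 1)

/-- `ix n' n i j a` at the parent level `l + 1`. -/
def ixE (l : ℕ) (a : E) : E :=
  .ifLt a (.reg (100 + 10 * l))
    (.add (.mul (.reg (112 + 10 * l)) (.reg (100 + 10 * l))) a)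
    (.add (.reg (110 + 10 * l))
      (.add (.mul (.reg (113 + 10 * l)) (.reg (100 + 10 * l))) (.sub a (.reg (100 + 10 * l)))))

/-- `hat n' Δ a b`, zero for `a ≥ 2 n'` or `b ≥ 2 n'`; `Δ` in array `21 + 2 l`. -/
def hatE (l : ℕ) (a b : E) : E :=
  .ifLt a (.reg (100 + 10 * l))
    (.ifLt b (.reg (100 + 10 * l)) (.const 0)
      (.ifLt b (E.dbl (.reg (100 + 10 * l)))
        (.ld (21 + 2 * l) (.add (.mul a (.reg (100 + 10 * l))) (.sub b (.reg (100 + 10 * l)))))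
        (.const 0)))
    (.ifLt a (E.dbl (.reg (100 + 10 * l)))
      (.ifLt b (.reg (100 + 10 * l))
        (E.neg (.ld (21 + 2 * l)
          (.add (.mul b (.reg (100 + 10 * l))) (.sub a (.reg (100 + 10 * l))))))
        (.const 0))
      (.const 0))

/-- `e` if `a < m` and `b < m'`, else `0`. -/
def padE (a m b m' e : E) : E := .ifLt a m (.ifLt b m' e (.const 0)) (.const 0)


theorem sizes_aux (𝔸 : Alg) (l κ : ℕ) {cap : ℕ} (hcap : 𝔸.R ^ (κ * (l + 1) + 2) ≤ cap) :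
    0 < 𝔸.q ^ κ ∧ 0 < (𝔸.q ^ κ) ^ l ∧ (𝔸.q ^ κ) ^ (l + 1) = (𝔸.q ^ κ) ^ l * 𝔸.q ^ κ ∧
    (𝔸.q ^ κ) ^ (l + 1) * (𝔸.q ^ κ) ^ (l + 1) ≤ 𝔸.R ^ (κ * (l + 1)) ∧
    16 * ((𝔸.q ^ κ) ^ (l + 1) * (𝔸.q ^ κ) ^ (l + 1)) ≤ cap := by
  have hq := 𝔸.two_le
  have hσ : 0 < 𝔸.q ^ κ := Nat.pow_pos (by omega)
  have h1 : (𝔸.q ^ κ) ^ (l + 1) * (𝔸.q ^ κ) ^ (l + 1) ≤ 𝔸.R ^ (κ * (l + 1)) := by
    calc (𝔸.q ^ κ) ^ (l + 1) * (𝔸.q ^ κ) ^ (l + 1) = (𝔸.q ^ 2) ^ (κ * (l + 1)) := by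
          rw [← pow_mul, ← pow_add, ← pow_mul]; ring_nf
      _ ≤ 𝔸.R ^ (κ * (l + 1)) := Nat.pow_le_pow_left 𝔸.sq_le _
  have hR4 : 4 ≤ 𝔸.R := by
    calc 4 = 2 ^ 2 := by norm_num
      _ ≤ 𝔸.q ^ 2 := Nat.pow_le_pow_left hq _
      _ ≤ 𝔸.R := 𝔸.sq_le
  refine ⟨hσ, Nat.pow_pos hσ, pow_succ _ _, h1, ?_⟩
  calc 16 * ((𝔸.q ^ κ) ^ (l + 1) * (𝔸.q ^ κ) ^ (l + 1)) ≤ 𝔸.R ^ 2 * 𝔸.R ^ (κ * (l + 1)) :=
        Nat.mul_le_mul (by nlinarith) h1
    _ = 𝔸.R ^ (κ * (l + 1) + 2) := by rw [← pow_add]; ring_nf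
    _ ≤ cap := hcap

theorem blk_lt {n' n σ i a : ℕ} (hn : n = n' * σ) (hi : i < σ) (ha : a < n') : i * n' + a < n := by
  calc i * n' + a < i * n' + n' := by omega
    _ = (i + 1) * n' := by ring
    _ ≤ σ * n' := Nat.mul_le_mul_right _ hi
    _ = n := by rw [hn, Nat.mul_comm]

theorem ix_lt {n' n σ i j a : ℕ} (hn : n = n' * σ) (hi : i < σ) (hj : j < σ) (ha : a < 2 * n') :
    ix n' n i j a < 2 * n := by
  unfold ix
  split
  · rename_i h
    have := blk_lt hn hi h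
    omega
  · rename_i h
    have := blk_lt hn hj (a := a - n') (by omega)
    omega

theorem ixE_eval {env : Env} {s : St} {l n' n i j : ℕ} {a : E} (h1 : s.r (100 + 10 * l) = n')
    (h2 : s.r (110 + 10 * l) = n) (h3 : s.r (112 + 10 * l) = i) (h4 : s.r (113 + 10 * l) = j) :
    (ixE l a).eval env s = ix n' n i j (a.eval env s) := by
  simp only [ixE, E.eval, h1, h2, h3, h4, ix]

/-- Fill `N_l`, `D_l` from `N_{l+1}`, `D_{l+1}`; number of the child in register `111 + 10 l`. -/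
def childC (l : ℕ) : C :=
  .seq (.asg (112 + 10 * l) (.div (.reg (111 + 10 * l)) (.reg 4))) <|
  .seq (.asg (113 + 10 * l) (.mod (.reg (111 + 10 * l)) (.reg 4))) <|
  .seq (fill 40 (.mul (E.dbl (.reg (100 + 10 * l))) (E.dbl (.reg (100 + 10 * l)))) (20 + 2 * l)
    (.ld (22 + 2 * l) (.add
      (.mul (ixE l (.div (.reg 40) (E.dbl (.reg (100 + 10 * l))))) (E.dbl (.reg (110 + 10 * l))))
      (ixE l (.mod (.reg 40) (E.dbl (.reg (100 + 10 * l)))))))) <|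
  fill 40 (.mul (.reg (100 + 10 * l)) (.reg (100 + 10 * l))) (21 + 2 * l)
    (.ld (23 + 2 * l) (.add
      (.mul (.add (.mul (.reg (112 + 10 * l)) (.reg (100 + 10 * l)))
        (.div (.reg 40) (.reg (100 + 10 * l)))) (.reg (110 + 10 * l)))
      (.add (.mul (.reg (113 + 10 * l)) (.reg (100 + 10 * l)))
        (.mod (.reg 40) (.reg (100 + 10 * l))))))

theorem child_tri (𝔸 : Alg) (l : ℕ) : ∀ (env : Env) (cap p κ : ℕ) [Fact p.Prime] (s : St)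
    (ND : (ℕ → ℕ → ZMod p) × (ℕ → ℕ → ZMod p)) (t : ℕ), s.r 4 = 𝔸.q ^ κ →
    s.r (100 + 10 * l) = (𝔸.q ^ κ) ^ l → s.r (110 + 10 * l) = (𝔸.q ^ κ) ^ (l + 1) →
    s.r (111 + 10 * l) = t → t < 𝔸.q ^ κ * 𝔸.q ^ κ →
    Holds (s.a (22 + 2 * l)) (2 * (𝔸.q ^ κ) ^ (l + 1)) ND.1 →
    Holds (s.a (23 + 2 * l)) ((𝔸.q ^ κ) ^ (l + 1)) ND.2 → p ≤ cap → 𝔸.R ^ (κ * (l + 1) + 2) ≤ cap →
    Tri env cap (childC l) s (14 * 𝔸.R ^ (κ * (l + 1))) (fun s' =>
      Holds (s'.a (20 + 2 * l)) (2 * (𝔸.q ^ κ) ^ l) (childF (𝔸.q ^ κ) l t ND).1 ∧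
      Holds (s'.a (21 + 2 * l)) ((𝔸.q ^ κ) ^ l) (childF (𝔸.q ^ κ) l t ND).2 ∧
      s'.r (112 + 10 * l) = t / 𝔸.q ^ κ ∧ s'.r (113 + 10 * l) = t % 𝔸.q ^ κ ∧
      (∀ x, x ≠ 40 → x ≠ 112 + 10 * l → x ≠ 113 + 10 * l → s'.r x = s.r x) ∧
      (∀ j, j ≠ 20 + 2 * l → j ≠ 21 + 2 * l → s'.a j = s.a j) ∧ s'.pos = s.pos) := by
  intro env cap p κ _ s ND t h4 h100 h110 h111 ht hN hD hp hcap
  obtain ⟨hσ1, hn'pos, hnn', hRn, hcap4⟩ := sizes_aux 𝔸 l κ hcap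
  have hti : t / 𝔸.q ^ κ < 𝔸.q ^ κ := Nat.div_lt_of_lt_mul ht
  have htj : t % 𝔸.q ^ κ < 𝔸.q ^ κ := Nat.mod_lt _ hσ1
  generalize hσ : 𝔸.q ^ κ = σ at *
  generalize hn' : σ ^ l = n' at *
  generalize hn : σ ^ (l + 1) = n at *
  have hσn : σ ≤ n := by rw [hnn']; exact Nat.le_mul_of_pos_left _ hn'pos
  have hn'n : n' ≤ n := by rw [hnn']; exact Nat.le_mul_of_pos_right _ hσ1
  have hnn : n ≤ n * n := Nat.le_mul_of_pos_left _ (by omega)
  have hn'2 : n' * n' ≤ n * n := Nat.mul_le_mul hn'n hn'n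
  have hA := Tri.seq (env := env) (cap := cap) (s := s)
    (p := .asg (112 + 10 * l) (.div (.reg (111 + 10 * l)) (.reg 4)))
    (q := .seq (.asg (113 + 10 * l) (.mod (.reg (111 + 10 * l)) (.reg 4))) <|
  .seq (fill 40 (.mul (E.dbl (.reg (100 + 10 * l))) (E.dbl (.reg (100 + 10 * l)))) (20 + 2 * l)
    (.ld (22 + 2 * l) (.add
      (.mul (ixE l (.div (.reg 40) (E.dbl (.reg (100 + 10 * l))))) (E.dbl (.reg (110 + 10 * l))))
      (ixE l (.mod (.reg 40) (E.dbl (.reg (100 + 10 * l)))))))) <|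
  fill 40 (.mul (.reg (100 + 10 * l)) (.reg (100 + 10 * l))) (21 + 2 * l)
    (.ld (23 + 2 * l) (.add
      (.mul (.add (.mul (.reg (112 + 10 * l)) (.reg (100 + 10 * l)))
        (.div (.reg 40) (.reg (100 + 10 * l)))) (.reg (110 + 10 * l)))
      (.add (.mul (.reg (113 + 10 * l)) (.reg (100 + 10 * l)))
        (.mod (.reg 40) (.reg (100 + 10 * l)))))))
    (t := 1) (Q := fun s1 => s1 = s.set (112 + 10 * l) (t / σ))
    (Tri.asg (by simp only [E.eval, h111, h4]; omega) (by simp only [E.eval, h111, h4]))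
    (t' := 1 + ((2 * ((2 * n') * (2 * n')) + 1) + (2 * (n' * n') + 1))) (Q' := fun s' =>
      Holds (s'.a (20 + 2 * l)) (2 * n') (childF σ l t ND).1 ∧
      Holds (s'.a (21 + 2 * l)) n' (childF σ l t ND).2 ∧
      s'.r (112 + 10 * l) = t / σ ∧ s'.r (113 + 10 * l) = t % σ ∧
      (∀ x, x ≠ 40 → x ≠ 112 + 10 * l → x ≠ 113 + 10 * l → s'.r x = s.r x) ∧
      (∀ j, j ≠ 20 + 2 * l → j ≠ 21 + 2 * l → s'.a j = s.a j) ∧ s'.pos = s.pos)
    ?_
  · refine hA.mono ?_ (fun _ h => h)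
    have h16 : 2 * n' * (2 * n') = 4 * (n' * n') := by ring
    have h1 : 1 ≤ n' * n' := Nat.mul_pos hn'pos hn'pos
    rw [h16]
    omega
  rintro s1 rfl
  refine Tri.seq (Q := fun s2 => s2 = (s.set (112 + 10 * l) (t / σ)).set (113 + 10 * l) (t % σ))
    (Tri.asg ?_ ?_) ?_
  · simp only [E.eval, St.set_r]
    rw [Function.update_of_ne (by omega), Function.update_of_ne (by omega), h111, h4]
    omega
  · simp only [E.eval, St.set_r]
    rw [Function.update_of_ne (by omega), Function.update_of_ne (by omega), h111, h4]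
  rintro s2 rfl
  have g100 : ((s.set (112 + 10 * l) (t / σ)).set (113 + 10 * l) (t % σ)).r (100 + 10 * l) = n' := by
    simp only [St.set_r]
    rw [Function.update_of_ne (by omega), Function.update_of_ne (by omega), h100]
  have g110 : ((s.set (112 + 10 * l) (t / σ)).set (113 + 10 * l) (t % σ)).r (110 + 10 * l) = n := by
    simp only [St.set_r]
    rw [Function.update_of_ne (by omega), Function.update_of_ne (by omega), h110]
  have g112 : ((s.set (112 + 10 * l) (t / σ)).set (113 + 10 * l) (t % σ)).r (112 + 10 * l) = t / σ := by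
    simp only [St.set_r]
    rw [Function.update_of_ne (by omega), Function.update_self]
  have g113 : ((s.set (112 + 10 * l) (t / σ)).set (113 + 10 * l) (t % σ)).r (113 + 10 * l) = t % σ := by
    simp only [St.set_r]
    rw [Function.update_self]
  have gr : ∀ x, x ≠ 112 + 10 * l → x ≠ 113 + 10 * l →
      ((s.set (112 + 10 * l) (t / σ)).set (113 + 10 * l) (t % σ)).r x = s.r x := by
    intro x h1 h2
    simp only [St.set_r]
    rw [Function.update_of_ne h2, Function.update_of_ne h1]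
  have ga : ((s.set (112 + 10 * l) (t / σ)).set (113 + 10 * l) (t % σ)).a = s.a := rfl
  have gp : ((s.set (112 + 10 * l) (t / σ)).set (113 + 10 * l) (t % σ)).pos = s.pos := rfl
  generalize ((s.set (112 + 10 * l) (t / σ)).set (113 + 10 * l) (t % σ)) = s2 at *
  refine Tri.seq (fillM_tri (p := p) (m := 2 * n') (childF σ l t ND).1 ?_ ?_ ?_ hp ?_) ?_
  · simp only [E.NoArr, ixE, E.dbl, ne_eq, and_true]; omega
  · simp only [E.eval, E.dbl, g100]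
  · have h16 : 2 * n' * (2 * n') = 4 * (n' * n') := by ring
    rw [h16]; omega
  · intro a ha b hb
    have e1 : ∀ x, (s2.set 40 x).r 40 = x := fun x => by simp only [St.set_r, Function.update_self]
    have e2 : ∀ x y, y ≠ 40 → (s2.set 40 x).r y = s2.r y := fun x y hy => by
      simp only [St.set_r]; rw [Function.update_of_ne hy]
    simp only [E.eval, E.dbl]
    rw [ixE_eval (n' := n') (n := n) (i := t / σ) (j := t % σ) (by rw [e2 _ _ (by omega), g100])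
      (by rw [e2 _ _ (by omega), g110]) (by rw [e2 _ _ (by omega), g112])
      (by rw [e2 _ _ (by omega), g113]),
      ixE_eval (n' := n') (n := n) (i := t / σ) (j := t % σ) (by rw [e2 _ _ (by omega), g100])
      (by rw [e2 _ _ (by omega), g110]) (by rw [e2 _ _ (by omega), g112])
      (by rw [e2 _ _ (by omega), g113])]
    simp only [E.eval]
    rw [e1, e2 _ _ (by omega : (100 + 10 * l) ≠ 40), e2 _ _ (by omega : (110 + 10 * l) ≠ 40), g100,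
      g110, idx_div hb, idx_mod hb, St.set_a, ga,
      hN _ (ix_lt hnn' hti htj ha) _ (ix_lt hnn' hti htj hb)]
    simp only [childF, hn', hn]
  · rintro s3 ⟨k1, k2, k3, k4⟩
    refine (fillM_tri (p := p) (m := n') (childF σ l t ND).2 ?_ ?_ ?_ hp ?_).mono le_rfl ?_
    · simp only [E.NoArr, ne_eq, and_true]; omega
    · simp only [E.eval]
      rw [k2 _ (by omega), g100]
    · omega
    · intro a ha b hb
      have e1 : ∀ x, (s3.set 40 x).r 40 = x := fun x => by simp only [St.set_r, Function.update_self]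
      have e2 : ∀ x y, y ≠ 40 → (s3.set 40 x).r y = s2.r y := fun x y hy => by
        simp only [St.set_r]; rw [Function.update_of_ne hy, k2 _ hy]
      simp only [E.eval]
      rw [e1, e2 _ _ (by omega : (100 + 10 * l) ≠ 40), e2 _ _ (by omega : (110 + 10 * l) ≠ 40),
        e2 _ _ (by omega : (112 + 10 * l) ≠ 40), e2 _ _ (by omega : (113 + 10 * l) ≠ 40), g100,
        g110, g112, g113, idx_div hb, idx_mod hb, St.set_a, k3 _ (by omega), ga,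
        hD _ (blk_lt hnn' hti ha) _ (blk_lt hnn' htj hb)]
      simp only [childF, hn']
    · rintro s4 ⟨m1, m2, m3, m4⟩
      refine ⟨?_, m1, ?_, ?_, ?_, ?_, ?_⟩
      · rw [m3 _ (by omega)]; exact k1
      · rw [m2 _ (by omega), k2 _ (by omega), g112]
      · rw [m2 _ (by omega), k2 _ (by omega), g113]
      · intro x h1 h2 h3
        rw [m2 _ h1, k2 _ h1, gr _ h2 h3]
      · intro j h1 h2
        rw [m3 _ h2, k3 _ h1, ga]
      · rw [m4, k4, gp]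

/-! ### Padding -/

/-- `A` on `r` rows and `c` columns, zero elsewhere. -/
def padF {F : Type} [Field F] (r c : ℕ) (A : ℕ → ℕ → F) (a b : ℕ) : F :=
  if a < r ∧ b < c then A a b else 0

theorem mulN_pad {F : Type} [Field F] (Q r k c : ℕ) (hk : k ≤ Q) (A B : ℕ → ℕ → F) :
    mulN Q (padF r k A) (padF k c B) = padF r c (mulN k A B) := by
  funext a b
  unfold mulN padF
  by_cases h : a < r ∧ b < c
  · rw [if_pos h]
    have hsub : range k ⊆ range Q := Finset.range_subset_range.mpr hk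
    rw [← Finset.sum_subset hsub]
    · refine Finset.sum_congr rfl fun i hi => ?_
      rw [if_pos ⟨h.1, Finset.mem_range.mp hi⟩, if_pos ⟨Finset.mem_range.mp hi, h.2⟩]
    · intro i _ hi
      rw [if_neg (fun h' => hi (Finset.mem_range.mpr h'.2)), zero_mul]
  · rw [if_neg h]
    refine Finset.sum_eq_zero fun i _ => ?_
    by_cases ha : a < r
    · rw [if_neg (c := i < k ∧ b < c) (fun h' => h ⟨ha, h'.2⟩), mul_zero]
    · rw [if_neg (c := a < r ∧ i < k) (fun h' => ha h'.1), zero_mul]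

/-- The register facts used by all pieces. -/
structure Rg (s : St) (l p n' n i j Q : ℕ) : Prop where
  r1 : s.r 1 = p
  r100 : s.r (100 + 10 * l) = n'
  r110 : s.r (110 + 10 * l) = n
  r112 : s.r (112 + 10 * l) = i
  r113 : s.r (113 + 10 * l) = j
  r114 : s.r (114 + 10 * l) = Q

theorem Rg.set {s : St} {l p n' n i j Q : ℕ} (h : Rg s l p n' n i j Q) (x : ℕ) :
    Rg (s.set 40 x) l p n' n i j Q where
  r1 := by simp only [St.set_r]; rw [Function.update_of_ne (by omega)]; exact h.r1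
  r100 := by simp only [St.set_r]; rw [Function.update_of_ne (by omega)]; exact h.r100
  r110 := by simp only [St.set_r]; rw [Function.update_of_ne (by omega)]; exact h.r110
  r112 := by simp only [St.set_r]; rw [Function.update_of_ne (by omega)]; exact h.r112
  r113 := by simp only [St.set_r]; rw [Function.update_of_ne (by omega)]; exact h.r113
  r114 := by simp only [St.set_r]; rw [Function.update_of_ne (by omega)]; exact h.r114

theorem hatE_eval {env : Env} {s : St} {l p n' n i j Q : ℕ} [Fact p.Prime] {Δ : ℕ → ℕ → ZMod p}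
    (h : Rg s l p n' n i j Q) (hΔ : Holds (s.a (21 + 2 * l)) n' Δ) (a b : E) :
    (hatE l a b).eval env s =
      (padF (2 * n') (2 * n') (hat n' Δ) (a.eval env s) (b.eval env s)).val := by
  simp only [hatE, E.eval, E.dbl, E.neg, h.r100, h.r1, padF, hat]
  generalize a.eval env s = a
  generalize b.eval env s = b
  by_cases ha : a < n'
  · rw [if_pos ha, if_pos ha]
    by_cases hb : b < n'
    · rw [if_pos hb, if_pos ⟨by omega, by omega⟩, if_neg (by omega), ZMod.val_zero]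
    · rw [if_neg hb]
      by_cases hb2 : b < 2 * n'
      · rw [if_pos hb2, if_pos ⟨by omega, hb2⟩, if_pos (by omega), hΔ a ha (b - n') (by omega)]
      · rw [if_neg hb2, if_neg (by omega), ZMod.val_zero]
  · rw [if_neg ha, if_neg ha]
    by_cases ha2 : a < 2 * n'
    · rw [if_pos ha2]
      by_cases hb : b < n'
      · rw [if_pos hb, if_pos ⟨ha2, by omega⟩, if_pos hb, hΔ b hb (a - n') (by omega), val_neg']
      · rw [if_neg hb, if_neg hb]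
        split <;> rw [ZMod.val_zero]
    · rw [if_neg ha2, if_neg (by omega), ZMod.val_zero]

theorem padE_eval {env : Env} {s : St} {p : ℕ} [Fact p.Prime] {m m' : ℕ} {A : ℕ → ℕ → ZMod p}
    {a b em em' e : E} (hm : em.eval env s = m) (hm' : em'.eval env s = m')
    (he : a.eval env s < m → b.eval env s < m' →
      e.eval env s = (A (a.eval env s) (b.eval env s)).val) :
    (padE a em b em' e).eval env s = (padF m m' A (a.eval env s) (b.eval env s)).val := by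
  simp only [padE, E.eval, hm, hm', padF]
  by_cases ha : a.eval env s < m
  · by_cases hb : b.eval env s < m'
    · rw [if_pos ha, if_pos hb, if_pos ⟨ha, hb⟩, he ha hb]
    · rw [if_pos ha, if_neg hb, if_neg (fun h => hb h.2), ZMod.val_zero]
  · rw [if_neg ha, if_neg (fun h => ha h.1), ZMod.val_zero]

/-- The frame of the middle part. -/
def Fr (s s' : St) : Prop :=
  (∀ x, x ≤ 10 ∨ 41 ≤ x → s'.r x = s.r x) ∧ (∀ j, j < 9 ∨ 20 ≤ j → s'.a j = s.a j) ∧ s'.pos = s.pos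

theorem Fr.rg {s s' : St} (h : Fr s s') {l p n' n i j Q : ℕ} (hr : Rg s l p n' n i j Q) :
    Rg s' l p n' n i j Q where
  r1 := by rw [h.1 _ (by omega)]; exact hr.r1
  r100 := by rw [h.1 _ (by omega)]; exact hr.r100
  r110 := by rw [h.1 _ (by omega)]; exact hr.r110
  r112 := by rw [h.1 _ (by omega)]; exact hr.r112
  r113 := by rw [h.1 _ (by omega)]; exact hr.r113
  r114 := by rw [h.1 _ (by omega)]; exact hr.r114

theorem Fr.base {s s' : St} (h : Fr s s') {𝔸 : Alg} {p : ℕ} (hb : Base 𝔸 p s) : Base 𝔸 p s' :=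
  hb.of_frame (h.1 _ (by omega)) (h.2.1 _ (by omega)) (h.2.1 _ (by omega)) (h.2.1 _ (by omega))
    (h.2.1 _ (by omega))

/-- A fill in the middle part. -/
theorem step_fill {env : Env} {cap p : ℕ} [Fact p.Prime] {s s' : St} {l n' n i j Q : ℕ}
    (hf : Fr s s') (hr : Rg s l p n' n i j Q) (jj m : ℕ) (hjj : 9 ≤ jj ∧ jj < 20) (em e : E)
    (A : ℕ → ℕ → ZMod p)
    (he : e.NoArr jj) (hem : em.eval env s' = m) (hm : m * m ≤ cap) (hp : p ≤ cap)
    (hv : ∀ x, Rg (s'.set 40 x) l p n' n i j Q → (s'.set 40 x).r 40 = x → ∀ a < m, ∀ b < m,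
      x / m = a → x % m = b → x = a * m + b → e.eval env (s'.set 40 x) = (A a b).val) :
    Tri env cap (fill 40 (.mul em em) jj e) s' (2 * (m * m) + 1) (fun s'' =>
      Fr s s'' ∧ Holds (s''.a jj) m A ∧ ∀ j', j' ≠ jj → s''.a j' = s'.a j') := by
  refine (fillM_tri (p := p) (m := m) A he (by simp only [E.eval, hem]) hm hp ?_).mono le_rfl ?_
  · intro a ha b hb
    exact hv _ ((hf.rg hr).set _) (by simp only [St.set_r, Function.update_self]) a ha b hb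
      (idx_div hb) (idx_mod hb) rfl
  · rintro s'' ⟨h1, h2, h3, h4⟩
    refine ⟨⟨fun x hx => ?_, fun j hj => ?_, ?_⟩, h1, h3⟩
    · rw [h2 _ (by omega), hf.1 _ hx]
    · rw [h3 _ (by omega), hf.2.1 _ hj]
    · rw [h4, hf.2.2]

/-- A matrix product in the middle part. -/
theorem step_mm {𝔸 : Alg} {cM : ℕ} (hM : ∀ (env : Env) (cap p K : ℕ) [Fact p.Prime] (s : St)
    (A B : ℕ → ℕ → ZMod p), Base 𝔸 p s → (𝔸.D : ZMod p) ≠ 0 → s.r 10 = K →
    Holds (s.a 9) (𝔸.q ^ K) A → Holds (s.a 10) (𝔸.q ^ K) B → p ≤ cap → 𝔸.R ^ (K + 1) ≤ cap →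
    Tri env cap (mmC 𝔸) s (cM * ((K + 1) * 𝔸.R ^ K)) (fun s' =>
      Holds (s'.a 11) (𝔸.q ^ K) (mulN (𝔸.q ^ K) A B) ∧
      (∀ x, x ≤ 10 ∨ 40 ≤ x → s'.r x = s.r x) ∧ (∀ j, j < 9 ∨ 20 ≤ j → s'.a j = s.a j) ∧
      s'.pos = s.pos)) {env : Env} {cap p K : ℕ} [Fact p.Prime] {s s' : St} (hf : Fr s s')
    (hb : Base 𝔸 p s) (hD : (𝔸.D : ZMod p) ≠ 0) (hK : s.r 10 = K) {r k c : ℕ}
    (hk : k ≤ 𝔸.q ^ K) (A B : ℕ → ℕ → ZMod p) (h9 : Holds (s'.a 9) (𝔸.q ^ K) (padF r k A))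
    (h10 : Holds (s'.a 10) (𝔸.q ^ K) (padF k c B)) (hp : p ≤ cap) (hcap : 𝔸.R ^ (K + 1) ≤ cap) :
    Tri env cap (mmC 𝔸) s' (cM * ((K + 1) * 𝔸.R ^ K)) (fun s'' =>
      Fr s s'' ∧ Holds (s''.a 11) (𝔸.q ^ K) (padF r c (mulN k A B))) := by
  refine (hM env cap p K s' _ _ (hf.base hb) hD (by rw [hf.1 _ (by omega), hK]) h9 h10 hp
    hcap).mono le_rfl ?_
  rintro s'' ⟨h1, h2, h3, h4⟩
  refine ⟨⟨fun x hx => ?_, fun j hj => ?_, ?_⟩, ?_⟩
  · rw [h2 _ (by omega), hf.1 _ hx]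
  · rw [h3 _ hj, hf.2.1 _ hj]
  · rw [h4, hf.2.2]
  · rw [← mulN_pad _ _ _ _ hk]; exact h1

/-- Row and column of the index in register `40`. -/
def rowE (w : E) : E := .div (.reg 40) w
def colE (w : E) : E := .mod (.reg 40) w

/-- The four matrix products: the result is array `11` (`q ^ K` rows). -/
def prodC (𝔸 : Alg) (l : ℕ) : C :=
  let Q : E := .reg (114 + 10 * l)
  let m : E := E.dbl (.reg (100 + 10 * l))
  let m2 : E := E.dbl (.reg (110 + 10 * l))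
  .seq (fill 40 (.mul Q Q) 9 (hatE l (rowE Q) (colE Q))) <|
  .seq (fill 40 (.mul Q Q) 10 (padE (rowE Q) m (colE Q) m
    (.ld (20 + 2 * l) (.add (.mul (rowE Q) m) (colE Q))))) <|
  .seq (mmC 𝔸) <|
  .seq (fill 40 (.mul Q Q) 9 (.ld 11 (.reg 40))) <|
  .seq (fill 40 (.mul Q Q) 10 (hatE l (rowE Q) (colE Q))) <|
  .seq (mmC 𝔸) <|
  .seq (fill 40 (.mul Q Q) 10
    (.mod (.add (hatE l (rowE Q) (colE Q)) (.sub (.reg 1) (.ld 11 (.reg 40)))) (.reg 1))) <|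
  .seq (fill 40 (.mul Q Q) 9 (padE (rowE Q) m2 (colE Q) m
    (.ld (22 + 2 * l) (.add (.mul (rowE Q) m2) (ixE l (colE Q)))))) <|
  .seq (mmC 𝔸) <|
  .seq (fill 40 (.mul Q Q) 9 (.ld 11 (.reg 40))) <|
  .seq (fill 40 (.mul Q Q) 10 (padE (rowE Q) m (colE Q) m2
    (.ld (22 + 2 * l) (.add (.mul (ixE l (rowE Q)) m2) (colE Q))))) <|
  mmC 𝔸

theorem Fr.refl (s : St) : Fr s s := ⟨fun _ _ => rfl, fun _ _ => rfl, rfl⟩

theorem prod_tri (𝔸 : Alg) : ∃ cM : ℕ, ∀ (l : ℕ) (env : Env) (cap p K : ℕ) [Fact p.Prime] (s : St)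
    (n' n i j : ℕ) (N N' Δ : ℕ → ℕ → ZMod p), Base 𝔸 p s → (𝔸.D : ZMod p) ≠ 0 → s.r 10 = K →
    Rg s l p n' n i j (𝔸.q ^ K) → 2 * n ≤ 𝔸.q ^ K → n' ≤ n →
    (∀ a < 2 * n', ix n' n i j a < 2 * n) →
    Holds (s.a (22 + 2 * l)) (2 * n) N → Holds (s.a (20 + 2 * l)) (2 * n') N' →
    Holds (s.a (21 + 2 * l)) n' Δ → p ≤ cap → 𝔸.R ^ (K + 1) ≤ cap → 𝔸.q ^ K * 𝔸.q ^ K ≤ cap →
    Tri env cap (prodC 𝔸 l) s
      (8 * (2 * (𝔸.q ^ K * 𝔸.q ^ K) + 1) + 4 * (cM * ((K + 1) * 𝔸.R ^ K))) (fun s' =>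
      Fr s s' ∧ Holds (s'.a 11) (𝔸.q ^ K) (padF (2 * n) (2 * n)
        (mulN (2 * n') (mulN (2 * n') (fun x a => N x (ix n' n i j a)) (xmat n' N' Δ))
          (fun b y => N (ix n' n i j b) y)))) := by
  obtain ⟨cM, hM⟩ := mm_tri 𝔸
  refine ⟨cM, ?_⟩
  intro l env cap p K _ s n' n i j N N' Δ hb hD hK hr hQ hn hix hN hN' hΔ hp hcap hcapQ
  have hm : 2 * n' ≤ 𝔸.q ^ K := by omega
  have H22 : ∀ {s' : St}, Fr s s' → ∀ x, Holds ((s'.set 40 x).a (22 + 2 * l)) (2 * n) N := by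
    intro s' hf x
    rw [St.set_a, hf.2.1 _ (by omega)]; exact hN
  have H20 : ∀ {s' : St}, Fr s s' → ∀ x, Holds ((s'.set 40 x).a (20 + 2 * l)) (2 * n') N' := by
    intro s' hf x
    rw [St.set_a, hf.2.1 _ (by omega)]; exact hN'
  have H21 : ∀ {s' : St}, Fr s s' → ∀ x, Holds ((s'.set 40 x).a (21 + 2 * l)) n' Δ := by
    intro s' hf x
    rw [St.set_a, hf.2.1 _ (by omega)]; exact hΔ
  have hQe : ∀ {s' : St}, Fr s s' → (E.reg (114 + 10 * l)).eval env s' = 𝔸.q ^ K := by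
    intro s' hf
    exact (hf.rg hr).r114
  have hrow : ∀ (s' : St) (x a : ℕ), Rg s' l p n' n i j (𝔸.q ^ K) → s'.r 40 = x →
      x / 𝔸.q ^ K = a → (rowE (.reg (114 + 10 * l))).eval env s' = a := by
    intro s' x a h1 h2 h3
    simp only [rowE, E.eval, h2, h1.r114, h3]
  have hcol : ∀ (s' : St) (x b : ℕ), Rg s' l p n' n i j (𝔸.q ^ K) → s'.r 40 = x →
      x % 𝔸.q ^ K = b → (colE (.reg (114 + 10 * l))).eval env s' = b := by
    intro s' x a h1 h2 h3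
    simp only [colE, E.eval, h2, h1.r114, h3]
  have hdm : ∀ (s' : St), Rg s' l p n' n i j (𝔸.q ^ K) →
      (E.dbl (.reg (100 + 10 * l))).eval env s' = 2 * n' := by
    intro s' h1
    simp only [E.dbl, E.eval, h1.r100]
  have hdn : ∀ (s' : St), Rg s' l p n' n i j (𝔸.q ^ K) →
      (E.dbl (.reg (110 + 10 * l))).eval env s' = 2 * n := by
    intro s' h1
    simp only [E.dbl, E.eval, h1.r110]
  have htot : 8 * (2 * (𝔸.q ^ K * 𝔸.q ^ K) + 1) + 4 * (cM * ((K + 1) * 𝔸.R ^ K)) =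
      (2 * (𝔸.q ^ K * 𝔸.q ^ K) + 1) + ((2 * (𝔸.q ^ K * 𝔸.q ^ K) + 1) +
      (cM * ((K + 1) * 𝔸.R ^ K) + ((2 * (𝔸.q ^ K * 𝔸.q ^ K) + 1) +
      ((2 * (𝔸.q ^ K * 𝔸.q ^ K) + 1) + (cM * ((K + 1) * 𝔸.R ^ K) +
      ((2 * (𝔸.q ^ K * 𝔸.q ^ K) + 1) + ((2 * (𝔸.q ^ K * 𝔸.q ^ K) + 1) +
      (cM * ((K + 1) * 𝔸.R ^ K) + ((2 * (𝔸.q ^ K * 𝔸.q ^ K) + 1) +
      ((2 * (𝔸.q ^ K * 𝔸.q ^ K) + 1) + cM * ((K + 1) * 𝔸.R ^ K))))))))))) := by ring
  rw [htot]
  unfold prodC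
  -- 1
  refine Tri.seq (step_fill (Fr.refl s) hr 9 (𝔸.q ^ K) (by omega) _ _
    (padF (2 * n') (2 * n') (hat n' Δ)) ?_ (hQe (Fr.refl s)) hcapQ hp ?_) ?_
  · simp only [E.NoArr, hatE, E.dbl, E.neg, rowE, colE, ne_eq, and_true, true_and]; omega
  · intro x hx h40 a ha b hb' hxa hxb _
    rw [hatE_eval hx (H21 (Fr.refl s) x), hrow _ _ _ hx h40 hxa, hcol _ _ _ hx h40 hxb]
  rintro s1 ⟨f1, A1, -⟩
  -- 2
  refine Tri.seq (step_fill f1 hr 10 (𝔸.q ^ K) (by omega) _ _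
    (padF (2 * n') (2 * n') N') ?_ (hQe f1) hcapQ hp ?_) ?_
  · simp only [E.NoArr, padE, E.dbl, rowE, colE, ne_eq, and_true, true_and]; omega
  · intro x hx h40 a ha b hb' hxa hxb _
    rw [padE_eval (A := N') (hdm _ hx) (hdm _ hx), hrow _ _ _ hx h40 hxa, hcol _ _ _ hx h40 hxb]
    intro h1 h2
    rw [hrow _ _ _ hx h40 hxa] at h1 ⊢
    rw [hcol _ _ _ hx h40 hxb] at h2 ⊢
    have h3 := H20 f1 x a h1 b h2
    rw [← h3]
    simp only [E.eval]
    rw [hrow _ _ _ hx h40 hxa, hcol _ _ _ hx h40 hxb, hdm _ hx]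
  rintro s2 ⟨f2, B2, k2⟩
  rw [← k2 9 (by omega)] at A1
  -- 3
  refine Tri.seq (step_mm hM f2 hb hD hK hm _ _ A1 B2 hp hcap) ?_
  rintro s3 ⟨f3, C3⟩
  -- 4
  refine Tri.seq (step_fill f3 hr 9 (𝔸.q ^ K) (by omega) _ _
    (padF (2 * n') (2 * n') (mulN (2 * n') (hat n' Δ) N')) ?_ (hQe f3) hcapQ hp ?_) ?_
  · simp only [E.NoArr, ne_eq, and_true]; omega
  · intro x hx h40 a ha b hb' hxa hxb hxx
    rw [← C3 a ha b hb', ← hxx]
    simp only [E.eval, h40, St.set_a]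
  rintro s4 ⟨f4, A4, -⟩
  -- 5
  refine Tri.seq (step_fill f4 hr 10 (𝔸.q ^ K) (by omega) _ _
    (padF (2 * n') (2 * n') (hat n' Δ)) ?_ (hQe f4) hcapQ hp ?_) ?_
  · simp only [E.NoArr, hatE, E.dbl, E.neg, rowE, colE, ne_eq, and_true, true_and]; omega
  · intro x hx h40 a ha b hb' hxa hxb _
    rw [hatE_eval hx (H21 f4 x), hrow _ _ _ hx h40 hxa, hcol _ _ _ hx h40 hxb]
  rintro s5 ⟨f5, B5, k5⟩
  rw [← k5 9 (by omega)] at A4
  -- 6
  refine Tri.seq (step_mm hM f5 hb hD hK hm _ _ A4 B5 hp hcap) ?_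
  rintro s6 ⟨f6, C6⟩
  -- 7
  refine Tri.seq (step_fill f6 hr 10 (𝔸.q ^ K) (by omega) _ _
    (padF (2 * n') (2 * n') (xmat n' N' Δ)) ?_ (hQe f6) hcapQ hp ?_) ?_
  · simp only [E.NoArr, hatE, E.dbl, E.neg, rowE, colE, ne_eq, and_true, true_and]; omega
  · intro x hx h40 a ha b hb' hxa hxb hxx
    have h3 := C6 a ha b hb'
    rw [← hxx] at h3
    simp only [E.eval]
    rw [hatE_eval hx (H21 f6 x), hrow _ _ _ hx h40 hxa, hcol _ _ _ hx h40 hxb, hx.r1, h40,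
      St.set_a, h3, ← val_sub']
    congr 1
    unfold padF xmat
    split
    · rfl
    · rw [sub_zero]
  rintro s7 ⟨f7, B7, k7⟩
  -- 8
  refine Tri.seq (step_fill f7 hr 9 (𝔸.q ^ K) (by omega) _ _
    (padF (2 * n) (2 * n') (fun x a => N x (ix n' n i j a))) ?_ (hQe f7) hcapQ hp ?_) ?_
  · simp only [E.NoArr, padE, ixE, E.dbl, rowE, colE, ne_eq, and_true, true_and]; omega
  · intro x hx h40 a ha b hb' hxa hxb _
    rw [padE_eval (A := fun x a => N x (ix n' n i j a)) (hdn _ hx) (hdm _ hx),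
      hrow _ _ _ hx h40 hxa, hcol _ _ _ hx h40 hxb]
    intro h1 h2
    rw [hrow _ _ _ hx h40 hxa] at h1 ⊢
    rw [hcol _ _ _ hx h40 hxb] at h2 ⊢
    have h3 := H22 f7 x a h1 _ (hix b h2)
    rw [← h3]
    simp only [E.eval]
    rw [ixE_eval hx.r100 hx.r110 hx.r112 hx.r113, hrow _ _ _ hx h40 hxa, hcol _ _ _ hx h40 hxb,
      hdn _ hx]
  rintro s8 ⟨f8, A8, k8⟩
  rw [← k8 10 (by omega)] at B7
  -- 9
  refine Tri.seq (step_mm hM f8 hb hD hK hm _ _ A8 B7 hp hcap) ?_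
  rintro s9 ⟨f9, C9⟩
  -- 10
  refine Tri.seq (step_fill f9 hr 9 (𝔸.q ^ K) (by omega) _ _
    (padF (2 * n) (2 * n') (mulN (2 * n') (fun x a => N x (ix n' n i j a)) (xmat n' N' Δ)))
    ?_ (hQe f9) hcapQ hp ?_) ?_
  · simp only [E.NoArr, ne_eq, and_true]; omega
  · intro x hx h40 a ha b hb' hxa hxb hxx
    rw [← C9 a ha b hb', ← hxx]
    simp only [E.eval, h40, St.set_a]
  rintro s10 ⟨f10, A10, -⟩
  -- 11
  refine Tri.seq (step_fill f10 hr 10 (𝔸.q ^ K) (by omega) _ _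
    (padF (2 * n') (2 * n) (fun b y => N (ix n' n i j b) y)) ?_ (hQe f10) hcapQ hp ?_) ?_
  · simp only [E.NoArr, padE, ixE, E.dbl, rowE, colE, ne_eq, and_true, true_and]; omega
  · intro x hx h40 a ha b hb' hxa hxb _
    rw [padE_eval (A := fun b y => N (ix n' n i j b) y) (hdm _ hx) (hdn _ hx),
      hrow _ _ _ hx h40 hxa, hcol _ _ _ hx h40 hxb]
    intro h1 h2
    rw [hrow _ _ _ hx h40 hxa] at h1 ⊢
    rw [hcol _ _ _ hx h40 hxb] at h2 ⊢
    have h3 := H22 f10 x _ (hix a h1) b h2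
    rw [← h3]
    simp only [E.eval]
    rw [ixE_eval hx.r100 hx.r110 hx.r112 hx.r113, hrow _ _ _ hx h40 hxa, hcol _ _ _ hx h40 hxb,
      hdn _ hx]
  rintro s11 ⟨f11, B11, k11⟩
  rw [← k11 9 (by omega)] at A10
  -- 12
  exact step_mm hM f11 hb hD hK hm _ _ A10 B11 hp hcap

/-- Write back `D`, the four products, the new `N_{l+1}`. -/
def updC (𝔸 : Alg) (l : ℕ) : C :=
  let n' : E := .reg (100 + 10 * l)
  let n : E := .reg (110 + 10 * l)
  let m2 : E := E.dbl n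
  let Q : E := .reg (114 + 10 * l)
  .seq (.asg (114 + 10 * l) (.mul n (.const 𝔸.q))) <|
  .seq (.asg 10 (.add (.mul (.reg 5) (.const (l + 1))) (.const 1))) <|
  .seq (fill 40 (.mul n n) 12
    (.ifEq (.div (rowE n) n') (.reg (112 + 10 * l))
      (.ifEq (.div (colE n) n') (.reg (113 + 10 * l))
        (.ld (21 + 2 * l) (.add (.mul (.mod (rowE n) n') n') (.mod (colE n) n')))
        (.ld (23 + 2 * l) (.reg 40)))
      (.ld (23 + 2 * l) (.reg 40)))) <|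
  .seq (fill 40 (.mul n n) (23 + 2 * l) (.ld 12 (.reg 40))) <|
  .seq (prodC 𝔸 l) <|
  .seq (fill 40 (.mul m2 m2) 12
    (.mod (.add (.ld (22 + 2 * l) (.reg 40))
      (.sub (.reg 1) (.ld 11 (.add (.mul (rowE m2) Q) (colE m2))))) (.reg 1))) <|
  fill 40 (.mul m2 m2) (22 + 2 * l) (.ld 12 (.reg 40))

theorem upd_tri (𝔸 : Alg) (l : ℕ) : ∃ cU : ℕ, ∀ (env : Env) (cap p κ : ℕ) [Fact p.Prime] (s : St)
    (ND r : (ℕ → ℕ → ZMod p) × (ℕ → ℕ → ZMod p)) (t : ℕ), Base 𝔸 p s → (𝔸.D : ZMod p) ≠ 0 →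
    s.r 4 = 𝔸.q ^ κ → s.r 5 = κ → s.r (100 + 10 * l) = (𝔸.q ^ κ) ^ l →
    s.r (110 + 10 * l) = (𝔸.q ^ κ) ^ (l + 1) → s.r (112 + 10 * l) = t / 𝔸.q ^ κ →
    s.r (113 + 10 * l) = t % 𝔸.q ^ κ → t < 𝔸.q ^ κ * 𝔸.q ^ κ →
    Holds (s.a (22 + 2 * l)) (2 * (𝔸.q ^ κ) ^ (l + 1)) ND.1 →
    Holds (s.a (23 + 2 * l)) ((𝔸.q ^ κ) ^ (l + 1)) ND.2 →
    Holds (s.a (20 + 2 * l)) (2 * (𝔸.q ^ κ) ^ l) r.1 →
    Holds (s.a (21 + 2 * l)) ((𝔸.q ^ κ) ^ l) r.2 → p ≤ cap → 𝔸.R ^ (κ * (l + 1) + 2) ≤ cap →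
    Tri env cap (updC 𝔸 l) s (cU * ((κ * (l + 1) + 2) * 𝔸.R ^ (κ * (l + 1)))) (fun s' =>
      Holds (s'.a (22 + 2 * l)) (2 * (𝔸.q ^ κ) ^ (l + 1))
        (updN ((𝔸.q ^ κ) ^ l) ((𝔸.q ^ κ) ^ (l + 1)) (t / 𝔸.q ^ κ) (t % 𝔸.q ^ κ) ND.1 r.1 r.2) ∧
      Holds (s'.a (23 + 2 * l)) ((𝔸.q ^ κ) ^ (l + 1))
        (updD ((𝔸.q ^ κ) ^ l) (t / 𝔸.q ^ κ) (t % 𝔸.q ^ κ) ND.2 r.2) ∧
      (∀ x, x < 10 ∨ 100 ≤ x → x ≠ 114 + 10 * l → s'.r x = s.r x) ∧
      (∀ j, j < 9 ∨ 20 ≤ j → j ≠ 22 + 2 * l → j ≠ 23 + 2 * l → s'.a j = s.a j) ∧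
      s'.pos = s.pos) := by
  obtain ⟨cM, hM⟩ := prod_tri 𝔸
  refine ⟨(50 + 4 * cM) * 𝔸.R, ?_⟩
  intro env cap p κ _ s ND r t hb hD h4 h5 h100 h110 h112 h113 ht hN hDD hN' hΔ hp hcap
  obtain ⟨hσ1, hn'pos, hnn', hRn, hcap4⟩ := sizes_aux 𝔸 l κ hcap
  have hti : t / 𝔸.q ^ κ < 𝔸.q ^ κ := Nat.div_lt_of_lt_mul ht
  have htj : t % 𝔸.q ^ κ < 𝔸.q ^ κ := Nat.mod_lt _ hσ1
  have hQn : 𝔸.q ^ (κ * (l + 1) + 1) = (𝔸.q ^ κ) ^ (l + 1) * 𝔸.q := by
    rw [pow_succ, pow_mul]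
  have hQ2 : 𝔸.q ^ (κ * (l + 1) + 1) * 𝔸.q ^ (κ * (l + 1) + 1) ≤ 𝔸.R ^ (κ * (l + 1) + 1) := by
    calc 𝔸.q ^ (κ * (l + 1) + 1) * 𝔸.q ^ (κ * (l + 1) + 1) = (𝔸.q ^ 2) ^ (κ * (l + 1) + 1) := by
          rw [← pow_add, ← pow_mul]; ring_nf
      _ ≤ 𝔸.R ^ (κ * (l + 1) + 1) := Nat.pow_le_pow_left 𝔸.sq_le _
  have hR1 : 1 < 𝔸.R := by
    have h1 := 𝔸.sq_le
    have h2 : 2 ^ 2 ≤ 𝔸.q ^ 2 := Nat.pow_le_pow_left 𝔸.two_le _
    omega
  have hRK : 𝔸.R ^ (κ * (l + 1) + 1) ≤ cap := le_trans (Nat.pow_le_pow_right (by omega) (by omega)) hcap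
  have hQcap : 𝔸.q ^ (κ * (l + 1) + 1) * 𝔸.q ^ (κ * (l + 1) + 1) ≤ cap := hQ2.trans hRK
  have hQpos : 0 < 𝔸.q ^ (κ * (l + 1) + 1) := Nat.pow_pos (by have := 𝔸.two_le; omega)
  have hQ1cap : 𝔸.q ^ (κ * (l + 1) + 1) ≤ cap :=
    (Nat.le_mul_of_pos_left _ hQpos).trans hQcap
  have hKcap : κ * (l + 1) + 1 ≤ cap := (Nat.lt_pow_self hR1).le.trans hRK
  have hWK : 𝔸.R ^ (κ * (l + 1) + 1) = 𝔸.R ^ (κ * (l + 1)) * 𝔸.R := pow_succ _ _
  have hWpos : 0 < 𝔸.R ^ (κ * (l + 1)) := Nat.pow_pos (by omega)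
  have h2Q : 2 * (𝔸.q ^ κ) ^ (l + 1) ≤ 𝔸.q ^ (κ * (l + 1) + 1) := by
    rw [hQn, Nat.mul_comm]
    exact Nat.mul_le_mul_left _ 𝔸.two_le
  generalize hσ : 𝔸.q ^ κ = σ at *
  generalize hn' : σ ^ l = n' at *
  generalize hn : σ ^ (l + 1) = n at *
  generalize hK : κ * (l + 1) + 1 = K at *
  have hσn : σ ≤ n := by rw [hnn']; exact Nat.le_mul_of_pos_left _ hn'pos
  have hn'n : n' ≤ n := by rw [hnn']; exact Nat.le_mul_of_pos_right _ hσ1
  have hnn : n ≤ n * n := Nat.le_mul_of_pos_left _ (by omega)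
  have hn4 : 2 * n * (2 * n) = 4 * (n * n) := by ring
  have hcost : 1 + (1 + ((2 * (n * n) + 1) + ((2 * (n * n) + 1) +
      ((8 * (2 * (𝔸.q ^ K * 𝔸.q ^ K) + 1) + 4 * (cM * ((K + 1) * 𝔸.R ^ K))) +
      ((2 * (2 * n * (2 * n)) + 1) + (2 * (2 * n * (2 * n)) + 1)))))) ≤
      (50 + 4 * cM) * 𝔸.R * ((κ * (l + 1) + 2) * 𝔸.R ^ (κ * (l + 1))) := by
    have e0 : κ * (l + 1) + 2 = K + 1 := by omega
    rw [hn4, e0, hWK]
    rw [hWK] at hQ2
    generalize 𝔸.R ^ (κ * (l + 1)) = W at *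
    have e1 : W * 𝔸.R ≤ 𝔸.R * ((K + 1) * W) := by
      calc W * 𝔸.R = 𝔸.R * (1 * W) := by ring
        _ ≤ 𝔸.R * ((K + 1) * W) := Nat.mul_le_mul_left _ (Nat.mul_le_mul_right _ (by omega))
    have e2 : W ≤ W * 𝔸.R := Nat.le_mul_of_pos_right _ (by omega)
    have e3 : (50 + 4 * cM) * 𝔸.R * ((K + 1) * W) =
        50 * (𝔸.R * ((K + 1) * W)) + 4 * (cM * ((K + 1) * (W * 𝔸.R))) := by ring
    rw [e3]
    omega
  refine Tri.mono (Q := fun s' =>
      Holds (s'.a (22 + 2 * l)) (2 * n) (updN n' n (t / σ) (t % σ) ND.1 r.1 r.2) ∧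
      Holds (s'.a (23 + 2 * l)) n (updD n' (t / σ) (t % σ) ND.2 r.2) ∧
      (∀ x, x < 10 ∨ 100 ≤ x → x ≠ 114 + 10 * l → s'.r x = s.r x) ∧
      (∀ j, j < 9 ∨ 20 ≤ j → j ≠ 22 + 2 * l → j ≠ 23 + 2 * l → s'.a j = s.a j) ∧
      s'.pos = s.pos) ?_ hcost (fun _ h => h)
  unfold updC
  -- the two assignments
  refine Tri.seq (Q := fun s1 => s1 = s.set (114 + 10 * l) (𝔸.q ^ K)) (Tri.asg ?_ ?_) ?_
  · simp only [E.eval, h110]; rw [← hQn]; exact hQ1cap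
  · simp only [E.eval, h110]; rw [← hQn]
  rintro s1 rfl
  refine Tri.seq (Q := fun s2 => s2 = (s.set (114 + 10 * l) (𝔸.q ^ K)).set 10 K) (Tri.asg ?_ ?_) ?_
  · simp only [E.eval, St.set_r]
    rw [Function.update_of_ne (by omega), h5, hK]; exact hKcap
  · simp only [E.eval, St.set_r]
    rw [Function.update_of_ne (by omega), h5, hK]
  rintro s2 rfl
  have g10 : ((s.set (114 + 10 * l) (𝔸.q ^ K)).set 10 K).r 10 = K := by
    simp only [St.set_r]; rw [Function.update_self]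
  have g114 : ((s.set (114 + 10 * l) (𝔸.q ^ K)).set 10 K).r (114 + 10 * l) = 𝔸.q ^ K := by
    simp only [St.set_r]; rw [Function.update_of_ne (by omega), Function.update_self]
  have gr : ∀ x, x ≠ 10 → x ≠ 114 + 10 * l →
      ((s.set (114 + 10 * l) (𝔸.q ^ K)).set 10 K).r x = s.r x := by
    intro x h1 h2
    simp only [St.set_r]; rw [Function.update_of_ne h1, Function.update_of_ne h2]
  have ga : ((s.set (114 + 10 * l) (𝔸.q ^ K)).set 10 K).a = s.a := rfl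
  have gp : ((s.set (114 + 10 * l) (𝔸.q ^ K)).set 10 K).pos = s.pos := rfl
  generalize ((s.set (114 + 10 * l) (𝔸.q ^ K)).set 10 K) = s2 at *
  have hr2 : Rg s2 l p n' n (t / σ) (t % σ) (𝔸.q ^ K) :=
    ⟨by rw [gr _ (by omega) (by omega)]; exact hb.p_eq,
      by rw [gr _ (by omega) (by omega)]; exact h100,
      by rw [gr _ (by omega) (by omega)]; exact h110,
      by rw [gr _ (by omega) (by omega)]; exact h112,
      by rw [gr _ (by omega) (by omega)]; exact h113, g114⟩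
  have hb2 : Base 𝔸 p s2 := hb.of_frame (gr _ (by omega) (by omega)) (by rw [ga]) (by rw [ga])
    (by rw [ga]) (by rw [ga])
  -- new D in array 12
  refine Tri.seq (step_fill (Fr.refl s2) hr2 12 n (by omega) _ _
    (updD n' (t / σ) (t % σ) ND.2 r.2) ?_ hr2.r110 (by omega) hp ?_) ?_
  · simp only [E.NoArr, rowE, colE, ne_eq, and_true, true_and]; omega
  · intro x hx h40 a ha b hb' hxa hxb hxx
    simp only [rowE, colE, E.eval, h40, hx.r110, hx.r100, hx.r112, hx.r113, hxa, hxb, St.set_a, ga,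
      updD]
    have h23 := hDD a ha b hb'
    rw [← hxx] at h23
    rw [h23, hΔ _ (Nat.mod_lt _ hn'pos) _ (Nat.mod_lt _ hn'pos)]
    by_cases h1 : a / n' = t / σ
    · by_cases h2 : b / n' = t % σ
      · rw [if_pos h1, if_pos h2, if_pos ⟨h1, h2⟩]
      · rw [if_pos h1, if_neg h2, if_neg (fun h => h2 h.2)]
    · rw [if_neg h1, if_neg (fun h => h1 h.1)]
  rintro s3 ⟨f3, D3, k3⟩
  -- copy to array 23 + 2 l
  refine Tri.seq (fillM_tri (p := p) (m := n) (updD n' (t / σ) (t % σ) ND.2 r.2) ?_ ?_ (by omega)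
    hp ?_) ?_
  · simp only [E.NoArr, ne_eq, and_true]; omega
  · simp only [E.eval, (f3.rg hr2).r110]
  · intro a ha b hb'
    simp only [E.eval, St.set_r, Function.update_self, St.set_a]
    exact D3 a ha b hb'
  rintro s4 ⟨m1, m2, m3, m4⟩
  have hr4 : Rg s4 l p n' n (t / σ) (t % σ) (𝔸.q ^ K) :=
    ⟨by rw [m2 _ (by omega)]; exact (f3.rg hr2).r1,
      by rw [m2 _ (by omega)]; exact (f3.rg hr2).r100,
      by rw [m2 _ (by omega)]; exact (f3.rg hr2).r110,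
      by rw [m2 _ (by omega)]; exact (f3.rg hr2).r112,
      by rw [m2 _ (by omega)]; exact (f3.rg hr2).r113,
      by rw [m2 _ (by omega)]; exact (f3.rg hr2).r114⟩
  have ha4 : ∀ j, j < 9 ∨ 20 ≤ j → j ≠ 23 + 2 * l → s4.a j = s.a j := by
    intro j h1 h2
    rw [m3 _ h2, f3.2.1 _ h1, ga]
  have hr4' : ∀ x, x < 10 ∨ 100 ≤ x → x ≠ 114 + 10 * l → s4.r x = s.r x := by
    intro x h1 h2
    rw [m2 _ (by omega), f3.1 _ (by omega), gr _ (by omega) h2]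
  have hb4 : Base 𝔸 p s4 := hb.of_frame (hr4' _ (by omega) (by omega)) (ha4 _ (by omega) (by omega))
    (ha4 _ (by omega) (by omega)) (ha4 _ (by omega) (by omega)) (ha4 _ (by omega) (by omega))
  have hN4 : Holds (s4.a (22 + 2 * l)) (2 * n) ND.1 := by
    rw [ha4 _ (by omega) (by omega)]; exact hN
  -- the products
  refine Tri.seq (hM l env cap p K s4 n' n (t / σ) (t % σ) ND.1 r.1 r.2 hb4 hD
    (by rw [m2 _ (by omega), f3.1 _ (by omega), g10]) hr4 h2Q hn'n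
    (fun a ha => ix_lt hnn' hti htj ha) hN4
    (by rw [ha4 _ (by omega) (by omega)]; exact hN')
    (by rw [ha4 _ (by omega) (by omega)]; exact hΔ) hp
    (by rw [← hK]; exact hcap) hQcap) ?_
  rintro s5 ⟨f5, P5⟩
  -- the new N in array 12
  refine Tri.seq (step_fill f5 hr4 12 (2 * n) (by omega) (E.dbl (.reg (110 + 10 * l))) _
    (updN n' n (t / σ) (t % σ) ND.1 r.1 r.2) ?_ ?_ (by omega) hp ?_) ?_
  · simp only [E.NoArr, rowE, colE, E.dbl, ne_eq, and_true, true_and]; omega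
  · simp only [E.dbl, E.eval, (f5.rg hr4).r110]
  · intro x hx h40 a ha b hb' hxa hxb hxx
    have h22 := hN4 a ha b hb'
    rw [← hxx] at h22
    have h11 := P5 a (by omega) b (by omega)
    simp only [rowE, colE, E.dbl, E.eval, h40, hx.r110, hx.r1, hx.r114, hxa, hxb, St.set_a]
    rw [f5.2.1 _ (by omega), h22, h11, ← val_sub']
    unfold padF updN
    rw [if_pos ⟨ha, hb'⟩]
  rintro s6 ⟨f6, N6, k6⟩
  -- copy to array 22 + 2 l
  refine (fillM_tri (p := p) (m := 2 * n) (updN n' n (t / σ) (t % σ) ND.1 r.1 r.2) ?_ ?_ (by omega)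
    hp ?_).mono le_rfl ?_
  · simp only [E.NoArr, ne_eq, and_true]; omega
  · simp only [E.dbl, E.eval, (f6.rg hr4).r110]
  · intro a ha b hb'
    simp only [E.eval, St.set_r, Function.update_self, St.set_a]
    exact N6 a ha b hb'
  rintro s7 ⟨q1, q2, q3, q4⟩
  refine ⟨q1, ?_, ?_, ?_, ?_⟩
  · rw [q3 _ (by omega), f6.2.1 _ (by omega)]; exact m1
  · intro x h1 h2
    rw [q2 _ (by omega), f6.1 _ (by omega), hr4' _ h1 h2]
  · intro j h1 h2 h3
    rw [q3 _ h2, f6.2.1 _ h1, ha4 _ h1 h3]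
  · rw [q4, f6.2.2, m4, f3.2.2, gp]

end Vale.Agent.P305.MM
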