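import Vale.Agent.P305.MM.Lang

/-! Definitions shared by all modules: the base bilinear algorithm, the pure recursive procedure
`crossF`, its sequential meaning `seqRun`, edge sets and weights. -/

set_option autoImplicit false

namespace Vale.Agent.P305.MM

open Finset

/-- A bilinear algorithm for `q × q` matrices with `R` products and integer coefficients, computing
`D ^ 3` times the product. -/
structure Alg where
  q : ℕ
  R : ℕ
  D : ℕ
  u : ℕ → ℕ → ℕ → ℤ
  v : ℕ → ℕ → ℕ → ℤ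
  w : ℕ → ℕ → ℕ → ℤ
  two_le : 2 ≤ q
  even : 2 ∣ q
  sq_le : q ^ 2 ≤ R
  D_pos : 0 < D
  bil : ∀ i < q, ∀ j < q, ∀ d < q, ∀ e < q, ∀ d' < q, ∀ e' < q,
    ∑ r ∈ range R, w r i j * (u r d e * v r d' e') =
      if d = i ∧ e = d' ∧ e' = j then (D : ℤ) ^ 3 else 0

/-! ### Pure procedures; matrices are functions `ℕ → ℕ → F` -/

section Pure

variable {F : Type} [Field F] [DecidableEq F]

/-- Product of `m × m` matrices. -/
def mulN (m : ℕ) (A B : ℕ → ℕ → F) (a b : ℕ) : F := ∑ k ∈ range m, A a k * B k b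

/-- Position in the list `(R, S)` (`R`, `S` of length `n`) of entry `a` of the list `(R_i, S_j)`
(`R_i`, `S_j` = blocks `i`, `j` of length `n'`). -/
def ix (n' n i j a : ℕ) : ℕ := if a < n' then i * n' + a else n + (j * n' + (a - n'))

/-- The alternating `2n' × 2n'` matrix `[[0, Δ], [-Δᵀ, 0]]`. -/
def hat (n' : ℕ) (Δ : ℕ → ℕ → F) (a b : ℕ) : F :=
  if a < n' then (if n' ≤ b then Δ a (b - n') else 0) else (if b < n' then - Δ b (a - n') else 0)

/-- `Δ^ - Δ^ N' Δ^`. -/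
def xmat (n' : ℕ) (N' Δ : ℕ → ℕ → F) (a b : ℕ) : F :=
  hat n' Δ a b - mulN (2 * n') (mulN (2 * n') (hat n' Δ) N') (hat n' Δ) a b

/-- Update of `N` after the call on blocks `i`, `j`. -/
def updN (n' n i j : ℕ) (N N' Δ : ℕ → ℕ → F) (x y : ℕ) : F :=
  N x y - mulN (2 * n') (mulN (2 * n') (fun x a => N x (ix n' n i j a)) (xmat n' N' Δ))
    (fun b y => N (ix n' n i j b) y) x y

/-- Update of `D` after the call on blocks `i`, `j`. -/
def updD (n' i j : ℕ) (D Δ : ℕ → ℕ → F) (x y : ℕ) : F :=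
  if x / n' = i ∧ y / n' = j then Δ (x % n') (y % n') else D x y

/-- `f 0`, then `f 1`, …, then `f (k - 1)` applied to `x`. -/
def itN {α : Type} (f : ℕ → α → α) (x : α) : ℕ → α
  | 0 => x
  | k + 1 => f k (itN f x k)

/-- The pair (restricted inverse, proposed changes) of the child `t` of a node of level `l + 1`. -/
def childF (σ l t : ℕ) (ND : (ℕ → ℕ → F) × (ℕ → ℕ → F)) : (ℕ → ℕ → F) × (ℕ → ℕ → F) :=
  (fun a b => ND.1 (ix (σ ^ l) (σ ^ (l + 1)) (t / σ) (t % σ) a)
      (ix (σ ^ l) (σ ^ (l + 1)) (t / σ) (t % σ) b),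
   fun a b => ND.2 ((t / σ) * σ ^ l + a) ((t % σ) * σ ^ l + b))

/-- The recursive procedure. Input: `N` (`2σ^l × 2σ^l`) and proposed changes `D` (`σ^l × σ^l`).
Output: the new `N` and the accepted changes. -/
def crossF (σ : ℕ) : ℕ → (ℕ → ℕ → F) × (ℕ → ℕ → F) → (ℕ → ℕ → F) × (ℕ → ℕ → F)
  | 0, ND => if 1 - ND.2 0 0 * ND.1 0 1 = 0 then (ND.1, fun _ _ => 0)
      else (fun a b => (1 - ND.2 0 0 * ND.1 0 1)⁻¹ * ND.1 a b, ND.2)
  | l + 1, ND => itN (fun t ND' =>
      let r := crossF σ l (childF σ l t ND')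
      (updN (σ ^ l) (σ ^ (l + 1)) (t / σ) (t % σ) ND'.1 r.1 r.2,
       updD (σ ^ l) (t / σ) (t % σ) ND'.2 r.2)) ND (σ * σ)

/-- The order in which `crossF` treats the positions of `D`. -/
def ord (σ : ℕ) : ℕ → List (ℕ × ℕ)
  | 0 => [(0, 0)]
  | l + 1 => (List.range (σ * σ)).flatMap fun t =>
      (ord σ l).map fun ab => ((t / σ) * σ ^ l + ab.1, (t % σ) * σ ^ l + ab.2)

end Pure

/-! ### Sequential meaning -/

section Seq

variable {F : Type} [Field F] {V : Type} [Fintype V] [DecidableEq V]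

/-- Alternating matrices. -/
def Alt (T : Matrix V V F) : Prop := (∀ u v, T u v = - T v u) ∧ ∀ u, T u u = 0

/-- The alternating matrix with entry `1` at `(u, v)` and `-1` at `(v, u)` (zero if `u = v`). -/
def Kab (u v : V) : Matrix V V F :=
  fun a b => (if a = u ∧ b = v then 1 else 0) - (if a = v ∧ b = u then 1 else 0)

open Classical in
/-- The accepted change: `δ` if the matrix stays nonsingular, else `0`. -/
noncomputable def acc (T : Matrix V V F) (u v : V) (δ : F) : F :=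
  if (T + δ • Kab u v).det = 0 then 0 else δ

/-- Treat the positions of a list one after another. -/
noncomputable def seqRun (g₁ g₂ : ℕ → V) :
    List (ℕ × ℕ) → Matrix V V F × (ℕ → ℕ → F) → Matrix V V F × (ℕ → ℕ → F)
  | [], TD => TD
  | ab :: l, TD => seqRun g₁ g₂ l
      (TD.1 + acc TD.1 (g₁ ab.1) (g₂ ab.2) (TD.2 ab.1 ab.2) • Kab (g₁ ab.1) (g₂ ab.2),
       fun x y => if x = ab.1 ∧ y = ab.2 then acc TD.1 (g₁ ab.1) (g₂ ab.2) (TD.2 ab.1 ab.2)
         else TD.2 x y)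

end Seq

/-! ### Edge sets on `Fin N` -/

section Graph

variable {F : Type} [Field F] {N : ℕ}

/-- The alternating matrix with weights `x` on the pairs of `S`. -/
def TS (x : Fin N → Fin N → F) (S : Finset (Fin N × Fin N)) : Matrix (Fin N) (Fin N) F :=
  ∑ e ∈ S, x e.1 e.2 • Kab e.1 e.2

/-- `M` is a perfect matching: every vertex lies in exactly one pair. -/
def IsPM (M : Finset (Fin N × Fin N)) : Prop :=
  (∀ e ∈ M, e.1 < e.2) ∧ ∀ v : Fin N, ∃! e, e ∈ M ∧ (e.1 = v ∨ e.2 = v)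

/-- `S` contains a perfect matching. -/
def HasPM (S : Finset (Fin N × Fin N)) : Prop := ∃ M ⊆ S, IsPM M

end Graph

/-- The pure algorithm on top level. `N = 2 h` vertices; `Ad` is the adjacency relation of the input
graph (on numbers `< h`), `x` the weights. `step1` inserts the edges of the input graph and the
clique on `h, …, 2h - 1`; `step2` deletes pendant edges, `step3` edges of the input graph. -/
structure Top (F : Type) where
  h : ℕ
  Ad : ℕ → ℕ → Prop
  x : ℕ → ℕ → F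

section Top

variable {F : Type} [Field F]

open Classical in
/-- Proposed changes in the first pass. -/
noncomputable def Top.D1 (τ : Top F) (u v : ℕ) : F :=
  if u < v ∧ (τ.Ad u v ∨ τ.h ≤ u) then τ.x u v else 0

/-- Proposed changes in the second pass. -/
def Top.D2 (τ : Top F) (u v : ℕ) : F := if v = u + τ.h then - τ.x u v else 0

open Classical in
/-- Proposed changes in the third pass (`A` = accepted changes of the first pass). -/
noncomputable def Top.D3 (τ : Top F) (A : ℕ → ℕ → F) (u v : ℕ) : F :=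
  if u < v ∧ τ.Ad u v then - A u v else 0

/-- The inverse of the initial matrix (pendant edges only). -/
def Top.N0 (τ : Top F) (u v : ℕ) : F :=
  if v = u + τ.h then - (τ.x u v)⁻¹ else if u = v + τ.h then (τ.x v u)⁻¹ else 0

variable [DecidableEq F]

/-- Doubled index list: `[[A, A], [A, A]]`. -/
def dbl (n : ℕ) (A : ℕ → ℕ → F) (a b : ℕ) : F := A (a % n) (b % n)

noncomputable def Top.out1 (τ : Top F) (σ L : ℕ) : (ℕ → ℕ → F) × (ℕ → ℕ → F) :=
  crossF σ L (dbl (2 * τ.h) τ.N0, τ.D1)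

noncomputable def Top.out2 (τ : Top F) (σ L : ℕ) : (ℕ → ℕ → F) × (ℕ → ℕ → F) :=
  crossF σ L ((τ.out1 σ L).1, τ.D2)

noncomputable def Top.out3 (τ : Top F) (σ L : ℕ) : (ℕ → ℕ → F) × (ℕ → ℕ → F) :=
  crossF σ L ((τ.out2 σ L).1, τ.D3 (τ.out1 σ L).2)

/-- The edges found by the algorithm. -/
def Top.mat (τ : Top F) (σ L : ℕ) (u v : ℕ) : Prop :=
  u < v ∧ τ.Ad u v ∧ (τ.out3 σ L).2 u v = 0

end Top

/-! ### Words from random bits -/

/-- The number with binary digits `ω i, …, ω (i + b - 1)` (most significant digit first). -/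
def wordAt (ω : ℕ → Bool) (i : ℕ) : ℕ → ℕ
  | 0 => 0
  | b + 1 => 2 * wordAt ω i b + (if ω (i + b) then 1 else 0)

/-! ### Memory layout

Arrays: `0` output; `1` weights (`u * nn + v`); `2` sieve; `3` inverses mod `p`;
`4, 5, 6` tables of the base algorithm (`(r * q + d) * q + e`); `7` adjacency matrix
(`u * nn + v`, entries `0`/`1`); `8` accepted changes of pass 1; `9, 10` inputs and `11` output of
the matrix product (row major), `12, …, 19` scratch; `20 + 2 l` = `N_l` (row major, width `2σ^l`),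
`21 + 2 l` = `D_l` (row major, width `σ^l`).

Registers: `0` = `n`, `1` = `p`, `2` = `nn = σ^L`, `3` = `h = nn / 2`, `4` = `σ = q^κ`, `5` = `κ`,
`6` = `2^b`, `7` = `b`; `10` = number `K` of digits for the matrix product; `11, …, 39` scratch of
the matrix product; `40, …, 99` scratch of everything else; `100 + 10 l` = `σ^l`,
`101 + 10 l, …, 109 + 10 l` scratch of level `l` of the procedure. -/

/-- The array `f` holds on `m` rows and columns, in row-major order, the matrix `A`. -/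
def Holds {p : ℕ} (f : ℕ → ℕ) (m : ℕ) (A : ℕ → ℕ → ZMod p) : Prop :=
  ∀ i < m, ∀ j < m, f (i * m + j) = (A i j).val

/-- The tables that are computed once. -/
structure Base (𝔸 : Alg) (p : ℕ) (s : St) : Prop where
  p_eq : s.r 1 = p
  inv : ∀ x : ZMod p, x ≠ 0 → s.a 3 x.val = (x⁻¹).val
  u : ∀ r < 𝔸.R, ∀ d < 𝔸.q, ∀ e < 𝔸.q,
    s.a 4 ((r * 𝔸.q + d) * 𝔸.q + e) = ((𝔸.u r d e : ZMod p) * (𝔸.D : ZMod p)⁻¹).val
  v : ∀ r < 𝔸.R, ∀ d < 𝔸.q, ∀ e < 𝔸.q,
    s.a 5 ((r * 𝔸.q + d) * 𝔸.q + e) = ((𝔸.v r d e : ZMod p) * (𝔸.D : ZMod p)⁻¹).val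
  w : ∀ r < 𝔸.R, ∀ d < 𝔸.q, ∀ e < 𝔸.q,
    s.a 6 ((r * 𝔸.q + d) * 𝔸.q + e) = ((𝔸.w r d e : ZMod p) * (𝔸.D : ZMod p)⁻¹).val

theorem Base.of_frame {𝔸 : Alg} {p : ℕ} {s s' : St} (h : Base 𝔸 p s)
    (h1 : s'.r 1 = s.r 1) (h3 : s'.a 3 = s.a 3) (h4 : s'.a 4 = s.a 4) (h5 : s'.a 5 = s.a 5)
    (h6 : s'.a 6 = s.a 6) : Base 𝔸 p s' where
  p_eq := by rw [h1]; exact h.p_eq
  inv := by rw [h3]; exact h.inv
  u := by rw [h4]; exact h.u
  v := by rw [h5]; exact h.v
  w := by rw [h6]; exact h.w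

end Vale.Agent.P305.MM
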