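import Vale.Agent.P305.MM.Params

/-! More shared definitions. -/

set_option autoImplicit false

namespace Vale.Agent.P305.MM

open Finset

/-! ### Chains -/

/-- The weights belonging to the random words `w`. -/
def wt {N b : ℕ} (p : ℕ) (w : Fin N → Fin N → Fin (2 ^ b)) (u v : Fin N) : ZMod p :=
  ((w u v : ℕ) : ZMod p) + 1

/-- All matrices of a chain (start `S₀`, then adding the pairs of `es` one by one) are
nonsingular. -/
def ChainOK {F : Type} [Field F] {N : ℕ} (S₀ : Finset (Fin N × Fin N)) (es : List (Fin N × Fin N))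
    (x : Fin N → Fin N → F) : Prop :=
  ∀ k ≤ es.length, (TS x (S₀ ∪ (es.take k).toFinset)).det ≠ 0

/-! ### Ideal deletion runs -/

open Classical in
/-- Delete the pairs of a list one after another, if a perfect matching remains. -/
noncomputable def delRun {N : ℕ} : List (Fin N × Fin N) → Finset (Fin N × Fin N) →
    Finset (Fin N × Fin N)
  | [], S => S
  | e :: l, S => delRun l (if HasPM (S.erase e) then S.erase e else S)

theorem delRun_append {N : ℕ} (l l' : List (Fin N × Fin N)) (S : Finset (Fin N × Fin N)) :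
    delRun (l ++ l') S = delRun l' (delRun l S) := by
  induction l generalizing S with
  | nil => simp only [List.nil_append, delRun]
  | cons e l ih => simp only [List.cons_append, delRun, ih]

/-- Numbers as vertices. -/
def gF {N : ℕ} (hN : 0 < N) (a : ℕ) : Fin N := ⟨a % N, Nat.mod_lt _ hN⟩

/-- Positions as pairs of vertices. -/
def gP {N : ℕ} (hN : 0 < N) (ab : ℕ × ℕ) : Fin N × Fin N := (gF hN ab.1, gF hN ab.2)

/-! ### Matchings on numbers -/

/-- The pairs of `M` are pairwise disjoint edges (smaller vertex first). -/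
def IsMat (Ad : ℕ → ℕ → Prop) (M : Finset (ℕ × ℕ)) : Prop :=
  (∀ e ∈ M, e.1 < e.2 ∧ Ad e.1 e.2) ∧
  ∀ e ∈ M, ∀ e' ∈ M, (e.1 = e'.1 ∨ e.1 = e'.2 ∨ e.2 = e'.1 ∨ e.2 = e'.2) → e = e'

def IsMaxMat (Ad : ℕ → ℕ → Prop) (M : Finset (ℕ × ℕ)) : Prop :=
  IsMat Ad M ∧ ∀ M', IsMat Ad M' → M'.card ≤ M.card

open Classical in
/-- The edges of the input graph. -/
noncomputable def GS (N : ℕ) (Ad : ℕ → ℕ → Prop) : Finset (Fin N × Fin N) :=
  univ.filter fun e => e.1 < e.2 ∧ Ad e.1 e.2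
/-- The pendant edges. -/
def PS (N h : ℕ) : Finset (Fin N × Fin N) := univ.filter fun e => (e.2 : ℕ) = e.1 + h
/-- The clique. -/
def CS (N h : ℕ) : Finset (Fin N × Fin N) := univ.filter fun e => e.1 < e.2 ∧ h ≤ (e.1 : ℕ)

/-- Adjacency as a relation on numbers. -/
def nAdj {n : ℕ} (G : SimpleGraph (Fin n)) (u v : ℕ) : Prop :=
  ∃ (hu : u < n) (hv : v < n), G.Adj ⟨u, hu⟩ ⟨v, hv⟩

/-! ### Random words -/

theorem wordAt_lt (ω : ℕ → Bool) (i b : ℕ) : wordAt ω i b < 2 ^ b := by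
  induction b with
  | zero => simp [wordAt]
  | succ b ih =>
    simp only [wordAt, pow_succ]
    split <;> omega

def words (ω : ℕ → Bool) (N b : ℕ) (u v : Fin N) : Fin (2 ^ b) :=
  ⟨wordAt ω ((u * N + v) * b) b, wordAt_lt _ _ _⟩

/-! ### State between the passes -/

open Classical in
/-- What the pieces between the passes read: modulus, sizes, weights, inverses, adjacency. -/
structure Env5 {p : ℕ} (s : St) (τ : Top (ZMod p)) (N : ℕ) : Prop where
  p_eq : s.r 1 = p
  N_eq : s.r 2 = N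
  h_eq : s.r 3 = τ.h
  two_h : N = 2 * τ.h
  x_holds : Holds (s.a 1) N τ.x
  x_ne : ∀ u < N, ∀ v < N, τ.x u v ≠ 0
  inv : ∀ x : ZMod p, x ≠ 0 → s.a 3 x.val = (x⁻¹).val
  adj : ∀ u < N, ∀ v < N, s.a 7 (u * N + v) = if τ.Ad u v then 1 else 0

theorem Env5.of_frame {p : ℕ} {s s' : St} {τ : Top (ZMod p)} {N : ℕ} (h : Env5 s τ N)
    (hr : ∀ x, x < 10 → s'.r x = s.r x) (ha : ∀ j, j < 8 → s'.a j = s.a j) : Env5 s' τ N where
  p_eq := by rw [hr 1 (by omega)]; exact h.p_eq
  N_eq := by rw [hr 2 (by omega)]; exact h.N_eq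
  h_eq := by rw [hr 3 (by omega)]; exact h.h_eq
  two_h := h.two_h
  x_holds := by rw [ha 1 (by omega)]; exact h.x_holds
  x_ne := h.x_ne
  inv := by rw [ha 3 (by omega)]; exact h.inv
  adj := by rw [ha 7 (by omega)]; exact h.adj

/-- The total cost, up to a constant factor. -/
noncomputable def costA (𝔸 : Alg) (L n : ℕ) : ℕ :=
  nV 𝔸 L n ^ 2 * (bit 𝔸 L n + 1) +
    (𝔸.q ^ kap 𝔸 L n) ^ 2 * ((kap 𝔸 L n * L + 2) * 𝔸.R ^ (kap 𝔸 L n * L))

end Vale.Agent.P305.MM
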