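import Vale.Agent.P305.MM.Defs

/-! The numbers the program computes from `n`. -/

set_option autoImplicit false

namespace Vale.Agent.P305.MM

/-- Number of digits of `σ = q ^ κ`: the least `k` with `2 n + 2 ≤ (q ^ k) ^ L`. -/
noncomputable def kap (𝔸 : Alg) (L n : ℕ) : ℕ := sInf {k | 2 * n + 2 ≤ (𝔸.q ^ k) ^ L}

/-- The number of vertices `nn = σ ^ L`. -/
noncomputable def nV (𝔸 : Alg) (L n : ℕ) : ℕ := (𝔸.q ^ kap 𝔸 L n) ^ L

/-- Number of random bits per weight: the least `b` with `12 D nn ^ 2 ≤ 2 ^ b`. -/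
noncomputable def bit (𝔸 : Alg) (L n : ℕ) : ℕ := sInf {b | 12 * 𝔸.D * nV 𝔸 L n ^ 2 ≤ 2 ^ b}

/-- The modulus. -/
noncomputable def prm (𝔸 : Alg) (L n : ℕ) : ℕ := Nat.findGreatest Nat.Prime (2 ^ (bit 𝔸 L n + 1))

/-- A bound for all numbers that are stored. -/
noncomputable def big (𝔸 : Alg) (L n : ℕ) : ℕ :=
  1000 * 𝔸.D * nV 𝔸 L n ^ 2 + 𝔸.R ^ (kap 𝔸 L n * L + 2)

end Vale.Agent.P305.MM
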