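import Mathlib.NumberTheory.Bertrand
import Vale.Agent.P305.MM.Params

/-! MODULE N (numbers). Owner helper116. -/

set_option autoImplicit false

namespace Vale.Agent.P305.MM

theorem kap_set_nonempty (𝔸 : Alg) {L : ℕ} (hL : 1 ≤ L) (n : ℕ) :
    {k | 2 * n + 2 ≤ (𝔸.q ^ k) ^ L}.Nonempty := by
  refine ⟨2 * n + 2, ?_⟩
  have h2 := 𝔸.two_le
  have h1 : 2 * n + 2 ≤ 𝔸.q ^ (2 * n + 2) :=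
    le_trans (Nat.lt_two_pow_self).le (Nat.pow_le_pow_left h2 _)
  refine le_trans h1 ?_
  exact Nat.le_self_pow (by omega) _

theorem kap_spec (𝔸 : Alg) {L : ℕ} (hL : 1 ≤ L) (n : ℕ) :
    2 * n + 2 ≤ (𝔸.q ^ kap 𝔸 L n) ^ L := Nat.sInf_mem (kap_set_nonempty 𝔸 hL n)

theorem kap_pos (𝔸 : Alg) {L : ℕ} (hL : 1 ≤ L) (n : ℕ) : 1 ≤ kap 𝔸 L n := by
  by_contra h
  have h0 : kap 𝔸 L n = 0 := by omega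
  have := kap_spec 𝔸 hL n
  rw [h0] at this
  simp at this

theorem kap_lt (𝔸 : Alg) (L n k : ℕ) (hk : k < kap 𝔸 L n) : (𝔸.q ^ k) ^ L < 2 * n + 2 := by
  by_contra h
  exact absurd (Nat.sInf_le (s := {k | 2 * n + 2 ≤ (𝔸.q ^ k) ^ L}) (not_lt.1 h)) (not_le.2 hk)

theorem le_nV (𝔸 : Alg) {L : ℕ} (hL : 1 ≤ L) (n : ℕ) : 2 * n + 2 ≤ nV 𝔸 L n := kap_spec 𝔸 hL n

theorem nV_le (𝔸 : Alg) {L : ℕ} (hL : 1 ≤ L) (n : ℕ) : nV 𝔸 L n ≤ 𝔸.q ^ L * (2 * n + 2) := by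
  obtain ⟨k, hk⟩ : ∃ k, kap 𝔸 L n = k + 1 := ⟨kap 𝔸 L n - 1, by have := kap_pos 𝔸 hL n; omega⟩
  unfold nV
  rw [hk, pow_succ, mul_pow, mul_comm]
  exact Nat.mul_le_mul_left _ (kap_lt 𝔸 L n k (by omega)).le

theorem nV_even (𝔸 : Alg) {L : ℕ} (hL : 1 ≤ L) (n : ℕ) : 2 * (nV 𝔸 L n / 2) = nV 𝔸 L n := by
  have h : 2 ∣ nV 𝔸 L n := by
    unfold nV
    have hk := kap_pos 𝔸 hL n
    exact dvd_trans 𝔸.even (dvd_trans (dvd_pow_self _ (by omega)) (dvd_pow_self _ (by omega)))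
  exact Nat.mul_div_cancel' h

theorem nV_pos (𝔸 : Alg) {L : ℕ} (hL : 1 ≤ L) (n : ℕ) : 0 < nV 𝔸 L n := by
  have := le_nV 𝔸 hL n; omega

theorem nV_pos' (𝔸 : Alg) (L n : ℕ) : 0 < nV 𝔸 L n := by
  unfold nV
  have h2 := 𝔸.two_le
  positivity

theorem bit_spec (𝔸 : Alg) (L n : ℕ) : 12 * 𝔸.D * nV 𝔸 L n ^ 2 ≤ 2 ^ bit 𝔸 L n :=
  Nat.sInf_mem (s := {b | 12 * 𝔸.D * nV 𝔸 L n ^ 2 ≤ 2 ^ b})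
    ⟨12 * 𝔸.D * nV 𝔸 L n ^ 2, (Nat.lt_two_pow_self).le⟩

theorem le_bit (𝔸 : Alg) {L : ℕ} (_hL : 1 ≤ L) (n : ℕ) :
    12 * 𝔸.D * nV 𝔸 L n ^ 2 ≤ 2 ^ bit 𝔸 L n := bit_spec 𝔸 L n

theorem bit_pos (𝔸 : Alg) (L n : ℕ) : 1 ≤ bit 𝔸 L n := by
  by_contra h
  have h0 : bit 𝔸 L n = 0 := by omega
  have h1 := bit_spec 𝔸 L n
  rw [h0, pow_zero] at h1
  have h2 := nV_pos' 𝔸 L n
  have h3 := 𝔸.D_pos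
  have h4 : 0 < 𝔸.D * nV 𝔸 L n ^ 2 := by positivity
  nlinarith

theorem bit_le' (𝔸 : Alg) (L n : ℕ) : 2 ^ bit 𝔸 L n ≤ 24 * 𝔸.D * nV 𝔸 L n ^ 2 := by
  obtain ⟨b, hb⟩ : ∃ b, bit 𝔸 L n = b + 1 := ⟨bit 𝔸 L n - 1, by have := bit_pos 𝔸 L n; omega⟩
  have h : 2 ^ b < 12 * 𝔸.D * nV 𝔸 L n ^ 2 := by
    by_contra h
    have h1 : bit 𝔸 L n ≤ b :=
      Nat.sInf_le (s := {b | 12 * 𝔸.D * nV 𝔸 L n ^ 2 ≤ 2 ^ b}) (not_lt.1 h)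
    omega
  rw [hb, pow_succ]
  have : 24 * 𝔸.D * nV 𝔸 L n ^ 2 = 12 * 𝔸.D * nV 𝔸 L n ^ 2 * 2 := by ring
  rw [this]
  exact Nat.mul_le_mul_right _ h.le

theorem bit_le (𝔸 : Alg) {L : ℕ} (_hL : 1 ≤ L) (n : ℕ) :
    2 ^ bit 𝔸 L n ≤ 24 * 𝔸.D * nV 𝔸 L n ^ 2 := bit_le' 𝔸 L n

theorem exists_prm (𝔸 : Alg) (L n : ℕ) :
    ∃ p, p.Prime ∧ 2 ^ bit 𝔸 L n < p ∧ p ≤ 2 ^ (bit 𝔸 L n + 1) := by
  obtain ⟨p, hp, h1, h2⟩ := Nat.exists_prime_lt_and_le_two_mul (2 ^ bit 𝔸 L n) (by positivity)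
  exact ⟨p, hp, h1, by rw [pow_succ]; omega⟩

theorem prm_prime (𝔸 : Alg) (L n : ℕ) : (prm 𝔸 L n).Prime := by
  obtain ⟨p, hp, _, h2⟩ := exists_prm 𝔸 L n
  exact Nat.findGreatest_spec h2 hp

theorem lt_prm (𝔸 : Alg) (L n : ℕ) : 2 ^ bit 𝔸 L n < prm 𝔸 L n := by
  obtain ⟨p, hp, h1, h2⟩ := exists_prm 𝔸 L n
  exact lt_of_lt_of_le h1 (Nat.le_findGreatest h2 hp)

theorem prm_le (𝔸 : Alg) (L n : ℕ) : prm 𝔸 L n ≤ 2 ^ (bit 𝔸 L n + 1) := Nat.findGreatest_le _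

end Vale.Agent.P305.MM
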