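import Mathlib.Analysis.SpecialFunctions.Pow.Real
import Mathlib.Analysis.SpecialFunctions.Log.Basic
import Vale.Agent.P305.MM.Defs2
import Vale.Agent.P305.MM.ParamFacts

/-! MODULE G2 (exponents). Owner helper116. -/

set_option autoImplicit false

namespace Vale.Agent.P305.MM

/-- If `2 ^ k ≤ y` then `k ≤ y ^ δ / (δ log 2)`. -/
theorem lin_le_rpow (δ : ℝ) (hδ : 0 < δ) (k : ℕ) (y : ℝ) (hy : (2 : ℝ) ^ k ≤ y) :
    (k : ℝ) ≤ 1 / (δ * Real.log 2) * y ^ δ := by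
  have hl : 0 < Real.log 2 := Real.log_pos (by norm_num)
  have h1 : ((2 : ℝ) ^ k) ^ δ ≤ y ^ δ := Real.rpow_le_rpow (by positivity) hy hδ.le
  have h2 : ((2 : ℝ) ^ k) ^ δ = Real.exp (δ * Real.log 2 * k) := by
    rw [← Real.rpow_natCast, ← Real.rpow_mul (by norm_num), Real.rpow_def_of_pos (by norm_num)]
    congr 1; ring
  have h3 : δ * Real.log 2 * k + 1 ≤ Real.exp (δ * Real.log 2 * k) := Real.add_one_le_exp _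
  rw [h2] at h1
  have h4 : δ * Real.log 2 * k ≤ y ^ δ := by linarith
  have h5 : 0 < δ * Real.log 2 := by positivity
  rw [div_mul_eq_mul_div, one_mul, le_div_iff₀ h5]
  linarith

theorem costA_le (𝔸 : Alg) (τ ε : ℝ) (hτ : 2 ≤ τ) (hε : 0 < ε) (hR : (𝔸.R : ℝ) ≤ (𝔸.q : ℝ) ^ τ)
    (L : ℕ) (hL : 4 / ε ≤ L) (hL1 : 1 ≤ L) :
    ∃ K : ℕ, ∀ n : ℕ, (costA 𝔸 L n : ℝ) ≤ K * ((n : ℝ) + 1) ^ (τ + ε) := by
  have hl : 0 < Real.log 2 := Real.log_pos (by norm_num)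
  have hD : (0 : ℝ) < 𝔸.D := by exact_mod_cast 𝔸.D_pos
  have hq2 : (2 : ℝ) ≤ 𝔸.q := by exact_mod_cast 𝔸.two_le
  have hq0 : (0 : ℝ) < 𝔸.q := by linarith
  obtain ⟨c, hc⟩ : ∃ c : ℝ, c = 1 / (ε / 2 * Real.log 2) := ⟨_, rfl⟩
  have hc0 : 0 < c := by rw [hc]; positivity
  obtain ⟨C1, hC1⟩ : ∃ C1 : ℝ, C1 = c * (24 * 𝔸.D) ^ (ε / 2) + 1 := ⟨_, rfl⟩
  have hC10 : 0 < C1 := by rw [hC1]; positivity
  refine ⟨⌈(C1 + (c + 2)) * (2 * (𝔸.q : ℝ) ^ L) ^ (τ + ε)⌉₊, fun n => ?_⟩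
  obtain ⟨y, hy⟩ : ∃ y : ℝ, y = (nV 𝔸 L n : ℝ) := ⟨_, rfl⟩
  have hy1 : 1 ≤ y := by
    rw [hy]; exact_mod_cast nV_pos' 𝔸 L n
  have hy0 : 0 < y := by linarith
  have hyn : y ≤ 2 * (𝔸.q : ℝ) ^ L * (n + 1) := by
    have h := nV_le 𝔸 hL1 n
    have h' : ((nV 𝔸 L n : ℕ) : ℝ) ≤ ((𝔸.q ^ L * (2 * n + 2) : ℕ) : ℝ) := by exact_mod_cast h
    push_cast at h'
    rw [hy]
    linarith
  have hyq : y = (𝔸.q : ℝ) ^ (kap 𝔸 L n * L) := by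
    rw [hy, nV, pow_mul]; push_cast; ring
  -- the number of bits
  have h1 : ((bit 𝔸 L n : ℕ) : ℝ) + 1 ≤ C1 * y ^ ε := by
    have hb : (2 : ℝ) ^ bit 𝔸 L n ≤ 24 * 𝔸.D * y ^ 2 := by
      rw [hy]; exact_mod_cast bit_le' 𝔸 L n
    have h := lin_le_rpow (ε / 2) (by positivity) _ _ hb
    have h2 : (24 * 𝔸.D * y ^ 2) ^ (ε / 2) = (24 * 𝔸.D : ℝ) ^ (ε / 2) * y ^ ε := by
      rw [Real.mul_rpow (by positivity) (by positivity), ← Real.rpow_natCast y 2,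
        ← Real.rpow_mul hy0.le]
      congr 2
      push_cast; ring
    rw [h2, ← hc] at h
    have h3 : 1 ≤ y ^ ε := Real.one_le_rpow hy1 hε.le
    rw [hC1]
    nlinarith
  -- the number of digits
  have h2 : (((kap 𝔸 L n * L + 2 : ℕ)) : ℝ) ≤ (c + 2) * y ^ (ε / 2) := by
    have hb : (2 : ℝ) ^ (kap 𝔸 L n * L) ≤ y := by
      rw [hyq]; exact pow_le_pow_left₀ (by norm_num) hq2 _
    have h := lin_le_rpow (ε / 2) (by positivity) _ _ hb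
    rw [← hc] at h
    have h3 : 1 ≤ y ^ (ε / 2) := Real.one_le_rpow hy1 (by positivity)
    push_cast at h ⊢
    nlinarith
  have h3 : ((𝔸.R : ℝ)) ^ (kap 𝔸 L n * L) ≤ y ^ τ := by
    have h := pow_le_pow_left₀ (Nat.cast_nonneg 𝔸.R) hR (kap 𝔸 L n * L)
    refine h.trans (le_of_eq ?_)
    rw [hyq, ← Real.rpow_natCast, ← Real.rpow_mul hq0.le, ← Real.rpow_natCast,
      ← Real.rpow_mul hq0.le, mul_comm]
  have h4 : ((𝔸.q : ℝ) ^ kap 𝔸 L n) ^ 2 ≤ y ^ (ε / 2) := by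
    have hq1 : (1 : ℝ) ≤ (𝔸.q : ℝ) := by linarith
    rw [hyq, ← Real.rpow_natCast (𝔸.q : ℝ) (kap 𝔸 L n * L), ← Real.rpow_mul hq0.le,
      ← pow_mul, ← Real.rpow_natCast]
    refine Real.rpow_le_rpow_of_exponent_le hq1 ?_
    push_cast
    have h5 : 4 ≤ ε * L := by
      rw [div_le_iff₀ hε] at hL
      linarith
    have h6 : (0 : ℝ) ≤ kap 𝔸 L n := Nat.cast_nonneg _
    nlinarith
  have h5 : y ^ 2 * (((bit 𝔸 L n : ℕ) : ℝ) + 1) ≤ C1 * y ^ (τ + ε) := by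
    have ha : y ^ 2 * (((bit 𝔸 L n : ℕ) : ℝ) + 1) ≤ y ^ 2 * (C1 * y ^ ε) :=
      mul_le_mul_of_nonneg_left h1 (by positivity)
    have hb : y ^ 2 * (C1 * y ^ ε) = C1 * y ^ (2 + ε) := by
      rw [Real.rpow_add hy0, ← Real.rpow_natCast y 2]; push_cast; ring
    have hc' : y ^ (2 + ε) ≤ y ^ (τ + ε) :=
      Real.rpow_le_rpow_of_exponent_le hy1 (by linarith)
    rw [hb] at ha
    exact ha.trans (mul_le_mul_of_nonneg_left hc' hC10.le)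
  have h6 : ((𝔸.q : ℝ) ^ kap 𝔸 L n) ^ 2 *
      ((((kap 𝔸 L n * L + 2 : ℕ)) : ℝ) * (𝔸.R : ℝ) ^ (kap 𝔸 L n * L)) ≤
        (c + 2) * y ^ (τ + ε) := by
    have ha : (((kap 𝔸 L n * L + 2 : ℕ)) : ℝ) * (𝔸.R : ℝ) ^ (kap 𝔸 L n * L) ≤
        ((c + 2) * y ^ (ε / 2)) * y ^ τ :=
      mul_le_mul h2 h3 (by positivity) (by positivity)
    have hb := mul_le_mul h4 ha (by positivity) (by positivity)
    refine hb.trans (le_of_eq ?_)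
    have : y ^ (τ + ε) = y ^ (ε / 2) * y ^ (ε / 2) * y ^ τ := by
      rw [← Real.rpow_add hy0, ← Real.rpow_add hy0]; congr 1; ring
    rw [this]; ring
  have h7 : (costA 𝔸 L n : ℝ) ≤ (C1 + (c + 2)) * y ^ (τ + ε) := by
    have : (costA 𝔸 L n : ℝ) = y ^ 2 * (((bit 𝔸 L n : ℕ) : ℝ) + 1) +
        ((𝔸.q : ℝ) ^ kap 𝔸 L n) ^ 2 *
      ((((kap 𝔸 L n * L + 2 : ℕ)) : ℝ) * (𝔸.R : ℝ) ^ (kap 𝔸 L n * L)) := by
      rw [costA, hy]; push_cast; ring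
    rw [this]
    linarith
  refine h7.trans ?_
  have h8 : y ^ (τ + ε) ≤ (2 * (𝔸.q : ℝ) ^ L) ^ (τ + ε) * ((n : ℝ) + 1) ^ (τ + ε) := by
    rw [← Real.mul_rpow (by positivity) (by positivity)]
    exact Real.rpow_le_rpow hy0.le hyn (by linarith)
  have h9 : (C1 + (c + 2)) * y ^ (τ + ε) ≤
      ((C1 + (c + 2)) * (2 * (𝔸.q : ℝ) ^ L) ^ (τ + ε)) * ((n : ℝ) + 1) ^ (τ + ε) := by
    rw [mul_assoc]
    exact mul_le_mul_of_nonneg_left h8 (by positivity)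
  refine h9.trans ?_
  exact mul_le_mul_of_nonneg_right (Nat.le_ceil _) (by positivity)

/-- The word size: all stored numbers are polynomially bounded. -/
theorem big_le (𝔸 : Alg) (L : ℕ) (hL1 : 1 ≤ L) (c : ℕ) :
    ∃ k : ℕ, ∀ n m : ℕ, c * (big 𝔸 L n + n + m + 1) ≤ (n + m + 2) ^ k := by
  obtain ⟨A, hA⟩ : ∃ A : ℕ, A = 2 * 𝔸.q ^ L := ⟨_, rfl⟩
  obtain ⟨E, hE⟩ : ∃ E : ℕ, E = 𝔸.R + 2 := ⟨_, rfl⟩
  have hq := 𝔸.two_le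
  have hA1 : 1 ≤ A := by
    rw [hA]
    have : 0 < 𝔸.q ^ L := by positivity
    omega
  refine ⟨c * (1000 * 𝔸.D + 𝔸.R ^ 2 + 1) * A ^ E + E, fun n m => ?_⟩
  obtain ⟨M, hM⟩ : ∃ M : ℕ, M = n + m + 2 := ⟨_, rfl⟩
  rw [← hM]
  have hAM : 1 ≤ A * M := Nat.mul_pos hA1 (by omega)
  have hnV : nV 𝔸 L n ≤ A * M := by
    refine (nV_le 𝔸 hL1 n).trans ?_
    have h1 : 𝔸.q ^ L * (2 * n + 2) = A * (n + 1) := by rw [hA]; ring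
    rw [h1]
    exact Nat.mul_le_mul_left _ (by omega)
  have h1 : nV 𝔸 L n ^ 2 ≤ (A * M) ^ E :=
    (Nat.pow_le_pow_left hnV 2).trans (Nat.pow_le_pow_right hAM (by omega))
  have h2 : 𝔸.R ^ (kap 𝔸 L n * L + 2) ≤ 𝔸.R ^ 2 * (A * M) ^ E := by
    rw [pow_add, mul_comm]
    refine Nat.mul_le_mul_left _ ?_
    have h3 : 𝔸.R ≤ 𝔸.q ^ 𝔸.R := (Nat.lt_pow_self hq).le
    calc 𝔸.R ^ (kap 𝔸 L n * L) ≤ (𝔸.q ^ 𝔸.R) ^ (kap 𝔸 L n * L) := Nat.pow_le_pow_left h3 _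
      _ = nV 𝔸 L n ^ 𝔸.R := by
        rw [nV, ← pow_mul, ← pow_mul, ← pow_mul]; congr 1; ring
      _ ≤ (A * M) ^ 𝔸.R := Nat.pow_le_pow_left hnV _
      _ ≤ (A * M) ^ E := Nat.pow_le_pow_right hAM (by omega)
  have h3 : n + m + 1 ≤ (A * M) ^ E := by
    calc n + m + 1 ≤ M := by omega
      _ ≤ A * M := Nat.le_mul_of_pos_left _ hA1
      _ ≤ (A * M) ^ E := Nat.le_self_pow (by omega) _
  have h4 : big 𝔸 L n + n + m + 1 ≤ (1000 * 𝔸.D + 𝔸.R ^ 2 + 1) * (A * M) ^ E := by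
    have : big 𝔸 L n ≤ 1000 * 𝔸.D * (A * M) ^ E + 𝔸.R ^ 2 * (A * M) ^ E := by
      rw [big]
      exact Nat.add_le_add (Nat.mul_le_mul_left _ h1) h2
    calc big 𝔸 L n + n + m + 1 = big 𝔸 L n + (n + m + 1) := by ring
      _ ≤ (1000 * 𝔸.D * (A * M) ^ E + 𝔸.R ^ 2 * (A * M) ^ E) + (A * M) ^ E :=
        Nat.add_le_add this h3
      _ = (1000 * 𝔸.D + 𝔸.R ^ 2 + 1) * (A * M) ^ E := by ring
  calc c * (big 𝔸 L n + n + m + 1) ≤ c * ((1000 * 𝔸.D + 𝔸.R ^ 2 + 1) * (A * M) ^ E) :=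
        Nat.mul_le_mul_left _ h4
    _ = (c * (1000 * 𝔸.D + 𝔸.R ^ 2 + 1) * A ^ E) * M ^ E := by rw [mul_pow]; ring
    _ ≤ M ^ (c * (1000 * 𝔸.D + 𝔸.R ^ 2 + 1) * A ^ E) * M ^ E :=
        Nat.mul_le_mul_right _ (Nat.lt_pow_self (by omega)).le
    _ = M ^ (c * (1000 * 𝔸.D + 𝔸.R ^ 2 + 1) * A ^ E + E) := by rw [← pow_add]

end Vale.Agent.P305.MM
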