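import Vale.Agent.P305.MM.Defs2

/-! TASK W1 (counting random words) -/

set_option autoImplicit false

namespace Vale.Agent.P305.MM

open Finset

/-- The digits are determined by the word. -/
theorem wordAt_inj {ω ω' : ℕ → Bool} {i b : ℕ} (h : wordAt ω i b = wordAt ω' i b) :
    ∀ j < b, ω (i + j) = ω' (i + j) := by
  induction b with
  | zero => intro j hj; omega
  | succ b ih =>
    simp only [wordAt] at h
    have h1 : wordAt ω i b = wordAt ω' i b := by
      split at h <;> split at h <;> omega
    have h2 : ω (i + b) = ω' (i + b) := by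
      rw [h1] at h
      cases hx : ω (i + b) <;> cases hy : ω' (i + b) <;> simp_all
    intro j hj
    by_cases hjb : j = b
    · subst hjb; exact h2
    · exact ih h1 j (by omega)

theorem word_count (b N B : ℕ) (hB : N * N * b ≤ B) (P : (Fin N → Fin N → Fin (2 ^ b)) → Prop) :
    Nat.card {ω : Fin B → Bool // P (words (extend ω) N b)} *
      Nat.card (Fin N → Fin N → Fin (2 ^ b)) =
    Nat.card {w : Fin N → Fin N → Fin (2 ^ b) // P w} * 2 ^ B := by
  classical
  set f : (Fin B → Bool) → (Fin N → Fin N → Fin (2 ^ b)) × (Fin (B - N * N * b) → Bool) :=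
    fun ω => (words (extend ω) N b, fun j => ω ⟨N * N * b + j, by omega⟩) with hf
  have hinj : Function.Injective f := by
    intro ω ω' h
    simp only [hf, Prod.mk.injEq] at h
    obtain ⟨h1, h2⟩ := h
    funext t
    by_cases ht : (t : ℕ) < N * N * b
    · have hb : 0 < b := by
        rcases Nat.eq_zero_or_pos b with hb | hb
        · subst hb; simp at ht
        · exact hb
      have hx : (t : ℕ) / b < N * N := by
        rw [Nat.div_lt_iff_lt_mul hb]; exact ht
      have hN : 0 < N := by
        rcases Nat.eq_zero_or_pos N with hN | hN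
        · subst hN; simp at hx
        · exact hN
      have hu : (t : ℕ) / b / N < N := by
        rw [Nat.div_lt_iff_lt_mul hN]; exact hx
      have hv : (t : ℕ) / b % N < N := Nat.mod_lt _ hN
      have h3 := congrFun (congrFun h1 ⟨(t : ℕ) / b / N, hu⟩) ⟨(t : ℕ) / b % N, hv⟩
      simp only [words, Fin.mk.injEq] at h3
      have h4 := wordAt_inj h3 ((t : ℕ) % b) (Nat.mod_lt _ hb)
      have h5 : ((t : ℕ) / b / N * N + (t : ℕ) / b % N) * b + (t : ℕ) % b = t := by
        rw [Nat.div_add_mod', Nat.div_add_mod']
      rw [h5] at h4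
      simpa [extend] using h4
    · have h3 := congrFun h2 ⟨(t : ℕ) - N * N * b, by omega⟩
      have h4 : (⟨N * N * b + ((t : ℕ) - N * N * b), by omega⟩ : Fin B) = t := by
        apply Fin.ext
        simp only
        omega
      simp only at h3
      rwa [h4] at h3
  have hcard : Fintype.card (Fin B → Bool) =
      Fintype.card ((Fin N → Fin N → Fin (2 ^ b)) × (Fin (B - N * N * b) → Bool)) := by
    simp only [Fintype.card_pi, Fintype.card_bool, Fintype.card_prod, Fintype.card_fin,
      Finset.prod_const, Finset.card_univ]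
    rw [← pow_mul, ← pow_mul, ← pow_add]
    congr 1
    rw [show b * (N * N) = N * N * b by ring]
    omega
  have hbij : Function.Bijective f := (Fintype.bijective_iff_injective_and_card f).mpr ⟨hinj, hcard⟩
  let e := Equiv.ofBijective f hbij
  have e1 : {ω : Fin B → Bool // P (words (extend ω) N b)} ≃
      {x : (Fin N → Fin N → Fin (2 ^ b)) × (Fin (B - N * N * b) → Bool) // P x.1} :=
    e.subtypeEquiv (fun ω => Iff.rfl)
  have e2 : {x : (Fin N → Fin N → Fin (2 ^ b)) × (Fin (B - N * N * b) → Bool) // P x.1} ≃
      {w : Fin N → Fin N → Fin (2 ^ b) // P w} × (Fin (B - N * N * b) → Bool) :=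
    { toFun := fun x => (⟨x.1.1, x.2⟩, x.1.2)
      invFun := fun y => ⟨(y.1.1, y.2), y.1.2⟩
      left_inv := fun x => rfl
      right_inv := fun y => rfl }
  rw [Nat.card_congr (e1.trans e2), Nat.card_prod]
  have h2B : 2 ^ B = Nat.card (Fin N → Fin N → Fin (2 ^ b)) *
      Nat.card (Fin (B - N * N * b) → Bool) := by
    rw [← Nat.card_prod, Nat.card_eq_fintype_card, ← hcard]
    simp
  rw [h2B]
  ring

end Vale.Agent.P305.MM
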