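import Vale.Agent.P305.MM.Model

/-! A small total language (arrays, expressions, bounded loops) above the word RAM.
All programs of the project are written in this language; `Compile.lean` compiles it. -/

set_option autoImplicit false

namespace Vale.Agent.P305.MM

open Function (update)

/-- Environment: the input and the random bits. -/
structure Env where
  inp : List ℕ
  ω : ℕ → Bool

/-- States: registers, arrays, number of random bits used. -/
structure St where
  r : ℕ → ℕ
  a : ℕ → ℕ → ℕ
  pos : ℕ

def St.init : St := ⟨fun _ => 0, fun _ _ => 0, 0⟩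

/-- `s.set d v`: register `d` becomes `v`. -/
def St.set (s : St) (d v : ℕ) : St := ⟨update s.r d v, s.a, s.pos⟩

/-- `s.put j i v`: entry `i` of array `j` becomes `v`. -/
def St.put (s : St) (j i v : ℕ) : St := ⟨s.r, update s.a j (update (s.a j) i v), s.pos⟩

@[simp] theorem St.set_r (s : St) (d v : ℕ) : (s.set d v).r = update s.r d v := rfl
@[simp] theorem St.set_a (s : St) (d v : ℕ) : (s.set d v).a = s.a := rfl
@[simp] theorem St.set_pos (s : St) (d v : ℕ) : (s.set d v).pos = s.pos := rfl
@[simp] theorem St.put_r (s : St) (j i v : ℕ) : (s.put j i v).r = s.r := rfl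
@[simp] theorem St.put_a (s : St) (j i v : ℕ) :
    (s.put j i v).a = update s.a j (update (s.a j) i v) := rfl
@[simp] theorem St.put_pos (s : St) (j i v : ℕ) : (s.put j i v).pos = s.pos := rfl

/-- Expressions. `ld j e`: entry `e` of array `j`; `raw e`: entry `e` of the input (`0` beyond);
`ifLt e₁ e₂ e₃ e₄`: if `e₁ < e₂` then `e₃` else `e₄`. -/
inductive E
  | reg (x : ℕ)
  | const (c : ℕ)
  | add (e₁ e₂ : E)
  | sub (e₁ e₂ : E)
  | mul (e₁ e₂ : E)
  | div (e₁ e₂ : E)
  | mod (e₁ e₂ : E)
  | ld (j : ℕ) (e : E)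
  | raw (e : E)
  | ifLt (e₁ e₂ e₃ e₄ : E)
  | ifEq (e₁ e₂ e₃ e₄ : E)

def E.eval (env : Env) (s : St) : E → ℕ
  | .reg x => s.r x
  | .const c => c
  | .add e₁ e₂ => e₁.eval env s + e₂.eval env s
  | .sub e₁ e₂ => e₁.eval env s - e₂.eval env s
  | .mul e₁ e₂ => e₁.eval env s * e₂.eval env s
  | .div e₁ e₂ => e₁.eval env s / e₂.eval env s
  | .mod e₁ e₂ => e₁.eval env s % e₂.eval env s
  | .ld j e => s.a j (e.eval env s)
  | .raw e => env.inp.getD (e.eval env s) 0
  | .ifLt e₁ e₂ e₃ e₄ => if e₁.eval env s < e₂.eval env s then e₃.eval env s else e₄.eval env s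
  | .ifEq e₁ e₂ e₃ e₄ => if e₁.eval env s = e₂.eval env s then e₃.eval env s else e₄.eval env s

/-- Commands. `for_ i e p`: run `p` with register `i` set to `0, 1, …, e - 1` (the number of rounds
is computed once, the counter is hidden, so `p` may change register `i`). -/
inductive C
  | skip
  | asg (d : ℕ) (e : E)
  | sto (j : ℕ) (e₁ e₂ : E)
  | coin (d : ℕ)
  | seq (p q : C)
  | ite (e₁ e₂ : E) (p q : C)
  | for_ (i : ℕ) (e : E) (p : C)

/-- The state after `k` rounds of a loop with counter `i` and body `f`. -/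
def iter (i : ℕ) (f : St → St) (s : St) : ℕ → St
  | 0 => s
  | k + 1 => f ((iter i f s k).set i k)

/-- The state after the command; `ite e₁ e₂ p q` runs `p` if `e₁ < e₂` and `q` otherwise. -/
def run (env : Env) : C → St → St
  | .skip, s => s
  | .asg d e, s => s.set d (e.eval env s)
  | .sto j e₁ e₂, s => s.put j (e₁.eval env s) (e₂.eval env s)
  | .coin d, s => ⟨update s.r d (if env.ω s.pos then 1 else 0), s.a, s.pos + 1⟩
  | .seq p q, s => run env q (run env p s)
  | .ite e₁ e₂ p q, s => if e₁.eval env s < e₂.eval env s then run env p s else run env q s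
  | .for_ i e p, s => iter i (run env p) s (e.eval env s)

/-- The cost of the command. -/
def cost (env : Env) : C → St → ℕ
  | .skip, _ => 1
  | .asg _ _, _ => 1
  | .sto _ _ _, _ => 1
  | .coin _, _ => 1
  | .seq p q, s => cost env p s + cost env q (run env p s)
  | .ite e₁ e₂ p q, s =>
      1 + (if e₁.eval env s < e₂.eval env s then cost env p s else cost env q s)
  | .for_ i e p, s => 1 + ∑ k ∈ Finset.range (e.eval env s),
      (1 + cost env p ((iter i (run env p) s k).set i k))

/-- All values that are stored into registers or arrays, and the numbers of rounds of loops, are at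
most `cap`. -/
def Safe (env : Env) (cap : ℕ) : C → St → Prop
  | .skip, _ => True
  | .asg _ e, s => e.eval env s ≤ cap
  | .sto _ _ e₂, s => e₂.eval env s ≤ cap
  | .coin _, _ => True
  | .seq p q, s => Safe env cap p s ∧ Safe env cap q (run env p s)
  | .ite e₁ e₂ p q, s =>
      if e₁.eval env s < e₂.eval env s then Safe env cap p s else Safe env cap q s
  | .for_ i e p, s => e.eval env s ≤ cap ∧ ∀ k < e.eval env s,
      Safe env cap p ((iter i (run env p) s k).set i k)

/-- The triple used in all specifications: safe, cost at most `t`, final state satisfies `Q`. -/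
def Tri (env : Env) (cap : ℕ) (c : C) (s : St) (t : ℕ) (Q : St → Prop) : Prop :=
  Safe env cap c s ∧ cost env c s ≤ t ∧ Q (run env c s)

theorem Tri.mono {env : Env} {cap : ℕ} {c : C} {s : St} {t t' : ℕ} {Q Q' : St → Prop}
    (h : Tri env cap c s t Q) (ht : t ≤ t') (hQ : ∀ s', Q s' → Q' s') : Tri env cap c s t' Q' :=
  ⟨h.1, h.2.1.trans ht, hQ _ h.2.2⟩

theorem Tri.skip {env : Env} {cap : ℕ} {s : St} {Q : St → Prop} (h : Q s) :
    Tri env cap .skip s 1 Q := ⟨by simp only [Safe], by simp only [cost, le_refl], by simpa only [run] using h⟩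

theorem Tri.asg {env : Env} {cap : ℕ} {d : ℕ} {e : E} {s : St} {Q : St → Prop}
    (hc : e.eval env s ≤ cap) (h : Q (s.set d (e.eval env s))) :
    Tri env cap (.asg d e) s 1 Q :=
  ⟨by simpa only [Safe] using hc, by simp only [cost, le_refl], by simpa only [run] using h⟩

theorem Tri.sto {env : Env} {cap : ℕ} {j : ℕ} {e₁ e₂ : E} {s : St} {Q : St → Prop}
    (hc : e₂.eval env s ≤ cap) (h : Q (s.put j (e₁.eval env s) (e₂.eval env s))) :
    Tri env cap (.sto j e₁ e₂) s 1 Q :=
  ⟨by simpa only [Safe] using hc, by simp only [cost, le_refl], by simpa only [run] using h⟩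

theorem Tri.coin {env : Env} {cap : ℕ} {d : ℕ} {s : St} {Q : St → Prop}
    (h : Q ⟨update s.r d (if env.ω s.pos then 1 else 0), s.a, s.pos + 1⟩) :
    Tri env cap (.coin d) s 1 Q :=
  ⟨by simp only [Safe], by simp only [cost, le_refl], by simpa only [run] using h⟩

theorem Tri.seq {env : Env} {cap : ℕ} {p q : C} {s : St} {t t' : ℕ} {Q Q' : St → Prop}
    (h : Tri env cap p s t Q) (h' : ∀ s', Q s' → Tri env cap q s' t' Q') :
    Tri env cap (.seq p q) s (t + t') Q' := by
  have h2 := h' _ h.2.2
  refine ⟨by simp only [Safe]; exact ⟨h.1, h2.1⟩, ?_, by simp only [run]; exact h2.2.2⟩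
  simp only [cost]
  exact Nat.add_le_add h.2.1 h2.2.1

theorem Tri.ite {env : Env} {cap : ℕ} {e₁ e₂ : E} {p q : C} {s : St} {t : ℕ} {Q : St → Prop}
    (h : e₁.eval env s < e₂.eval env s → Tri env cap p s t Q)
    (h' : ¬ e₁.eval env s < e₂.eval env s → Tri env cap q s t Q) :
    Tri env cap (.ite e₁ e₂ p q) s (1 + t) Q := by
  by_cases hc : e₁.eval env s < e₂.eval env s
  · have := h hc
    refine ⟨by simp only [Safe, if_pos hc]; exact this.1, ?_, by simp only [run, if_pos hc]; exact this.2.2⟩
    simp only [cost, if_pos hc]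
    exact Nat.add_le_add_left this.2.1 _
  · have := h' hc
    refine ⟨by simp only [Safe, if_neg hc]; exact this.1, ?_, by simp only [run, if_neg hc]; exact this.2.2⟩
    simp only [cost, if_neg hc]
    exact Nat.add_le_add_left this.2.1 _

/-- Loop rule, with a time bound depending on the round. -/
theorem Tri.forSum {env : Env} {cap : ℕ} {i : ℕ} {e : E} {p : C} {s : St} {T : ℕ → ℕ}
    (I : ℕ → St → Prop) {Q : St → Prop} (hc : e.eval env s ≤ cap) (h0 : I 0 s)
    (hstep : ∀ k < e.eval env s, ∀ s', I k s' → Tri env cap p (s'.set i k) (T k) (I (k + 1)))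
    (hQ : ∀ s', I (e.eval env s) s' → Q s') :
    Tri env cap (.for_ i e p) s (1 + ∑ k ∈ Finset.range (e.eval env s), (1 + T k)) Q := by
  have hI : ∀ k ≤ e.eval env s, I k (iter i (run env p) s k) := by
    intro k
    induction k with
    | zero => intro _; simpa only [iter] using h0
    | succ k ih =>
      intro hk
      simp only [iter]
      exact (hstep k (by omega) _ (ih (by omega))).2.2
  refine ⟨?_, ?_, ?_⟩
  · simp only [Safe]
    exact ⟨hc, fun k hk => (hstep k hk _ (hI k hk.le)).1⟩
  · simp only [cost]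
    exact Nat.add_le_add_left (Finset.sum_le_sum fun k hk =>
      Nat.add_le_add_left (hstep k (Finset.mem_range.mp hk) _ (hI k (Finset.mem_range.mp hk).le)).2.1 _) _
  · simp only [run]
    exact hQ _ (hI _ le_rfl)

/-- Loop rule with a uniform time bound. -/
theorem Tri.for_ {env : Env} {cap : ℕ} {i : ℕ} {e : E} {p : C} {s : St} {T : ℕ}
    (I : ℕ → St → Prop) {Q : St → Prop} (hc : e.eval env s ≤ cap) (h0 : I 0 s)
    (hstep : ∀ k < e.eval env s, ∀ s', I k s' → Tri env cap p (s'.set i k) T (I (k + 1)))
    (hQ : ∀ s', I (e.eval env s) s' → Q s') :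
    Tri env cap (.for_ i e p) s (1 + e.eval env s * (1 + T)) Q := by
  refine (Tri.forSum (T := fun _ => T) I hc h0 hstep hQ).mono ?_ (fun _ h => h)
  simp

/-- The expression reads neither array `j` … -/
def E.NoArr (j : ℕ) : E → Prop
  | .reg _ => True
  | .const _ => True
  | .add e₁ e₂ => e₁.NoArr j ∧ e₂.NoArr j
  | .sub e₁ e₂ => e₁.NoArr j ∧ e₂.NoArr j
  | .mul e₁ e₂ => e₁.NoArr j ∧ e₂.NoArr j
  | .div e₁ e₂ => e₁.NoArr j ∧ e₂.NoArr j
  | .mod e₁ e₂ => e₁.NoArr j ∧ e₂.NoArr j
  | .ld j' e => j' ≠ j ∧ e.NoArr j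
  | .raw e => e.NoArr j
  | .ifLt e₁ e₂ e₃ e₄ => e₁.NoArr j ∧ e₂.NoArr j ∧ e₃.NoArr j ∧ e₄.NoArr j
  | .ifEq e₁ e₂ e₃ e₄ => e₁.NoArr j ∧ e₂.NoArr j ∧ e₃.NoArr j ∧ e₄.NoArr j

theorem E.eval_congr {env : Env} {s s' : St} {j : ℕ} (hr : s'.r = s.r)
    (ha : ∀ j', j' ≠ j → s'.a j' = s.a j') (e : E) (he : e.NoArr j) :
    e.eval env s' = e.eval env s := by
  induction e <;> simp_all [E.eval, E.NoArr]

/-- `fill i len j e`: entries `0, …, len - 1` of array `j` become the values of `e` (as a function
of register `i`); `e` must not read array `j`. Cost `2 len + 1`. -/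
def fill (i : ℕ) (len : E) (j : ℕ) (e : E) : C := .for_ i len (.sto j (.reg i) e)

theorem fill_tri {env : Env} {cap : ℕ} {i : ℕ} {len : E} {j : ℕ} {e : E} {s : St}
    (he : e.NoArr j) (hlen : len.eval env s ≤ cap)
    (hv : ∀ x < len.eval env s, e.eval env (s.set i x) ≤ cap) :
    Tri env cap (fill i len j e) s (2 * len.eval env s + 1) (fun s' =>
      (∀ x, x ≠ i → s'.r x = s.r x) ∧ (∀ j', j' ≠ j → s'.a j' = s.a j') ∧
      (∀ x, s'.a j x = if x < len.eval env s then e.eval env (s.set i x) else s.a j x) ∧
      s'.pos = s.pos) := by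
  have h := Tri.for_ (env := env) (cap := cap) (i := i) (e := len) (p := .sto j (.reg i) e) (s := s)
    (T := 1) (fun k s' => (∀ x, x ≠ i → s'.r x = s.r x) ∧ (∀ j', j' ≠ j → s'.a j' = s.a j') ∧
      (∀ x, s'.a j x = if x < k then e.eval env (s.set i x) else s.a j x) ∧ s'.pos = s.pos)
    (Q := fun s' =>
      (∀ x, x ≠ i → s'.r x = s.r x) ∧ (∀ j', j' ≠ j → s'.a j' = s.a j') ∧
      (∀ x, s'.a j x = if x < len.eval env s then e.eval env (s.set i x) else s.a j x) ∧
      s'.pos = s.pos)
    hlen ⟨fun _ _ => rfl, fun _ _ => rfl, fun x => by simp, rfl⟩ ?_ (fun s' h => h)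
  · refine h.mono (by omega) (fun _ h => h)
  · intro k hk s' ⟨h1, h2, h3, h4⟩
    have hev : e.eval env (s'.set i k) = e.eval env (s.set i k) := by
      apply E.eval_congr (j := j) _ _ e he
      · funext x
        simp only [St.set_r]
        by_cases hx : x = i
        · subst hx; simp
        · rw [Function.update_of_ne hx, Function.update_of_ne hx, h1 x hx]
      · intro j' hj'
        simp only [St.set_a, h2 j' hj']
    apply Tri.sto
    · rw [hev]; exact hv k hk
    · simp only [E.eval, hev]
      refine ⟨?_, ?_, ?_, ?_⟩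
      · intro x hx
        simp only [St.put_r, St.set_r, Function.update_of_ne hx, h1 x hx]
      · intro j' hj'
        simp only [St.put_a, St.set_a, Function.update_of_ne hj', h2 j' hj']
      · intro x
        simp only [St.put_a, St.set_a, St.set_r, Function.update_self]
        by_cases hx : x = k
        · subst hx; simp
        · rw [Function.update_of_ne hx, h3 x]
          by_cases hxk : x < k
          · rw [if_pos hxk, if_pos (by omega)]
          · rw [if_neg hxk, if_neg (by omega)]
      · simp only [St.put_pos, St.set_pos, h4]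

/-- Registers / arrays a command may change. -/
def C.wr (x : ℕ) : C → Prop
  | .skip => False
  | .asg d _ => d = x
  | .sto _ _ _ => False
  | .coin d => d = x
  | .seq p q => p.wr x ∨ q.wr x
  | .ite _ _ p q => p.wr x ∨ q.wr x
  | .for_ i _ p => i = x ∨ p.wr x

def C.wa (j : ℕ) : C → Prop
  | .skip => False
  | .asg _ _ => False
  | .sto j' _ _ => j' = j
  | .coin _ => False
  | .seq p q => p.wa j ∨ q.wa j
  | .ite _ _ p q => p.wa j ∨ q.wa j
  | .for_ _ _ p => p.wa j

/-- Frame lemma for registers. -/
theorem run_frame_r {env : Env} {x : ℕ} (c : C) (hx : ¬ c.wr x) (s : St) :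
    (run env c s).r x = s.r x := by
  induction c generalizing s with
  | skip => simp only [run]
  | asg d e =>
    simp only [C.wr] at hx
    simp only [run, St.set_r, Function.update_of_ne (Ne.symm hx)]
  | sto j e₁ e₂ => simp only [run, St.put_r]
  | coin d =>
    simp only [C.wr] at hx
    simp only [run, Function.update_of_ne (Ne.symm hx)]
  | seq p q ihp ihq =>
    simp only [C.wr, not_or] at hx
    simp only [run]
    rw [ihq hx.2, ihp hx.1]
  | ite e₁ e₂ p q ihp ihq =>
    simp only [C.wr, not_or] at hx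
    simp only [run]
    split
    · exact ihp hx.1 s
    · exact ihq hx.2 s
  | for_ i e p ih =>
    simp only [C.wr, not_or] at hx
    simp only [run]
    generalize e.eval env s = n
    induction n with
    | zero => simp only [iter]
    | succ n ihn =>
      simp only [iter]
      rw [ih hx.2, St.set_r, Function.update_of_ne (Ne.symm hx.1), ihn]

/-- Frame lemma for arrays. -/
theorem run_frame_a {env : Env} {j : ℕ} (c : C) (hx : ¬ c.wa j) (s : St) :
    (run env c s).a j = s.a j := by
  induction c generalizing s with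
  | skip => simp only [run]
  | asg d e => simp only [run, St.set_a]
  | sto j' e₁ e₂ =>
    simp only [C.wa] at hx
    simp only [run, St.put_a, Function.update_of_ne (Ne.symm hx)]
  | coin d => simp only [run]
  | seq p q ihp ihq =>
    simp only [C.wa, not_or] at hx
    simp only [run]
    rw [ihq hx.2, ihp hx.1]
  | ite e₁ e₂ p q ihp ihq =>
    simp only [C.wa, not_or] at hx
    simp only [run]
    split
    · exact ihp hx.1 s
    · exact ihq hx.2 s
  | for_ i e p ih =>
    simp only [C.wa] at hx
    simp only [run]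
    generalize e.eval env s = n
    induction n with
    | zero => simp only [iter]
    | succ n ihn =>
      simp only [iter]
      rw [ih hx, St.set_a, ihn]

end Vale.Agent.P305.MM
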