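import Vale.Agent.P305.MM.Lang

/-! MODULE A1, part 1: weakest preconditions for the machine, bounded states, the simulation
relation.

Register `0` of the machine = base `b` (length of the input); register `x` of the language =
machine register `2 x + 10`; temporaries = registers `2 t + 11`, used as a stack; entry `i` of
array `j` = machine cell `b + (K i + j)`. Scratch: registers `1`, `2`. -/

set_option autoImplicit false

namespace Vale.Agent.P305.MM

open Function (update)

/-! ### Weakest preconditions for the machine -/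

/-- From `S` (with `i` random bits drawn) the program `p` halts within `T` steps with `Q`. -/
def Runs (W : ℕ) (ω : ℕ → Bool) (p : RProg) (S : State) (i T : ℕ) (Q : State → ℕ → Prop) : Prop :=
  ∃ (t : ℕ) (S' : State) (i' : ℕ), RExec W ω p S i t S' i' ∧ t ≤ T ∧ Q S' i'

section
variable {W : ℕ} {ω : ℕ → Bool} {S : State} {i : ℕ} {Q : State → ℕ → Prop}

theorem Runs.mono {p : RProg} {T T' : ℕ} {Q' : State → ℕ → Prop} (h : Runs W ω p S i T Q)
    (hT : T ≤ T') (hQ : ∀ S' i', Q S' i' → Q' S' i') : Runs W ω p S i T' Q' := by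
  obtain ⟨t, S', i', h1, h2, h3⟩ := h
  exact ⟨t, S', i', h1, h2.trans hT, hQ _ _ h3⟩

theorem runs_const {d c : ℕ} (h : c ≤ W) (hQ : Q ⟨update S.reg d c, S.mem⟩ i) :
    Runs W ω (.const d c) S i 1 Q := ⟨_, _, _, .const _ _ _ _ h, le_rfl, hQ⟩

theorem runs_op {o : Op} {d a b : ℕ} (h : o.eval (S.reg a) (S.reg b) ≤ W)
    (hQ : Q ⟨update S.reg d (o.eval (S.reg a) (S.reg b)), S.mem⟩ i) :
    Runs W ω (.op o d a b) S i 1 Q := ⟨_, _, _, .op _ _ _ _ _ _ h, le_rfl, hQ⟩

theorem runs_load {d a : ℕ} (hQ : Q ⟨update S.reg d (S.mem (S.reg a)), S.mem⟩ i) :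
    Runs W ω (.load d a) S i 1 Q := ⟨_, _, _, .load _ _ _ _, le_rfl, hQ⟩

theorem runs_store {a b : ℕ} (hQ : Q ⟨S.reg, update S.mem (S.reg a) (S.reg b)⟩ i) :
    Runs W ω (.store a b) S i 1 Q := ⟨_, _, _, .store _ _ _ _, le_rfl, hQ⟩

theorem runs_coin {d : ℕ} (h : 1 ≤ W)
    (hQ : Q ⟨update S.reg d (if ω i then 1 else 0), S.mem⟩ (i + 1)) :
    Runs W ω (.coin d) S i 1 Q := ⟨_, _, _, .coin _ _ _ h, le_rfl, hQ⟩

theorem runs_seq {p q : RProg} {T T' : ℕ}
    (h : Runs W ω p S i T (fun S' i' => Runs W ω q S' i' T' Q)) :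
    Runs W ω (.seq p q) S i (T + T') Q := by
  obtain ⟨t, S', i', h1, h2, t', S'', i'', h3, h4, h5⟩ := h
  exact ⟨_, _, _, .seq _ _ _ _ _ _ _ _ _ _ h1 h3, Nat.add_le_add h2 h4, h5⟩

theorem runs_ite {c : Test} {p q : RProg} {T : ℕ} (h : c.holds S.reg → Runs W ω p S i T Q)
    (h' : ¬ c.holds S.reg → Runs W ω q S i T Q) : Runs W ω (.ite c p q) S i (T + 1) Q := by
  by_cases hc : c.holds S.reg
  · obtain ⟨t, S', i', h1, h2, h3⟩ := h hc
    exact ⟨_, _, _, .iteTrue _ _ _ _ _ _ _ _ hc h1, Nat.add_le_add_right h2 1, h3⟩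
  · obtain ⟨t, S', i', h1, h2, h3⟩ := h' hc
    exact ⟨_, _, _, .iteFalse _ _ _ _ _ _ _ _ hc h1, Nat.add_le_add_right h2 1, h3⟩

theorem runs_loop_done {c : Test} {p : RProg} (hc : ¬ c.holds S.reg) (hQ : Q S i) :
    Runs W ω (.loop c p) S i 1 Q := ⟨_, _, _, .loopDone _ _ _ _ hc, le_rfl, hQ⟩

theorem runs_loop_step {c : Test} {p : RProg} {T T' : ℕ} (hc : c.holds S.reg)
    (h : Runs W ω p S i T (fun S' i' => Runs W ω (.loop c p) S' i' T' Q)) :
    Runs W ω (.loop c p) S i (T + T' + 1) Q := by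
  obtain ⟨t, S', i', h1, h2, t', S'', i'', h3, h4, h5⟩ := h
  exact ⟨_, _, _, .loopStep _ _ _ _ _ _ _ _ _ _ hc h1 h3, by omega, h5⟩

end

/-! ### Bounded states, monotonicity of `Safe` -/

/-- All values of a state are at most `cap`. -/
structure St.Bdd (cap : ℕ) (s : St) : Prop where
  reg : ∀ x, s.r x ≤ cap
  arr : ∀ j i, s.a j i ≤ cap

theorem St.Bdd.set {cap : ℕ} {s : St} (hs : s.Bdd cap) (x : ℕ) {v : ℕ} (hv : v ≤ cap) :
    (s.set x v).Bdd cap :=
  ⟨fun y => by
    by_cases h : y = x
    · subst h; simpa using hv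
    · simpa [Function.update_of_ne h] using hs.reg y, hs.arr⟩

theorem St.Bdd.put {cap : ℕ} {s : St} (hs : s.Bdd cap) (j i : ℕ) {v : ℕ} (hv : v ≤ cap) :
    (s.put j i v).Bdd cap :=
  ⟨hs.reg, fun j' i' => by
    by_cases h : j' = j
    · subst h
      by_cases h' : i' = i
      · subst h'; simpa using hv
      · simpa [Function.update_of_ne h'] using hs.arr j' i'
    · simpa [Function.update_of_ne h] using hs.arr j' i'⟩

theorem St.init_bdd (cap : ℕ) : St.init.Bdd cap := ⟨fun _ => Nat.zero_le _, fun _ _ => Nat.zero_le _⟩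

theorem Safe.mono {env : Env} {cap cap' : ℕ} (hc : cap ≤ cap') {c : C} {s : St}
    (h : Safe env cap c s) : Safe env cap' c s := by
  induction c generalizing s with
  | skip => simp only [Safe]
  | asg d e => simp only [Safe] at h ⊢; exact h.trans hc
  | sto j e₁ e₂ => simp only [Safe] at h ⊢; exact h.trans hc
  | coin d => simp only [Safe]
  | seq p q hp hq => simp only [Safe] at h ⊢; exact ⟨hp h.1, hq h.2⟩
  | ite e₁ e₂ p q hp hq =>
    simp only [Safe] at h ⊢
    split_ifs with h1
    · rw [if_pos h1] at h; exact hp h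
    · rw [if_neg h1] at h; exact hq h
  | for_ x e p hp =>
    simp only [Safe] at h ⊢
    exact ⟨h.1.trans hc, fun k hk => hp (h.2 k hk)⟩

theorem Safe.bdd {env : Env} {cap : ℕ} (h1 : 1 ≤ cap) {c : C} {s : St}
    (h : Safe env cap c s) (hs : s.Bdd cap) : (run env c s).Bdd cap := by
  induction c generalizing s with
  | skip => simpa only [run] using hs
  | asg d e =>
    simp only [Safe] at h
    simp only [run]
    exact hs.set _ h
  | sto j e₁ e₂ =>
    simp only [Safe] at h
    simp only [run]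
    exact hs.put _ _ h
  | coin d =>
    simp only [run]
    have := hs.set d (v := if env.ω s.pos then 1 else 0) (by split_ifs <;> omega)
    exact ⟨this.reg, this.arr⟩
  | seq p q hp hq =>
    simp only [Safe] at h
    simp only [run]
    exact hq h.2 (hp h.1 hs)
  | ite e₁ e₂ p q hp hq =>
    simp only [Safe] at h
    simp only [run]
    split_ifs with h2
    · rw [if_pos h2] at h; exact hp h hs
    · rw [if_neg h2] at h; exact hq h hs
  | for_ x e p hp =>
    simp only [Safe] at h
    simp only [run]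
    have key : ∀ k, k ≤ e.eval env s → (iter x (run env p) s k).Bdd cap := by
      intro k
      induction k with
      | zero => intro _; simpa only [iter] using hs
      | succ k ih =>
        intro hk
        simp only [iter]
        exact hp (h.2 k (by omega)) ((ih (by omega)).set _ (by omega))
    exact key _ le_rfl

/-- The machine state `S` represents `s`. -/
structure Sim (b K : ℕ) (env : Env) (s : St) (S : State) : Prop where
  base : S.reg 0 = b
  reg : ∀ x, S.reg (2 * x + 10) = s.r x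
  arr : ∀ j < K, ∀ i, S.mem (b + (K * i + j)) = s.a j i
  inp : ∀ i < b, S.mem i = env.inp.getD i 0

end Vale.Agent.P305.MM
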