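import Vale.Agent.P305.Model

/-! The word RAM with fair random bits. -/

set_option autoImplicit false

namespace Vale.Agent.P305.MM

/-- Programs of the word RAM with random bits, in structured form; `d`, `a`, `b` are names of
registers. -/
inductive RProg
  | const (d c : ℕ)
  | op (o : Op) (d a b : ℕ)
  | load (d a : ℕ)
  | store (a b : ℕ)
  | coin (d : ℕ)
  | seq (p q : RProg)
  | ite (c : Test) (p q : RProg)
  | loop (c : Test) (p : RProg)

/-- `RExec W ω p s i t s' i'`: on a machine whose words hold the numbers `0, …, W` and whose
random bits are `ω 0, ω 1, …`, program `p`, started in state `s` when the first `i` random bits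
have been drawn, halts in state `s'` after `t` steps, and then the first `i'` random bits have been
drawn. Every elementary instruction, every test of a condition and every random bit costs one step.
`coin d` puts the next random bit into register `d`; the other instructions are as in `Exec`. -/
inductive RExec (W : ℕ) (ω : ℕ → Bool) : RProg → State → ℕ → ℕ → State → ℕ → Prop
  | const (s : State) (i d c : ℕ) (h : c ≤ W) :
      RExec W ω (.const d c) s i 1 ⟨Function.update s.reg d c, s.mem⟩ i
  | op (s : State) (i : ℕ) (o : Op) (d a b : ℕ) (h : o.eval (s.reg a) (s.reg b) ≤ W) :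
      RExec W ω (.op o d a b) s i 1
        ⟨Function.update s.reg d (o.eval (s.reg a) (s.reg b)), s.mem⟩ i
  | load (s : State) (i d a : ℕ) :
      RExec W ω (.load d a) s i 1 ⟨Function.update s.reg d (s.mem (s.reg a)), s.mem⟩ i
  | store (s : State) (i a b : ℕ) :
      RExec W ω (.store a b) s i 1 ⟨s.reg, Function.update s.mem (s.reg a) (s.reg b)⟩ i
  | coin (s : State) (i d : ℕ) (h : 1 ≤ W) :
      RExec W ω (.coin d) s i 1 ⟨Function.update s.reg d (if ω i then 1 else 0), s.mem⟩ (i + 1)
  | seq (p q : RProg) (s s' s'' : State) (i i' i'' t t' : ℕ) (h : RExec W ω p s i t s' i')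
      (h' : RExec W ω q s' i' t' s'' i'') : RExec W ω (.seq p q) s i (t + t') s'' i''
  | iteTrue (c : Test) (p q : RProg) (s s' : State) (i i' t : ℕ) (hc : c.holds s.reg)
      (h : RExec W ω p s i t s' i') : RExec W ω (.ite c p q) s i (t + 1) s' i'
  | iteFalse (c : Test) (p q : RProg) (s s' : State) (i i' t : ℕ) (hc : ¬ c.holds s.reg)
      (h : RExec W ω q s i t s' i') : RExec W ω (.ite c p q) s i (t + 1) s' i'
  | loopDone (c : Test) (p : RProg) (s : State) (i : ℕ) (hc : ¬ c.holds s.reg) :
      RExec W ω (.loop c p) s i 1 s i
  | loopStep (c : Test) (p : RProg) (s s' s'' : State) (i i' i'' t t' : ℕ) (hc : c.holds s.reg)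
      (h : RExec W ω p s i t s' i') (h' : RExec W ω (.loop c p) s' i' t' s'' i'') :
      RExec W ω (.loop c p) s i (t + t' + 1) s'' i''

/-- An infinite sequence of bits that begins with a given finite one. -/
def extend {B : ℕ} (ω : Fin B → Bool) (i : ℕ) : Bool := if h : i < B then ω ⟨i, h⟩ else false

/-- The randomized program `P` computes a maximum matching of every graph `G`, given by adjacency
lists (each in an arbitrary order), on words of `O(log (n + m))` bits: on every input and for every
outcome of the random bits it halts after at most `T n m` steps (hence after drawing at most `T n m`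
random bits), and for at least two thirds of the outcomes of the random bits the output is a maximum
matching of `G`. -/
def RandSolves (P : RProg) (T : ℕ → ℕ → ℕ) : Prop :=
  ∃ k : ℕ, ∀ (n : ℕ) (G : SimpleGraph (Fin n)) (L : AdjLists G),
    (∀ ω : ℕ → Bool, ∃ (t : ℕ) (s : State) (i : ℕ),
      RExec ((n + G.edgeSet.ncard + 2) ^ k) ω P (State.init L.encode) 0 t s i ∧
      t ≤ T n G.edgeSet.ncard) ∧
    ∀ B : ℕ, T n G.edgeSet.ncard ≤ B →
      2 * 2 ^ B ≤ 3 * Nat.card {ω : Fin B → Bool //
        ∃ (t : ℕ) (s : State) (i : ℕ) (M : G.Subgraph),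
          RExec ((n + G.edgeSet.ncard + 2) ^ k) (extend ω) P (State.init L.encode) 0 t s i ∧
          IsMaximumMatching G M ∧ Represents s.mem M}

end Vale.Agent.P305.MM
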