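import Vale.Agent.P305.MM.Defs2

/-! TASK F5 (fills between the passes, output). Helper lemmas in sub-namespace `F5`. -/

set_option autoImplicit false

namespace Vale.Agent.P305.MM

namespace F5

theorem neg_inv_val {p : ℕ} [Fact p.Prime] (a : ZMod p) (ha : a ≠ 0) :
    (-a).val = p - a.val := by
  rw [ZMod.neg_val, if_neg ha]

/-- The expression for the matrix `dbl N τ.N0` (row major, width `2 N`), as a function of register
`40`. -/
def initE : E :=
  let u : E := .mod (.div (.reg 40) (.add (.reg 2) (.reg 2))) (.reg 2)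
  let v : E := .mod (.mod (.reg 40) (.add (.reg 2) (.reg 2))) (.reg 2)
  .ifEq v (.add u (.reg 3)) (.sub (.reg 1) (.ld 3 (.ld 1 (.add (.mul u (.reg 2)) v))))
    (.ifEq u (.add v (.reg 3)) (.ld 3 (.ld 1 (.add (.mul v (.reg 2)) u))) (.const 0))

/-- The expression for `τ.D1`. -/
def d1E : E :=
  .ifLt (.div (.reg 40) (.reg 2)) (.mod (.reg 40) (.reg 2))
    (.ifEq (.ld 7 (.reg 40)) (.const 1) (.ld 1 (.reg 40))
      (.ifLt (.div (.reg 40) (.reg 2)) (.reg 3) (.const 0) (.ld 1 (.reg 40)))) (.const 0)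

/-- The expression for `τ.D2`. -/
def d2E : E :=
  .ifEq (.mod (.reg 40) (.reg 2)) (.add (.div (.reg 40) (.reg 2)) (.reg 3))
    (.sub (.reg 1) (.ld 1 (.reg 40))) (.const 0)

/-- The expression for `τ.D3 A`. -/
def d3E : E :=
  .ifLt (.div (.reg 40) (.reg 2)) (.mod (.reg 40) (.reg 2))
    (.ifEq (.ld 7 (.reg 40)) (.const 1) (.mod (.sub (.reg 1) (.ld 8 (.reg 40))) (.reg 1))
      (.const 0)) (.const 0)

theorem div_add_lt {N i j : ℕ} (hj : j < N) : (i * N + j) / N = i := by
  rw [mul_comm, Nat.mul_add_div (by omega), Nat.div_eq_of_lt hj, add_zero]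

theorem mod_add_lt {N i j : ℕ} (hj : j < N) : (i * N + j) % N = j := by
  rw [mul_comm, Nat.mul_add_mod, Nat.mod_eq_of_lt hj]

theorem lt_sq {N i j : ℕ} (hi : i < N) (hj : j < N) : i * N + j < N * N := by
  have : (i + 1) * N ≤ N * N := Nat.mul_le_mul_right _ hi
  nlinarith

/-- Every number below `N * N` is `i * N + j`. -/
theorem exists_ij {N x : ℕ} (hx : x < N * N) : ∃ i < N, ∃ j < N, x = i * N + j := by
  have hN : 0 < N := by
    rcases Nat.eq_zero_or_pos N with h | h
    · subst h; simp at hx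
    · exact h
  refine ⟨x / N, (Nat.div_lt_iff_lt_mul hN).mpr hx, x % N, Nat.mod_lt _ hN, ?_⟩
  have := Nat.div_add_mod x N
  rw [mul_comm] at this
  exact this.symm

theorem initE_eval {env : Env} {p : ℕ} [Fact p.Prime] {s : St} {τ : Top (ZMod p)} {N : ℕ}
    (h : Env5 s τ N) {i j : ℕ} (_ : i < 2 * N) (hj : j < 2 * N) :
    initE.eval env (s.set 40 (i * (2 * N) + j)) = (dbl N τ.N0 i j).val := by
  have hN : 0 < N := by omega
  have hiN : i % N < N := Nat.mod_lt _ hN
  have hjN : j % N < N := Nat.mod_lt _ hN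
  have e1 : (i * (2 * N) + j) / (N + N) = i := by rw [← two_mul]; exact div_add_lt hj
  have e2 : (i * (2 * N) + j) % (N + N) = j := by rw [← two_mul]; exact mod_add_lt hj
  simp only [initE, E.eval, St.set_r, St.set_a, Function.update_self, ne_eq,
    Nat.reduceEqDiff, not_false_eq_true, Function.update_of_ne, h.p_eq, h.N_eq, h.h_eq, e1, e2,
    OfNat.one_ne_ofNat]
  unfold dbl Top.N0
  split_ifs with h1 h2
  · rw [h.x_holds _ hiN _ hjN, h.inv _ (h.x_ne _ hiN _ hjN),
      neg_inv_val _ (inv_ne_zero (h.x_ne _ hiN _ hjN))]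
  · rw [h.x_holds _ hjN _ hiN, h.inv _ (h.x_ne _ hjN _ hiN)]
  · simp

theorem d1E_eval {env : Env} {p : ℕ} [Fact p.Prime] {s : St} {τ : Top (ZMod p)} {N : ℕ}
    (h : Env5 s τ N) {i j : ℕ} (hi : i < N) (hj : j < N) :
    d1E.eval env (s.set 40 (i * N + j)) = (τ.D1 i j).val := by
  simp only [d1E, E.eval, St.set_r, St.set_a, Function.update_self, ne_eq,
    Nat.reduceEqDiff, not_false_eq_true, Function.update_of_ne, h.N_eq, h.h_eq,
    div_add_lt hj, mod_add_lt hj, h.adj _ hi _ hj, h.x_holds _ hi _ hj]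
  unfold Top.D1
  by_cases h1 : i < j
  · by_cases h2 : τ.Ad i j
    · simp [h1, h2]
    · by_cases h3 : i < τ.h
      · simp [h1, h2, h3, not_le.mpr h3]
      · simp [h1, h2, h3, not_lt.mp h3]
  · simp [h1]

theorem d2E_eval {env : Env} {p : ℕ} [Fact p.Prime] {s : St} {τ : Top (ZMod p)} {N : ℕ}
    (h : Env5 s τ N) {i j : ℕ} (hi : i < N) (hj : j < N) :
    d2E.eval env (s.set 40 (i * N + j)) = (τ.D2 i j).val := by
  simp only [d2E, E.eval, St.set_r, St.set_a, Function.update_self, ne_eq,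
    Nat.reduceEqDiff, not_false_eq_true, Function.update_of_ne, h.p_eq, h.N_eq, h.h_eq,
    div_add_lt hj, mod_add_lt hj, OfNat.one_ne_ofNat, h.x_holds _ hi _ hj]
  unfold Top.D2
  split_ifs with h1
  · rw [neg_inv_val _ (h.x_ne _ hi _ hj)]
  · simp

theorem d3E_eval {env : Env} {p : ℕ} [Fact p.Prime] {s : St} {τ : Top (ZMod p)} {N : ℕ}
    {A : ℕ → ℕ → ZMod p} (h : Env5 s τ N) (hA : Holds (s.a 8) N A) {i j : ℕ} (hi : i < N)
    (hj : j < N) : d3E.eval env (s.set 40 (i * N + j)) = (τ.D3 A i j).val := by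
  simp only [d3E, E.eval, St.set_r, St.set_a, Function.update_self, ne_eq,
    Nat.reduceEqDiff, not_false_eq_true, Function.update_of_ne, h.p_eq, h.N_eq,
    div_add_lt hj, mod_add_lt hj, OfNat.one_ne_ofNat, h.adj _ hi _ hj, hA _ hi _ hj]
  unfold Top.D3
  by_cases h1 : i < j
  · by_cases h2 : τ.Ad i j
    · simp [h1, h2, ZMod.neg_val']
    · simp [h1, h2]
  · simp [h1]

end F5

open F5

/-- Fill array `20 + 2 L` with `dbl N τ.N0` (`2 N` rows) and array `21 + 2 L` with `τ.D1`. -/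
def initC (L : ℕ) : C :=
  .seq (fill 40 (.mul (.const 4) (.mul (.reg 2) (.reg 2))) (20 + 2 * L) initE)
    (fill 40 (.mul (.reg 2) (.reg 2)) (21 + 2 * L) d1E)

theorem init_tri (L : ℕ) : ∃ c : ℕ, ∀ (env : Env) (cap p N : ℕ) [Fact p.Prime] (s : St)
    (τ : Top (ZMod p)), Env5 s τ N → p ≤ cap → 4 * N ^ 2 ≤ cap →
    Tri env cap (initC L) s (c * (N ^ 2 + 1)) (fun s' =>
      Holds (s'.a (20 + 2 * L)) (2 * N) (dbl N τ.N0) ∧ Holds (s'.a (21 + 2 * L)) N τ.D1 ∧
      (∀ x, x < 40 ∨ 100 ≤ x → s'.r x = s.r x) ∧ (∀ j, j < 20 → s'.a j = s.a j) ∧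
      s'.pos = s.pos) := by
  refine ⟨20, fun env cap p N _ s τ h hp hN => ?_⟩
  have hlen1 : E.eval env s (.mul (.const 4) (.mul (.reg 2) (.reg 2))) = (2 * N) * (2 * N) := by
    simp only [E.eval, h.N_eq]; ring
  have t1 := fill_tri (env := env) (cap := cap) (i := 40)
    (len := .mul (.const 4) (.mul (.reg 2) (.reg 2))) (j := 20 + 2 * L) (e := initE) (s := s)
    (by simp only [initE, E.NoArr]; refine ⟨?_, ?_, ?_, ?_⟩ <;> simp <;> omega)
    (by rw [hlen1]; nlinarith)
    (by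
      rw [hlen1]
      intro x hx
      obtain ⟨i, hi, j, hj, rfl⟩ := exists_ij hx
      rw [initE_eval h hi hj]
      exact (ZMod.val_lt _).le.trans hp)
  refine (Tri.seq t1 (Q' := fun s' =>
      Holds (s'.a (20 + 2 * L)) (2 * N) (dbl N τ.N0) ∧ Holds (s'.a (21 + 2 * L)) N τ.D1 ∧
      (∀ x, x < 40 ∨ 100 ≤ x → s'.r x = s.r x) ∧ (∀ j, j < 20 → s'.a j = s.a j) ∧
      s'.pos = s.pos) (t' := 2 * (N * N) + 1) ?_).mono ?_ (fun _ h => h)
  · rintro s' ⟨hr, ha, hv, hpos⟩
    have h5 : Env5 s' τ N := h.of_frame (fun x hx => hr x (by omega)) (fun j hj => ha j (by omega))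
    have hlen2 : E.eval env s' (.mul (.reg 2) (.reg 2)) = N * N := by
      simp only [E.eval, h5.N_eq]
    have t2 := fill_tri (env := env) (cap := cap) (i := 40)
      (len := .mul (.reg 2) (.reg 2)) (j := 21 + 2 * L) (e := d1E) (s := s')
      (by simp only [d1E, E.NoArr]; simp; omega)
      (by rw [hlen2]; nlinarith)
      (by
        rw [hlen2]
        intro x hx
        obtain ⟨i, hi, j, hj, rfl⟩ := exists_ij hx
        rw [d1E_eval h5 hi hj]
        exact (ZMod.val_lt _).le.trans hp)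
    refine t2.mono (by rw [hlen2]) ?_
    rintro s'' ⟨hr', ha', hv', hpos'⟩
    refine ⟨?_, ?_, ?_, ?_, ?_⟩
    · intro i hi j hj
      rw [ha' _ (by omega), hv, hlen1, if_pos (lt_sq hi hj), initE_eval h hi hj]
    · intro i hi j hj
      rw [hv', hlen2, if_pos (lt_sq hi hj), d1E_eval h5 hi hj]
    · intro x hx
      rw [hr' x (by omega), hr x (by omega)]
    · intro j hj
      rw [ha' j (by omega), ha j (by omega)]
    · rw [hpos', hpos]
  · rw [hlen1]
    nlinarith

/-- Copy array `21 + 2 L` to array `8`, then fill array `21 + 2 L` with `τ.D2`. -/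
def pass2C (L : ℕ) : C :=
  .seq (fill 40 (.mul (.reg 2) (.reg 2)) 8 (.ld (21 + 2 * L) (.reg 40)))
    (fill 40 (.mul (.reg 2) (.reg 2)) (21 + 2 * L) d2E)

theorem pass2_tri (L : ℕ) : ∃ c : ℕ, ∀ (env : Env) (cap p N : ℕ) [Fact p.Prime] (s : St)
    (τ : Top (ZMod p)) (A : ℕ → ℕ → ZMod p), Env5 s τ N → Holds (s.a (21 + 2 * L)) N A →
    p ≤ cap → 4 * N ^ 2 ≤ cap →
    Tri env cap (pass2C L) s (c * (N ^ 2 + 1)) (fun s' =>
      Holds (s'.a 8) N A ∧ Holds (s'.a (21 + 2 * L)) N τ.D2 ∧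
      (∀ x, x < 40 ∨ 100 ≤ x → s'.r x = s.r x) ∧
      (∀ j, j ≠ 8 → j ≠ 21 + 2 * L → s'.a j = s.a j) ∧ s'.pos = s.pos) := by
  refine ⟨20, fun env cap p N _ s τ A h hA hp hN => ?_⟩
  have hlen1 : E.eval env s (.mul (.reg 2) (.reg 2)) = N * N := by
    simp only [E.eval, h.N_eq]
  have hev : ∀ i < N, ∀ j < N,
      (E.ld (21 + 2 * L) (.reg 40)).eval env (s.set 40 (i * N + j)) = (A i j).val := by
    intro i hi j hj
    simp only [E.eval, St.set_r, St.set_a, Function.update_self, hA i hi j hj]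
  have t1 := fill_tri (env := env) (cap := cap) (i := 40)
    (len := .mul (.reg 2) (.reg 2)) (j := 8) (e := .ld (21 + 2 * L) (.reg 40)) (s := s)
    (by simp only [E.NoArr]; simp; omega)
    (by rw [hlen1]; nlinarith)
    (by
      rw [hlen1]
      intro x hx
      obtain ⟨i, hi, j, hj, rfl⟩ := exists_ij hx
      rw [hev i hi j hj]
      exact (ZMod.val_lt _).le.trans hp)
  refine (Tri.seq t1 (Q' := fun s' =>
      Holds (s'.a 8) N A ∧ Holds (s'.a (21 + 2 * L)) N τ.D2 ∧
      (∀ x, x < 40 ∨ 100 ≤ x → s'.r x = s.r x) ∧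
      (∀ j, j ≠ 8 → j ≠ 21 + 2 * L → s'.a j = s.a j) ∧ s'.pos = s.pos)
      (t' := 2 * (N * N) + 1) ?_).mono ?_ (fun _ h => h)
  · rintro s' ⟨hr, ha, hv, hpos⟩
    have hN2 : s'.r 2 = N := by rw [hr 2 (by omega), h.N_eq]
    have hp1 : s'.r 1 = p := by rw [hr 1 (by omega), h.p_eq]
    have hh3 : s'.r 3 = τ.h := by rw [hr 3 (by omega), h.h_eq]
    have h5 : Env5 s' τ N := h.of_frame (fun x hx => hr x (by omega)) (fun j hj => ha j (by omega))
    have hlen2 : E.eval env s' (.mul (.reg 2) (.reg 2)) = N * N := by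
      simp only [E.eval, hN2]
    have t2 := fill_tri (env := env) (cap := cap) (i := 40)
      (len := .mul (.reg 2) (.reg 2)) (j := 21 + 2 * L) (e := d2E) (s := s')
      (by simp only [d2E, E.NoArr]; simp; omega)
      (by rw [hlen2]; nlinarith)
      (by
        rw [hlen2]
        intro x hx
        obtain ⟨i, hi, j, hj, rfl⟩ := exists_ij hx
        rw [d2E_eval h5 hi hj]
        exact (ZMod.val_lt _).le.trans hp)
    refine t2.mono (by rw [hlen2]) ?_
    rintro s'' ⟨hr', ha', hv', hpos'⟩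
    refine ⟨?_, ?_, ?_, ?_, ?_⟩
    · intro i hi j hj
      rw [ha' _ (by omega), hv, hlen1, if_pos (lt_sq hi hj), hev i hi j hj]
    · intro i hi j hj
      rw [hv', hlen2, if_pos (lt_sq hi hj), d2E_eval h5 hi hj]
    · intro x hx
      rw [hr' x (by omega), hr x (by omega)]
    · intro j hj hj'
      rw [ha' j (by omega), ha j (by omega)]
    · rw [hpos', hpos]
  · rw [hlen1]
    nlinarith

/-- Fill array `21 + 2 L` with `τ.D3 A` (`A` in array `8`). -/
def pass3C (L : ℕ) : C := fill 40 (.mul (.reg 2) (.reg 2)) (21 + 2 * L) d3E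

theorem pass3_tri (L : ℕ) : ∃ c : ℕ, ∀ (env : Env) (cap p N : ℕ) [Fact p.Prime] (s : St)
    (τ : Top (ZMod p)) (A : ℕ → ℕ → ZMod p), Env5 s τ N → Holds (s.a 8) N A →
    p ≤ cap → 4 * N ^ 2 ≤ cap →
    Tri env cap (pass3C L) s (c * (N ^ 2 + 1)) (fun s' =>
      Holds (s'.a (21 + 2 * L)) N (τ.D3 A) ∧
      (∀ x, x < 40 ∨ 100 ≤ x → s'.r x = s.r x) ∧
      (∀ j, j ≠ 21 + 2 * L → s'.a j = s.a j) ∧ s'.pos = s.pos) := by
  refine ⟨2, fun env cap p N _ s τ A h hA hp hN => ?_⟩
  have hlen2 : E.eval env s (.mul (.reg 2) (.reg 2)) = N * N := by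
    simp only [E.eval, h.N_eq]
  have t2 := fill_tri (env := env) (cap := cap) (i := 40)
    (len := .mul (.reg 2) (.reg 2)) (j := 21 + 2 * L) (e := d3E) (s := s)
    (by simp only [d3E, E.NoArr]; simp; omega)
    (by rw [hlen2]; nlinarith)
    (by
      rw [hlen2]
      intro x hx
      obtain ⟨i, hi, j, hj, rfl⟩ := exists_ij hx
      rw [d3E_eval h hA hi hj]
      exact (ZMod.val_lt _).le.trans hp)
  refine t2.mono (by rw [hlen2]; nlinarith) ?_
  rintro s'' ⟨hr', ha', hv', hpos'⟩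
  refine ⟨?_, ?_, ?_, ?_⟩
  · intro i hi j hj
    rw [hv', hlen2, if_pos (lt_sq hi hj), d3E_eval h hA hi hj]
  · intro x hx
    rw [hr' x (by omega)]
  · intro j hj
    rw [ha' j (by omega)]
  · rw [hpos']

namespace F5

/-- `1` if `u < v`, `a 7 [x] = 1` and `a (21 + 2 L) [x] = 0`, else `0` (`x` in register `40`). -/
def cndE (L : ℕ) : E :=
  .ifLt (.div (.reg 40) (.reg 2)) (.mod (.reg 40) (.reg 2))
    (.ifEq (.ld 7 (.reg 40)) (.const 1)
      (.ifEq (.ld (21 + 2 * L) (.reg 40)) (.const 0) (.const 1) (.const 0)) (.const 0)) (.const 0)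

end F5

/-- `for x < N N`: `u := x / N`, `v := x % N`; if `u < v`, `a 7 [x] = 1` and `a (21 + 2 L) [x] = 0`
then `a 0 [u] := v + 1`, `a 0 [v] := u + 1`. -/
def outC (L : ℕ) : C :=
  .for_ 40 (.mul (.reg 2) (.reg 2)) <| .ite (.const 0) (cndE L)
    (.seq (.sto 0 (.div (.reg 40) (.reg 2)) (.add (.mod (.reg 40) (.reg 2)) (.const 1)))
      (.sto 0 (.mod (.reg 40) (.reg 2)) (.add (.div (.reg 40) (.reg 2)) (.const 1)))) .skip

theorem out_tri (L : ℕ) : ∃ c : ℕ, ∀ (env : Env) (cap p N : ℕ) [Fact p.Prime] (s : St)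
    (τ : Top (ZMod p)) (A : ℕ → ℕ → ZMod p), Env5 s τ N → Holds (s.a (21 + 2 * L)) N A →
    (∀ x, s.a 0 x = 0) → (∀ u v, τ.Ad u v → u < N ∧ v < N) → 4 * N ^ 2 ≤ cap →
    Tri env cap (outC L) s (c * (N ^ 2 + 1)) (fun s' =>
      ∀ M : Finset (ℕ × ℕ), (∀ u v, (u, v) ∈ M ↔ u < v ∧ τ.Ad u v ∧ A u v = 0) → IsMat τ.Ad M →
        (∀ v, (∀ e ∈ M, v ≠ e.1 ∧ v ≠ e.2) → s'.a 0 v = 0) ∧
        ∀ e ∈ M, s'.a 0 e.1 = e.2 + 1 ∧ s'.a 0 e.2 = e.1 + 1) := by
  classical
  refine ⟨4, fun env cap p N _ s τ A h hA h0 hlt hN => ?_⟩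
  have hlen : E.eval env s (.mul (.reg 2) (.reg 2)) = N * N := by
    simp only [E.eval, h.N_eq]
  refine (Tri.for_ (T := 3) (fun k s' =>
    (∀ x, x ≠ 40 → s'.r x = s.r x) ∧ (∀ j, j ≠ 0 → s'.a j = s.a j) ∧
    ∀ M : Finset (ℕ × ℕ), (∀ u v, (u, v) ∈ M ↔ u < v ∧ τ.Ad u v ∧ A u v = 0) → IsMat τ.Ad M →
        (∀ v, (∀ e ∈ M, e.1 * N + e.2 < k → v ≠ e.1 ∧ v ≠ e.2) → s'.a 0 v = 0) ∧
        ∀ e ∈ M, e.1 * N + e.2 < k → s'.a 0 e.1 = e.2 + 1 ∧ s'.a 0 e.2 = e.1 + 1) ?_ ?_ ?_ ?_).mono
    (Q := fun s' => ∀ M : Finset (ℕ × ℕ), (∀ u v, (u, v) ∈ M ↔ u < v ∧ τ.Ad u v ∧ A u v = 0) →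
      IsMat τ.Ad M →
        (∀ v, (∀ e ∈ M, v ≠ e.1 ∧ v ≠ e.2) → s'.a 0 v = 0) ∧
        ∀ e ∈ M, s'.a 0 e.1 = e.2 + 1 ∧ s'.a 0 e.2 = e.1 + 1) ?_ (fun _ h => h)
  · rw [hlen]; nlinarith
  · refine ⟨fun _ _ => rfl, fun _ _ => rfl, fun M _ _ => ⟨fun v _ => h0 v, fun e _ he => ?_⟩⟩
    omega
  · intro k hk s' ⟨hr, ha, hM⟩
    rw [hlen] at hk
    obtain ⟨i, hi, j, hj, rfl⟩ := exists_ij hk
    have hN2 : s'.r 2 = N := by rw [hr 2 (by omega), h.N_eq]
    have ha7 : s'.a 7 = s.a 7 := ha 7 (by omega)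
    have haL : s'.a (21 + 2 * L) = s.a (21 + 2 * L) := ha _ (by omega)
    have hu : E.eval env (s'.set 40 (i * N + j)) (.div (.reg 40) (.reg 2)) = i := by
      simp only [E.eval, St.set_r, Function.update_self, ne_eq, Nat.reduceEqDiff,
        not_false_eq_true, Function.update_of_ne, hN2, div_add_lt hj]
    have hv : E.eval env (s'.set 40 (i * N + j)) (.mod (.reg 40) (.reg 2)) = j := by
      simp only [E.eval, St.set_r, Function.update_self, ne_eq, Nat.reduceEqDiff,
        not_false_eq_true, Function.update_of_ne, hN2, mod_add_lt hj]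
    have hcnd : E.eval env (s'.set 40 (i * N + j)) (cndE L) =
        if i < j ∧ τ.Ad i j ∧ A i j = 0 then 1 else 0 := by
      have hv0 : (A i j).val = 0 ↔ A i j = 0 := by rw [ZMod.val_eq_zero]
      unfold cndE
      rw [E.eval, hu, hv]
      simp only [E.eval, St.set_r, St.set_a, Function.update_self, ha7, haL, h.adj _ hi _ hj,
        hA _ hi _ hj]
      by_cases h1 : i < j
      · by_cases h2 : τ.Ad i j
        · by_cases h3 : A i j = 0
          · simp [h1, h2, h3]
          · simp [h1, h2, h3]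
        · simp [h1, h2]
      · simp [h1]
    have hcap : ∀ x < N, x + 1 ≤ cap := by
      intro x hx
      have h1 : N ≤ 4 * N ^ 2 := by nlinarith
      omega
    -- the step of the invariant for pairs
    have hkey : ∀ e1 e2 : ℕ, τ.Ad e1 e2 → (e1 * N + e2 < i * N + j + 1 ↔
        e1 * N + e2 < i * N + j ∨ (e1 = i ∧ e2 = j)) := by
      intro e1 e2 hAd
      obtain ⟨he1, he2⟩ := hlt _ _ hAd
      constructor
      · intro hh
        rcases Nat.lt_succ_iff_lt_or_eq.mp hh with h1 | h1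
        · exact Or.inl h1
        · right
          constructor
          · have := congrArg (· / N) h1
            simpa only [div_add_lt he2, div_add_lt hj] using this
          · have := congrArg (· % N) h1
            simpa only [mod_add_lt he2, mod_add_lt hj] using this
      · rintro (h1 | ⟨rfl, rfl⟩) <;> omega
    refine (Tri.ite (t := 2) ?_ ?_).mono (Q := fun s' =>
      (∀ x, x ≠ 40 → s'.r x = s.r x) ∧ (∀ j, j ≠ 0 → s'.a j = s.a j) ∧
      ∀ M : Finset (ℕ × ℕ), (∀ u v, (u, v) ∈ M ↔ u < v ∧ τ.Ad u v ∧ A u v = 0) →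
        IsMat τ.Ad M →
          (∀ v, (∀ e ∈ M, e.1 * N + e.2 < i * N + j + 1 → v ≠ e.1 ∧ v ≠ e.2) → s'.a 0 v = 0) ∧
          ∀ e ∈ M, e.1 * N + e.2 < i * N + j + 1 →
            s'.a 0 e.1 = e.2 + 1 ∧ s'.a 0 e.2 = e.1 + 1) (by omega) (fun _ h => h)
    · intro hc
      rw [hcnd] at hc
      simp only [E.eval] at hc
      have hc' : i < j ∧ τ.Ad i j ∧ A i j = 0 := by
        by_contra hcc
        rw [if_neg hcc] at hc
        omega
      obtain ⟨hij, hAd, hA0⟩ := hc'
      refine (Tri.seq (t := 1) (t' := 1) (Q := fun s'' =>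
        s'' = (s'.set 40 (i * N + j)).put 0 i (j + 1)) ?_ ?_).mono (by omega) (fun _ h => h)
      · apply Tri.sto
        · have : E.eval env (s'.set 40 (i * N + j)) (.add (.mod (.reg 40) (.reg 2)) (.const 1)) =
              j + 1 := by
            rw [E.eval, hv]; simp only [E.eval]
          rw [this]; exact hcap j hj
        · have : E.eval env (s'.set 40 (i * N + j)) (.add (.mod (.reg 40) (.reg 2)) (.const 1)) =
              j + 1 := by
            rw [E.eval, hv]; simp only [E.eval]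
          rw [this, hu]
      · rintro s'' rfl
        have hu2 : E.eval env ((s'.set 40 (i * N + j)).put 0 i (j + 1))
            (.div (.reg 40) (.reg 2)) = i := hu
        have hv2 : E.eval env ((s'.set 40 (i * N + j)).put 0 i (j + 1))
            (.mod (.reg 40) (.reg 2)) = j := hv
        have hw2 : E.eval env ((s'.set 40 (i * N + j)).put 0 i (j + 1))
            (.add (.div (.reg 40) (.reg 2)) (.const 1)) = i + 1 := by
          rw [E.eval, hu2]; simp only [E.eval]
        apply Tri.sto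
        · rw [hw2]; exact hcap i hi
        · rw [hw2, hv2]
          refine ⟨?_, ?_, ?_⟩
          · intro x hx
            simp only [St.put_r, St.set_r, Function.update_of_ne hx, hr x hx]
          · intro j' hj'
            simp only [St.put_a, St.set_a, Function.update_of_ne hj', ha j' hj']
          · intro M hMm hMM
            obtain ⟨hM1, hM2⟩ := hM M hMm hMM
            have hmem : (i, j) ∈ M := (hMm i j).mpr ⟨hij, hAd, hA0⟩
            have hval : ∀ w, (((s'.set 40 (i * N + j)).put 0 i (j + 1)).put 0 j (i + 1)).a 0 w =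
                if w = j then i + 1 else if w = i then j + 1 else s'.a 0 w := by
              intro w
              simp only [St.put_a, St.set_a, Function.update_self]
              by_cases hwj : w = j
              · subst hwj; simp
              · rw [Function.update_of_ne hwj, if_neg hwj]
                by_cases hwi : w = i
                · subst hwi; simp
                · rw [Function.update_of_ne hwi, if_neg hwi]
            refine ⟨?_, ?_⟩
            · intro w hw
              have hwij := hw _ hmem (by simp)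
              rw [hval, if_neg hwij.2, if_neg hwij.1]
              exact hM1 w (fun e he hlt' => hw e he (by omega))
            · intro e he hek
              have hAde := ((hMm e.1 e.2).mp he).2.1
              rcases (hkey _ _ hAde).mp hek with h1 | ⟨h1, h2⟩
              · have hne : ¬ (e.1 = i ∧ e.2 = j) := by
                  rintro ⟨h1', h2'⟩
                  rw [h1', h2'] at h1
                  omega
                have hdis : e.1 ≠ i ∧ e.1 ≠ j ∧ e.2 ≠ i ∧ e.2 ≠ j := by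
                  have := hMM.2 e he (i, j) hmem
                  refine ⟨fun hh => ?_, fun hh => ?_, fun hh => ?_, fun hh => ?_⟩
                  · have h2 := this (Or.inl hh); exact hne (by rw [h2]; exact ⟨rfl, rfl⟩)
                  · have h2 := this (Or.inr (Or.inl hh)); exact hne (by rw [h2]; exact ⟨rfl, rfl⟩)
                  · have h2 := this (Or.inr (Or.inr (Or.inl hh)))
                    exact hne (by rw [h2]; exact ⟨rfl, rfl⟩)
                  · have h2 := this (Or.inr (Or.inr (Or.inr hh)))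
                    exact hne (by rw [h2]; exact ⟨rfl, rfl⟩)
                rw [hval, hval, if_neg hdis.2.1, if_neg hdis.1, if_neg hdis.2.2.2,
                  if_neg hdis.2.2.1]
                exact hM2 e he h1
              · rw [hval, hval, h1, h2, if_neg (by omega), if_pos rfl, if_pos rfl]
                exact ⟨rfl, rfl⟩
    · intro hc
      rw [hcnd] at hc
      simp only [E.eval] at hc
      have hc' : ¬ (i < j ∧ τ.Ad i j ∧ A i j = 0) := by
        intro hcc
        rw [if_pos hcc] at hc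
        omega
      refine (Tri.skip ?_).mono (by omega) (fun _ h => h)
      refine ⟨?_, ?_, ?_⟩
      · intro x hx
        simp only [St.set_r, Function.update_of_ne hx, hr x hx]
      · intro j' hj'
        simp only [St.set_a, ha j' hj']
      · intro M hMm hMM
        obtain ⟨hM1, hM2⟩ := hM M hMm hMM
        have hnot : (i, j) ∉ M := fun hmem => hc' ((hMm i j).mp hmem)
        have hiff : ∀ e ∈ M, e.1 * N + e.2 < i * N + j + 1 → e.1 * N + e.2 < i * N + j := by
          intro e he hek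
          have hAde := ((hMm e.1 e.2).mp he).2.1
          rcases (hkey _ _ hAde).mp hek with h1 | ⟨h1, h2⟩
          · exact h1
          · exact absurd (by rw [← h1, ← h2]; exact he) hnot
        refine ⟨?_, ?_⟩
        · intro w hw
          simp only [St.set_a]
          exact hM1 w (fun e he hlt' => hw e he (by omega))
        · intro e he hek
          simp only [St.set_a]
          exact hM2 e he (hiff e he hek)
  · rintro s' ⟨hr, ha, hM⟩ M hMm hMM
    obtain ⟨hM1, hM2⟩ := hM M hMm hMM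
    rw [hlen] at hM1 hM2
    have hlt' : ∀ e ∈ M, e.1 * N + e.2 < N * N := by
      intro e he
      have hAde := ((hMm e.1 e.2).mp he).2.1
      obtain ⟨h1, h2⟩ := hlt _ _ hAde
      exact lt_sq h1 h2
    refine ⟨fun v hv => hM1 v (fun e he _ => hv e he), fun e he => hM2 e he (hlt' e he)⟩
  · rw [hlen]; nlinarith

namespace F5

open Classical in
/-- The matching given by a set of pairs. -/
def mkSub {n : ℕ} (G : SimpleGraph (Fin n)) (M : Finset (ℕ × ℕ)) (hM : IsMat (nAdj G) M) :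
    G.Subgraph where
  verts := {v | ∃ e ∈ M, (v : ℕ) = e.1 ∨ (v : ℕ) = e.2}
  Adj u v := ((u : ℕ), (v : ℕ)) ∈ M ∨ ((v : ℕ), (u : ℕ)) ∈ M
  adj_sub := by
    rintro u v (h | h)
    · obtain ⟨_, hu, hv, hadj⟩ := hM.1 _ h
      exact hadj
    · obtain ⟨_, hu, hv, hadj⟩ := hM.1 _ h
      exact hadj.symm
  edge_vert := by
    rintro u v (h | h)
    · exact ⟨_, h, Or.inl rfl⟩
    · exact ⟨_, h, Or.inr rfl⟩
  symm := ⟨by
    rintro u v (h | h)
    · exact Or.inr h
    · exact Or.inl h⟩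

theorem mkSub_isMatching {n : ℕ} (G : SimpleGraph (Fin n)) (M : Finset (ℕ × ℕ))
    (hM : IsMat (nAdj G) M) : (mkSub G M hM).IsMatching := by
  rintro v ⟨e, he, hv⟩
  obtain ⟨hlt, h1, h2, hadj⟩ := hM.1 _ he
  rcases hv with hv | hv
  · refine ⟨⟨e.2, h2⟩, Or.inl (by simpa only [hv] using he), ?_⟩
    rintro w (hw | hw)
    · have := hM.2 _ hw _ he (Or.inl hv)
      apply Fin.ext
      exact congrArg Prod.snd this
    · have := hM.2 _ hw _ he (Or.inr (Or.inr (Or.inl hv)))
      have h3 := congrArg Prod.snd this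
      simp only at h3
      omega
  · refine ⟨⟨e.1, h1⟩, Or.inr (by simpa only [hv] using he), ?_⟩
    rintro w (hw | hw)
    · have := hM.2 _ hw _ he (Or.inr (Or.inl hv))
      have h3 := congrArg Prod.fst this
      simp only at h3
      omega
    · have := hM.2 _ hw _ he (Or.inr (Or.inr (Or.inr hv)))
      apply Fin.ext
      exact congrArg Prod.fst this

open Classical in
/-- The pairs of a matching. -/
noncomputable def pairs {n : ℕ} {G : SimpleGraph (Fin n)} (M' : G.Subgraph) : Finset (ℕ × ℕ) :=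
  ((Finset.univ : Finset (Fin n × Fin n)).filter fun e => e.1 < e.2 ∧ M'.Adj e.1 e.2).map
    ⟨fun e => ((e.1 : ℕ), (e.2 : ℕ)), fun a b h => by
      obtain ⟨h1, h2⟩ := Prod.mk.inj h
      exact Prod.ext (Fin.ext h1) (Fin.ext h2)⟩

theorem mem_pairs {n : ℕ} {G : SimpleGraph (Fin n)} (M' : G.Subgraph) (e : ℕ × ℕ) :
    e ∈ pairs M' ↔ ∃ (h1 : e.1 < n) (h2 : e.2 < n), e.1 < e.2 ∧ M'.Adj ⟨e.1, h1⟩ ⟨e.2, h2⟩ := by
  classical
  unfold pairs
  simp only [Finset.mem_map, Finset.mem_filter, Finset.mem_univ, true_and]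
  constructor
  · rintro ⟨a, ⟨hlt, hadj⟩, rfl⟩
    exact ⟨a.1.2, a.2.2, hlt, hadj⟩
  · rintro ⟨h1, h2, hlt, hadj⟩
    exact ⟨(⟨e.1, h1⟩, ⟨e.2, h2⟩), ⟨hlt, hadj⟩, rfl⟩

theorem pairs_isMat {n : ℕ} {G : SimpleGraph (Fin n)} (M' : G.Subgraph) (h : M'.IsMatching) :
    IsMat (nAdj G) (pairs M') := by
  constructor
  · intro e he
    obtain ⟨h1, h2, hlt, hadj⟩ := (mem_pairs _ _).mp he
    exact ⟨hlt, h1, h2, M'.adj_sub hadj⟩
  · intro e he e' he' hor
    obtain ⟨h1, h2, hlt, hadj⟩ := (mem_pairs _ _).mp he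
    obtain ⟨h1', h2', hlt', hadj'⟩ := (mem_pairs _ _).mp he'
    rcases hor with hh | hh | hh | hh
    · have e1 : (⟨e.1, h1⟩ : Fin n) = ⟨e'.1, h1'⟩ := Fin.ext hh
      rw [e1] at hadj
      have := h.eq_of_adj_left hadj hadj'
      exact Prod.ext hh (congrArg Fin.val this)
    · have e1 : (⟨e.1, h1⟩ : Fin n) = ⟨e'.2, h2'⟩ := Fin.ext hh
      rw [e1] at hadj
      have := h.eq_of_adj_left hadj hadj'.symm
      have h3 := congrArg Fin.val this
      simp only at h3
      omega
    · have e1 : (⟨e.2, h2⟩ : Fin n) = ⟨e'.1, h1'⟩ := Fin.ext hh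
      rw [e1] at hadj
      have := h.eq_of_adj_left hadj.symm hadj'
      have h3 := congrArg Fin.val this
      simp only at h3
      omega
    · have e1 : (⟨e.2, h2⟩ : Fin n) = ⟨e'.2, h2'⟩ := Fin.ext hh
      rw [e1] at hadj
      have := h.eq_of_adj_left hadj.symm hadj'.symm
      exact Prod.ext (congrArg Fin.val this) hh

theorem pairs_card {n : ℕ} {G : SimpleGraph (Fin n)} (M' : G.Subgraph) :
    (pairs M').card = M'.edgeSet.ncard := by
  classical
  unfold pairs
  rw [Finset.card_map, ← Set.ncard_coe_finset]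
  apply Set.ncard_congr (fun e _ => s(e.1, e.2))
  · intro e he
    simp only [Finset.coe_filter, Finset.mem_univ, true_and, Set.mem_ofPred_eq] at he
    exact SimpleGraph.Subgraph.mem_edgeSet.mpr he.2
  · intro e e' he he' hee
    simp only [Finset.coe_filter, Finset.mem_univ, true_and, Set.mem_ofPred_eq] at he he'
    rcases Sym2.eq_iff.mp hee with ⟨h1, h2⟩ | ⟨h1, h2⟩
    · exact Prod.ext h1 h2
    · have h3 := he.1
      have h4 := he'.1
      rw [h1, h2] at h3
      exact absurd h3 (not_lt.mpr h4.le)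
  · intro b hb
    induction b using Sym2.ind with
    | _ x y =>
      have hadj : M'.Adj x y := SimpleGraph.Subgraph.mem_edgeSet.mp hb
      have hne : x ≠ y := hadj.ne
      rcases lt_or_gt_of_ne hne with hlt | hlt
      · exact ⟨(x, y), by simpa using ⟨hlt, hadj⟩, rfl⟩
      · exact ⟨(y, x), by simpa using ⟨hlt, hadj.symm⟩, Sym2.eq_swap⟩

end F5

/-- From the output array to the statement about graphs. -/
theorem represents_of_mate {n : ℕ} (G : SimpleGraph (Fin n)) (M : Finset (ℕ × ℕ))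
    (hM : IsMaxMat (nAdj G) M) (mem : ℕ → ℕ)
    (h0 : ∀ v, (∀ e ∈ M, v ≠ e.1 ∧ v ≠ e.2) → mem v = 0)
    (h1 : ∀ e ∈ M, mem e.1 = e.2 + 1 ∧ mem e.2 = e.1 + 1) :
    ∃ M' : G.Subgraph, IsMaximumMatching G M' ∧ Represents mem M' := by
  have hpairs : pairs (mkSub G M hM.1) = M := by
    ext e
    rw [mem_pairs]
    constructor
    · rintro ⟨h1', h2', hlt, (hadj | hadj)⟩
      · exact hadj
      · have := (hM.1.1 _ hadj).1
        simp only at this
        omega
    · intro he
      obtain ⟨hlt, h1', h2', hadj⟩ := hM.1.1 _ he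
      exact ⟨h1', h2', hlt, Or.inl he⟩
  refine ⟨mkSub G M hM.1, ⟨mkSub_isMatching G M hM.1, ?_⟩, ?_⟩
  · intro M' hM'
    rw [← pairs_card, ← pairs_card, hpairs]
    exact hM.2 _ (pairs_isMat M' hM')
  · intro v
    constructor
    · intro hv
      apply h0
      intro e he
      constructor
      · intro hh; exact hv ⟨e, he, Or.inl hh⟩
      · intro hh; exact hv ⟨e, he, Or.inr hh⟩
    · rintro u (hu | hu)
      · exact (h1 _ hu).1
      · exact (h1 _ hu).2

end Vale.Agent.P305.MM
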