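import Vale.Agent.P305.MM.CompileIO

/-! TASK A: `randSolves_of_C` is in `CompileIO.lean`. -/
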