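import Vale.Agent.P305.MM.Defs

/-! MODULE B2 (pure part of the matrix product by iterated tensor power). Owner: helper672. -/

set_option autoImplicit false

namespace Vale.Agent.P305.MM

open Finset

section Pure

variable {F : Type} [Field F]

/-- One step of the down sweep. -/
def ydn (q R : ℕ) (U X : ℕ → ℕ → ℕ → F) (ρ i j : ℕ) : F :=
  ∑ d ∈ range q, ∑ e ∈ range q, U (ρ % R) d e * X (ρ / R) (i * q + d) (j * q + e)

/-- The stages of the down sweep. -/
def ydns (q R : ℕ) (U : ℕ → ℕ → ℕ → F) (A : ℕ → ℕ → F) : ℕ → ℕ → ℕ → ℕ → F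
  | 0 => fun _ i j => A i j
  | t + 1 => ydn q R U (ydns q R U A t)

/-- One step of the up sweep. -/
def yup (q R : ℕ) (W C : ℕ → ℕ → ℕ → F) (ρ i j : ℕ) : F :=
  ∑ r ∈ range R, W r (i % q) (j % q) * C (ρ * R + r) (i / q) (j / q)

/-- The stages of the up sweep. -/
def yups (q R : ℕ) (W C : ℕ → ℕ → ℕ → F) : ℕ → ℕ → ℕ → ℕ → F
  | 0 => C
  | s + 1 => yup q R W (yups q R W C s)

/-- A sum over `range (m * q)` by blocks. -/
theorem sum_range_mul (f : ℕ → F) (m q : ℕ) :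
    ∑ k ∈ range (m * q), f k = ∑ a ∈ range m, ∑ b ∈ range q, f (a * q + b) := by
  induction m with
  | zero => simp
  | succ m ih =>
    rw [Nat.succ_mul, Finset.sum_range_add, ih, Finset.sum_range_succ]

/-- The base algorithm applied to one block. -/
theorem bil_apply (q R : ℕ) (U V W : ℕ → ℕ → ℕ → F)
    (hb : ∀ i < q, ∀ j < q, ∀ d < q, ∀ e < q, ∀ d' < q, ∀ e' < q,
      ∑ r ∈ range R, W r i j * (U r d e * V r d' e') = if d = i ∧ e = d' ∧ e' = j then 1 else 0)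
    (X Y : ℕ → ℕ → F) (i : ℕ) (hi : i < q) (j : ℕ) (hj : j < q) :
    ∑ r ∈ range R, W r i j * ((∑ d ∈ range q, ∑ e ∈ range q, U r d e * X d e) *
      (∑ d' ∈ range q, ∑ e' ∈ range q, V r d' e' * Y d' e')) =
    ∑ k ∈ range q, X i k * Y k j := by
  have h1 : ∀ r ∈ range R, W r i j * ((∑ d ∈ range q, ∑ e ∈ range q, U r d e * X d e) *
      (∑ d' ∈ range q, ∑ e' ∈ range q, V r d' e' * Y d' e')) =
      ∑ d ∈ range q, ∑ e ∈ range q, ∑ d' ∈ range q, ∑ e' ∈ range q,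
        W r i j * (U r d e * V r d' e') * (X d e * Y d' e') := by
    intro r _
    rw [Finset.sum_mul, Finset.mul_sum]
    refine Finset.sum_congr rfl fun d _ => ?_
    rw [Finset.sum_mul, Finset.mul_sum]
    refine Finset.sum_congr rfl fun e _ => ?_
    rw [Finset.mul_sum, Finset.mul_sum]
    refine Finset.sum_congr rfl fun d' _ => ?_
    rw [Finset.mul_sum, Finset.mul_sum]
    refine Finset.sum_congr rfl fun e' _ => ?_
    ring
  rw [Finset.sum_congr rfl h1, Finset.sum_comm]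
  have h2 : ∀ d ∈ range q, ∑ r ∈ range R, ∑ e ∈ range q, ∑ d' ∈ range q, ∑ e' ∈ range q,
        W r i j * (U r d e * V r d' e') * (X d e * Y d' e') =
      ∑ e ∈ range q, ∑ d' ∈ range q, ∑ e' ∈ range q,
        (if d = i ∧ e = d' ∧ e' = j then 1 else 0) * (X d e * Y d' e') := by
    intro d hd
    rw [Finset.sum_comm]
    refine Finset.sum_congr rfl fun e he => ?_
    rw [Finset.sum_comm]
    refine Finset.sum_congr rfl fun d' hd' => ?_
    rw [Finset.sum_comm]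
    refine Finset.sum_congr rfl fun e' he' => ?_
    rw [← Finset.sum_mul, hb i hi j hj d (mem_range.1 hd) e (mem_range.1 he) d' (mem_range.1 hd')
      e' (mem_range.1 he')]
  rw [Finset.sum_congr rfl h2]
  rw [Finset.sum_eq_single i]
  · refine Finset.sum_congr rfl fun e he => ?_
    rw [Finset.sum_eq_single e]
    · rw [Finset.sum_eq_single j]
      · simp
      · intro e' _ hne
        simp [hne]
      · intro h
        exact absurd (mem_range.2 hj) h
    · intro d' _ hne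
      refine Finset.sum_eq_zero fun e' _ => ?_
      simp [Ne.symm hne]
    · intro h
      exact absurd he h
  · intro d _ hne
    refine Finset.sum_eq_zero fun e _ => Finset.sum_eq_zero fun d' _ => Finset.sum_eq_zero
      fun e' _ => ?_
    simp [hne]
  · intro h
    exact absurd (mem_range.2 hi) h

/-- All stages of the up sweep are products of the stages of the down sweeps. -/
theorem yates_stage (q R : ℕ) (U V W : ℕ → ℕ → ℕ → F)
    (hb : ∀ i < q, ∀ j < q, ∀ d < q, ∀ e < q, ∀ d' < q, ∀ e' < q,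
      ∑ r ∈ range R, W r i j * (U r d e * V r d' e') = if d = i ∧ e = d' ∧ e' = j then 1 else 0)
    (hq : 0 < q) (A B : ℕ → ℕ → F) (K : ℕ) :
    ∀ s ≤ K, ∀ ρ, ∀ i < q ^ s, ∀ j < q ^ s,
      yups q R W (fun ρ i j => ydns q R U A K ρ i j * ydns q R V B K ρ i j) s ρ i j =
        mulN (q ^ s) (ydns q R U A (K - s) ρ) (ydns q R V B (K - s) ρ) i j := by
  intro s
  induction s with
  | zero =>
    intro _ ρ i hi j hj
    simp only [pow_zero, Nat.lt_one_iff] at hi hj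
    subst hi hj
    simp [yups, mulN]
  | succ s ih =>
    intro hs ρ i hi j hj
    obtain ⟨t, ht⟩ : ∃ t, K - s = t + 1 := ⟨K - s - 1, by omega⟩
    have ht' : K - (s + 1) = t := by omega
    have hi' : i / q < q ^ s := by
      rw [Nat.div_lt_iff_lt_mul hq]; rwa [pow_succ] at hi
    have hj' : j / q < q ^ s := by
      rw [Nat.div_lt_iff_lt_mul hq]; rwa [pow_succ] at hj
    have h1 : ∀ r ∈ range R,
        W r (i % q) (j % q) * yups q R W (fun ρ i j => ydns q R U A K ρ i j *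
          ydns q R V B K ρ i j) s (ρ * R + r) (i / q) (j / q) =
        ∑ k ∈ range (q ^ s), W r (i % q) (j % q) *
          ((∑ d ∈ range q, ∑ e ∈ range q, U r d e *
              ydns q R U A t ρ (i / q * q + d) (k * q + e)) *
           (∑ d' ∈ range q, ∑ e' ∈ range q, V r d' e' *
              ydns q R V B t ρ (k * q + d') (j / q * q + e'))) := by
      intro r hr
      have hr' := mem_range.1 hr
      have hR : 0 < R := by omega
      rw [ih (by omega) _ _ hi' _ hj', ht, mulN, Finset.mul_sum]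
      refine Finset.sum_congr rfl fun k _ => ?_
      have e1 : (ρ * R + r) % R = r := by
        rw [Nat.mul_add_mod', Nat.mod_eq_of_lt hr']
      have e2 : (ρ * R + r) / R = ρ := by
        rw [add_comm, Nat.add_mul_div_right _ _ hR, Nat.div_eq_of_lt hr', zero_add]
      simp only [ydns, ydn, e1, e2]
    simp only [yups, yup]
    rw [Finset.sum_congr rfl h1, Finset.sum_comm]
    have h2 : ∀ k ∈ range (q ^ s), ∑ r ∈ range R, W r (i % q) (j % q) *
          ((∑ d ∈ range q, ∑ e ∈ range q, U r d e *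
              ydns q R U A t ρ (i / q * q + d) (k * q + e)) *
           (∑ d' ∈ range q, ∑ e' ∈ range q, V r d' e' *
              ydns q R V B t ρ (k * q + d') (j / q * q + e'))) =
        ∑ b ∈ range q, ydns q R U A t ρ i (k * q + b) * ydns q R V B t ρ (k * q + b) j := by
      intro k _
      have h3 := bil_apply q R U V W hb
        (fun d e => ydns q R U A t ρ (i / q * q + d) (k * q + e))
        (fun d e => ydns q R V B t ρ (k * q + d) (j / q * q + e))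
        (i % q) (Nat.mod_lt _ hq) (j % q) (Nat.mod_lt _ hq)
      rw [h3]
      simp only [Nat.div_add_mod']
    rw [Finset.sum_congr rfl h2, ht', mulN, pow_succ, sum_range_mul]

theorem yates (q R : ℕ) (U V W : ℕ → ℕ → ℕ → F)
    (hb : ∀ i < q, ∀ j < q, ∀ d < q, ∀ e < q, ∀ d' < q, ∀ e' < q,
      ∑ r ∈ range R, W r i j * (U r d e * V r d' e') = if d = i ∧ e = d' ∧ e' = j then 1 else 0)
    (hq : 0 < q) (A B : ℕ → ℕ → F) (K : ℕ) (ρ : ℕ) (i : ℕ) (hi : i < q ^ K) (j : ℕ)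
    (hj : j < q ^ K) :
    yups q R W (fun ρ i j => ydns q R U A K ρ i j * ydns q R V B K ρ i j) K ρ i j =
      mulN (q ^ K) A B i j := by
  rw [yates_stage q R U V W hb hq A B K K le_rfl ρ i hi j hj, Nat.sub_self]
  simp only [mulN, ydns]

end Pure

section Tables

/-- The tables mod `p`. -/
def tU (𝔸 : Alg) (p : ℕ) [Fact p.Prime] (r d e : ℕ) : ZMod p :=
  (𝔸.u r d e : ZMod p) * (𝔸.D : ZMod p)⁻¹

def tV (𝔸 : Alg) (p : ℕ) [Fact p.Prime] (r d e : ℕ) : ZMod p :=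
  (𝔸.v r d e : ZMod p) * (𝔸.D : ZMod p)⁻¹

def tW (𝔸 : Alg) (p : ℕ) [Fact p.Prime] (r d e : ℕ) : ZMod p :=
  (𝔸.w r d e : ZMod p) * (𝔸.D : ZMod p)⁻¹

theorem tab_bil (𝔸 : Alg) (p : ℕ) [Fact p.Prime] (hD : (𝔸.D : ZMod p) ≠ 0) :
    ∀ i < 𝔸.q, ∀ j < 𝔸.q, ∀ d < 𝔸.q, ∀ e < 𝔸.q, ∀ d' < 𝔸.q, ∀ e' < 𝔸.q,
      ∑ r ∈ range 𝔸.R, tW 𝔸 p r i j * (tU 𝔸 p r d e * tV 𝔸 p r d' e') =
        if d = i ∧ e = d' ∧ e' = j then 1 else 0 := by
  intro i hi j hj d hd e he d' hd' e' he'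
  have h := congrArg (fun z : ℤ => (z : ZMod p)) (𝔸.bil i hi j hj d hd e he d' hd' e' he')
  simp only [Int.cast_sum, Int.cast_mul] at h
  have h1 : ∀ r ∈ range 𝔸.R, tW 𝔸 p r i j * (tU 𝔸 p r d e * tV 𝔸 p r d' e') =
      (𝔸.w r i j : ZMod p) * ((𝔸.u r d e : ZMod p) * (𝔸.v r d' e' : ZMod p)) *
        ((𝔸.D : ZMod p)⁻¹) ^ 3 := by
    intro r _
    simp only [tU, tV, tW]
    ring
  rw [Finset.sum_congr rfl h1, ← Finset.sum_mul, h]
  split
  · rw [Int.cast_pow, Int.cast_natCast, ← mul_pow, mul_inv_cancel₀ hD, one_pow]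
  · simp

/-- Down sweeps, products, up sweep. -/
theorem yates_alg (𝔸 : Alg) (p : ℕ) [Fact p.Prime] (hD : (𝔸.D : ZMod p) ≠ 0) (K : ℕ)
    (A B : ℕ → ℕ → ZMod p) : ∀ ρ, ∀ i < 𝔸.q ^ K, ∀ j < 𝔸.q ^ K,
    yups 𝔸.q 𝔸.R (tW 𝔸 p) (fun ρ i j => ydns 𝔸.q 𝔸.R (tU 𝔸 p) A K ρ i j *
      ydns 𝔸.q 𝔸.R (tV 𝔸 p) B K ρ i j) K ρ i j = mulN (𝔸.q ^ K) A B i j :=
  fun ρ i hi j hj => yates 𝔸.q 𝔸.R (tU 𝔸 p) (tV 𝔸 p) (tW 𝔸 p) (tab_bil 𝔸 p hD)
    (by have := 𝔸.two_le; omega) A B K ρ i hi j hj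

end Tables

section Flat

/-- Array `f` holds the `n` matrices `X ρ` (`ρ < n`) of size `m × m`. -/
def Holds3 {p : ℕ} (f : ℕ → ℕ) (n m : ℕ) (X : ℕ → ℕ → ℕ → ZMod p) : Prop :=
  ∀ ρ < n, ∀ i < m, ∀ j < m, f ((ρ * m + i) * m + j) = (X ρ i j).val

theorem flat_mod {m : ℕ} (ρ i : ℕ) {j : ℕ} (hj : j < m) : ((ρ * m + i) * m + j) % m = j := by
  rw [Nat.mul_add_mod', Nat.mod_eq_of_lt hj]

theorem flat_div {m : ℕ} (ρ i : ℕ) {j : ℕ} (hj : j < m) :
    ((ρ * m + i) * m + j) / m = ρ * m + i := by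
  rw [add_comm, Nat.add_mul_div_right _ _ (by omega), Nat.div_eq_of_lt hj, zero_add]

theorem flat_div_mod {m : ℕ} (ρ : ℕ) {i j : ℕ} (hi : i < m) (hj : j < m) :
    ((ρ * m + i) * m + j) / m % m = i := by
  rw [flat_div ρ i hj, Nat.mul_add_mod', Nat.mod_eq_of_lt hi]

theorem flat_div_div {m : ℕ} (ρ : ℕ) {i j : ℕ} (hi : i < m) (hj : j < m) :
    ((ρ * m + i) * m + j) / m / m = ρ := by
  rw [flat_div ρ i hj, add_comm, Nat.add_mul_div_right _ _ (by omega), Nat.div_eq_of_lt hi,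
    zero_add]

theorem flat_lt {n m ρ i j : ℕ} (hρ : ρ < n) (hi : i < m) (hj : j < m) :
    (ρ * m + i) * m + j < n * (m * m) := by
  have h1 : ρ * m + i + 1 ≤ n * m := by
    calc ρ * m + i + 1 ≤ ρ * m + m := by omega
      _ = (ρ + 1) * m := by ring
      _ ≤ n * m := Nat.mul_le_mul_right _ hρ
  calc (ρ * m + i) * m + j < (ρ * m + i) * m + m := by omega
    _ = (ρ * m + i + 1) * m := by ring
    _ ≤ n * m * m := Nat.mul_le_mul_right _ h1
    _ = n * (m * m) := by ring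

variable {p : ℕ} [Fact p.Prime]

theorem Holds3.of_holds {f : ℕ → ℕ} {m : ℕ} {A : ℕ → ℕ → ZMod p} (h : Holds f m A) :
    Holds3 f 1 m (fun _ => A) := by
  intro ρ hρ i hi j hj
  obtain rfl : ρ = 0 := by omega
  rw [zero_mul, zero_add]
  exact h i hi j hj

theorem Holds3.holds {f : ℕ → ℕ} {m : ℕ} {X : ℕ → ℕ → ℕ → ZMod p} (h : Holds3 f 1 m X) :
    Holds f m (X 0) := by
  intro i hi j hj
  have := h 0 (by omega) i hi j hj
  rwa [zero_mul, zero_add] at this

theorem Holds3.congr {f : ℕ → ℕ} {n m : ℕ} {X Y : ℕ → ℕ → ℕ → ZMod p} (h : Holds3 f n m X)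
    (hXY : ∀ ρ < n, ∀ i < m, ∀ j < m, X ρ i j = Y ρ i j) : Holds3 f n m Y := by
  intro ρ hρ i hi j hj
  rw [h ρ hρ i hi j hj, hXY ρ hρ i hi j hj]

/-- Value level of one step of the down sweep. -/
theorem holds3_dn {f g tab : ℕ → ℕ} {n m q R : ℕ} {U X : ℕ → ℕ → ℕ → ZMod p}
    (hf : Holds3 f n (m * q) X)
    (htab : ∀ r < R, ∀ d < q, ∀ e < q, tab ((r * q + d) * q + e) = (U r d e).val)
    (hg : ∀ x < n * R * (m * m), g x = (∑ d ∈ range q, ∑ e ∈ range q,
      tab ((x / m / m % R * q + d) * q + e) *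
      f ((x / m / m / R * (m * q) + (x / m % m * q + d)) * (m * q) + (x % m * q + e))) % p) :
    Holds3 g (n * R) m (ydn q R U X) := by
  intro ρ hρ i hi j hj
  have hR : 0 < R := by
    rcases Nat.eq_zero_or_pos R with h | h
    · rw [h, mul_zero] at hρ; omega
    · exact h
  have hρ' : ρ / R < n := by rw [Nat.div_lt_iff_lt_mul hR]; exact hρ
  rw [hg _ (flat_lt hρ hi hj), flat_mod ρ i hj, flat_div_mod ρ hi hj, flat_div_div ρ hi hj,
    ← ZMod.val_natCast]
  congr 1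
  simp only [ydn]
  rw [Nat.cast_sum]
  refine Finset.sum_congr rfl fun d hd => ?_
  rw [Nat.cast_sum]
  refine Finset.sum_congr rfl fun e he => ?_
  have hd' := mem_range.1 hd
  have he' := mem_range.1 he
  have h1 : i * q + d < m * q := by
    calc i * q + d < i * q + q := by omega
      _ = (i + 1) * q := by ring
      _ ≤ m * q := Nat.mul_le_mul_right _ hi
  have h2 : j * q + e < m * q := by
    calc j * q + e < j * q + q := by omega
      _ = (j + 1) * q := by ring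
      _ ≤ m * q := Nat.mul_le_mul_right _ hj
  rw [Nat.cast_mul, htab _ (Nat.mod_lt _ hR) d hd' e he', hf _ hρ' _ h1 _ h2,
    ZMod.natCast_zmod_val, ZMod.natCast_zmod_val]

/-- Value level of the products of entries. -/
theorem holds3_mul {f g h : ℕ → ℕ} {n : ℕ} {X Y : ℕ → ℕ → ℕ → ZMod p}
    (hf : Holds3 f n 1 X) (hg : Holds3 g n 1 Y) (hh : ∀ x < n, h x = f x * g x % p) :
    Holds3 h n 1 (fun ρ i j => X ρ i j * Y ρ i j) := by
  intro ρ hρ i hi j hj
  have h1 := hf ρ hρ i hi j hj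
  have h2 := hg ρ hρ i hi j hj
  have hx : (ρ * 1 + i) * 1 + j = ρ := by omega
  rw [hx] at h1 h2 ⊢
  rw [hh _ hρ, h1, h2, ZMod.val_mul]

/-- Value level of one step of the up sweep. -/
theorem holds3_up {f g tab : ℕ → ℕ} {n m q R : ℕ} {W C : ℕ → ℕ → ℕ → ZMod p}
    (hf : Holds3 f (n * R) m C)
    (htab : ∀ r < R, ∀ d < q, ∀ e < q, tab ((r * q + d) * q + e) = (W r d e).val)
    (hg : ∀ x < n * (m * q * (m * q)), g x = (∑ r ∈ range R,
      tab ((r * q + x / (m * q) % (m * q) % q) * q + x % (m * q) % q) *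
      f (((x / (m * q) / (m * q) * R + r) * m + x / (m * q) % (m * q) / q) * m +
        x % (m * q) / q)) % p) :
    Holds3 g n (m * q) (yup q R W C) := by
  intro ρ hρ i hi j hj
  have hq : 0 < q := by
    rcases Nat.eq_zero_or_pos q with h | h
    · rw [h, mul_zero] at hi; omega
    · exact h
  have hi' : i / q < m := by rw [Nat.div_lt_iff_lt_mul hq]; exact hi
  have hj' : j / q < m := by rw [Nat.div_lt_iff_lt_mul hq]; exact hj
  rw [hg _ (flat_lt hρ hi hj), flat_mod ρ i hj, flat_div_mod ρ hi hj, flat_div_div ρ hi hj,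
    ← ZMod.val_natCast]
  congr 1
  simp only [yup]
  rw [Nat.cast_sum]
  refine Finset.sum_congr rfl fun r hr => ?_
  have hr' := mem_range.1 hr
  have h1 : ρ * R + r < n * R := by
    calc ρ * R + r < ρ * R + R := by omega
      _ = (ρ + 1) * R := by ring
      _ ≤ n * R := Nat.mul_le_mul_right _ hρ
  rw [Nat.cast_mul, htab _ hr' _ (Nat.mod_lt _ hq) _ (Nat.mod_lt _ hq), hf _ h1 _ hi' _ hj',
    ZMod.natCast_zmod_val, ZMod.natCast_zmod_val]

theorem Base.tU {𝔸 : Alg} {s : St} (h : Base 𝔸 p s) : ∀ r < 𝔸.R, ∀ d < 𝔸.q, ∀ e < 𝔸.q,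
    s.a 4 ((r * 𝔸.q + d) * 𝔸.q + e) = (MM.tU 𝔸 p r d e).val := h.u

theorem Base.tV {𝔸 : Alg} {s : St} (h : Base 𝔸 p s) : ∀ r < 𝔸.R, ∀ d < 𝔸.q, ∀ e < 𝔸.q,
    s.a 5 ((r * 𝔸.q + d) * 𝔸.q + e) = (MM.tV 𝔸 p r d e).val := h.v

theorem Base.tW {𝔸 : Alg} {s : St} (h : Base 𝔸 p s) : ∀ r < 𝔸.R, ∀ d < 𝔸.q, ∀ e < 𝔸.q,
    s.a 6 ((r * 𝔸.q + d) * 𝔸.q + e) = (MM.tW 𝔸 p r d e).val := h.w

end Flat

section SumE

/-- The expression `f 0 + … + f (n - 1)`. -/
def sumE (f : ℕ → E) : ℕ → E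
  | 0 => .const 0
  | n + 1 => .add (sumE f n) (f n)

@[simp] theorem eval_sumE (env : Env) (s : St) (f : ℕ → E) (n : ℕ) :
    (sumE f n).eval env s = ∑ k ∈ range n, (f k).eval env s := by
  induction n with
  | zero => simp [sumE, E.eval]
  | succ n ih => rw [Finset.sum_range_succ, ← ih]; simp only [sumE, E.eval]

theorem noArr_sumE {j : ℕ} {f : ℕ → E} (hf : ∀ k, (f k).NoArr j) (n : ℕ) :
    (sumE f n).NoArr j := by
  induction n with
  | zero => simp [sumE, E.NoArr]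
  | succ n ih => simp only [sumE, E.NoArr]; exact ⟨ih, hf n⟩

end SumE

end Vale.Agent.P305.MM
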