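import Vale.Agent.P305.MM.Defs2
import Vale.Agent.P305.MM.Yates

/-! TASK B (matrix product, Yates). Register `10` holds `K`; arrays `9`, `10` hold `A`, `B`
(row major, `q ^ K` rows); the result goes to array `11`. Down sweep for `A` (table `4`):
array `12` of stage `t` holds for every `ρ < R ^ t` the `q^(K-t) × q^(K-t)` matrix `A_ρ` at
`(ρ q^(K-t) + i) q^(K-t) + j`; stage `t + 1` from stage `t`:
`A_{ρ R + r} i' j' = ∑ d e, u r d e * A_ρ (i' q + d) (j' q + e)`: one `fill` of length
`R^(t+1) (q^(K-t-1))²` whose expression is a constant-size sum, then copy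
back. Same for `B` (table `5`). Product of the `R ^ K` entries. Up sweep:
`C_ρ (i' q + d) (j' q + e) = ∑ r, w r d e * C_{ρ R + r} i' j'` (table `6`). -/

set_option autoImplicit false

namespace Vale.Agent.P305.MM

open Finset

namespace B1

/-! ### Expressions of the sweeps

Registers: `1` = `p`, `10` = `K`, `11` = `q ^ K`, `12` = width `m` of the blocks, `13` = number of
blocks, `14` = round, `15` = counter `x` of the fills. -/

/-- the entry of table `tb` times the entry of array `j` in the down sweep -/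
def dnT (q R tb j d e : ℕ) : E :=
  .mul (.ld tb (.add (.mul (.add (.mul (.mod (.div (.div (.reg 15) (.reg 12)) (.reg 12))
      (.const R)) (.const q)) (.const d)) (.const q)) (.const e)))
    (.ld j (.add (.mul (.add (.mul (.div (.div (.div (.reg 15) (.reg 12)) (.reg 12)) (.const R))
      (.mul (.reg 12) (.const q))) (.add (.mul (.mod (.div (.reg 15) (.reg 12)) (.reg 12))
        (.const q)) (.const d))) (.mul (.reg 12) (.const q)))
      (.add (.mul (.mod (.reg 15) (.reg 12)) (.const q)) (.const e))))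

/-- new entry in the down sweep -/
def dnE (q R tb j : ℕ) : E :=
  .mod (sumE (fun d => sumE (fun e => dnT q R tb j d e) q) q) (.reg 1)

/-- the entry of table `tb` times the entry of array `j` in the up sweep (`m = reg 12` is the new
width) -/
def upT (q R tb j r : ℕ) : E :=
  .mul (.ld tb (.add (.mul (.add (.mul (.const r) (.const q))
      (.mod (.mod (.div (.reg 15) (.reg 12)) (.reg 12)) (.const q))) (.const q))
        (.mod (.mod (.reg 15) (.reg 12)) (.const q))))
    (.ld j (.add (.mul (.add (.mul (.add (.mul (.div (.div (.reg 15) (.reg 12)) (.reg 12))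
      (.const R)) (.const r)) (.div (.reg 12) (.const q)))
        (.div (.mod (.div (.reg 15) (.reg 12)) (.reg 12)) (.const q)))
          (.div (.reg 12) (.const q))) (.div (.mod (.reg 15) (.reg 12)) (.const q))))

/-- new entry in the up sweep -/
def upE (q R tb j : ℕ) : E := .mod (sumE (fun r => upT q R tb j r) R) (.reg 1)

/-! ### Programs -/

/-- `reg 11 := q ^ K` -/
def powC (q : ℕ) : C :=
  .seq (.asg 11 (.const 1)) (.for_ 14 (.reg 10) (.asg 11 (.mul (.reg 11) (.const q))))

/-- number of entries of the current stage -/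
def szE : E := .mul (.reg 13) (.mul (.reg 12) (.reg 12))

/-- down sweep of array `j` (scratch `j'`) with table `tb` -/
def dnC (q R tb j j' : ℕ) : C :=
  .seq (.asg 12 (.reg 11)) (.seq (.asg 13 (.const 1)) (.for_ 14 (.reg 10)
    (.seq (.asg 12 (.div (.reg 12) (.const q))) (.seq (.asg 13 (.mul (.reg 13) (.const R)))
      (.seq (fill 15 szE j' (dnE q R tb j)) (fill 15 szE j (.ld j' (.reg 15))))))))

/-- up sweep of array `j` (scratch `j'`) with table `tb` -/
def upC (q R tb j j' : ℕ) : C :=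
  .seq (.asg 12 (.const 1)) (.for_ 14 (.reg 10)
    (.seq (.asg 12 (.mul (.reg 12) (.const q))) (.seq (.asg 13 (.div (.reg 13) (.const R)))
      (.seq (fill 15 szE j' (upE q R tb j)) (fill 15 szE j (.ld j' (.reg 15)))))))

/-! ### Values -/

section Values

variable {p : ℕ} [Fact p.Prime]

theorem idx3 {m ρ i j : ℕ} (hi : i < m) (hj : j < m) :
    ((ρ * m + i) * m + j) / m / m = ρ ∧ ((ρ * m + i) * m + j) / m % m = i ∧
      ((ρ * m + i) * m + j) % m = j := by
  have hm : 0 < m := by omega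
  have e1 : ((ρ * m + i) * m + j) / m = ρ * m + i := by
    rw [mul_comm, Nat.mul_add_div hm, Nat.div_eq_of_lt hj, add_zero]
  have e2 : (ρ * m + i) / m = ρ := by
    rw [mul_comm, Nat.mul_add_div hm, Nat.div_eq_of_lt hi, add_zero]
  have e3 : (ρ * m + i) % m = i := by
    rw [mul_comm, Nat.mul_add_mod, Nat.mod_eq_of_lt hi]
  have e4 : ((ρ * m + i) * m + j) % m = j := by
    rw [mul_comm, Nat.mul_add_mod, Nat.mod_eq_of_lt hj]
  rw [e1]
  exact ⟨e2, e3, e4⟩

theorem idx_lt {n m ρ i j : ℕ} (hρ : ρ < n) (hi : i < m) (hj : j < m) :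
    (ρ * m + i) * m + j < n * (m * m) := by
  have h1 : ρ * m + i + 1 ≤ n * m := by
    calc ρ * m + i + 1 ≤ ρ * m + m := by omega
      _ = (ρ + 1) * m := by ring
      _ ≤ n * m := Nat.mul_le_mul_right _ hρ
  calc (ρ * m + i) * m + j < (ρ * m + i) * m + m := by omega
    _ = (ρ * m + i + 1) * m := by ring
    _ ≤ n * m * m := Nat.mul_le_mul_right _ h1
    _ = _ := by ring

theorem dig_lt {q m i d : ℕ} (hi : i < m) (hd : d < q) : i * q + d < m * q := by
  calc i * q + d < i * q + q := by omega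
    _ = (i + 1) * q := by ring
    _ ≤ m * q := Nat.mul_le_mul_right _ hi

omit [Fact p.Prime] in
theorem holds3_congr {n m : ℕ} {f g : ℕ → ℕ} {X : ℕ → ℕ → ℕ → ZMod p} (hf : Holds3 f n m X)
    (h : ∀ x < n * (m * m), g x = f x) : Holds3 g n m X := fun ρ hρ i hi j hj => by
  rw [h _ (idx_lt hρ hi hj)]
  exact hf ρ hρ i hi j hj

end Values

/-! ### Triples -/

theorem dnE_eval (env : Env) (s : St) (q R tb j : ℕ) :
    (dnE q R tb j).eval env s = (∑ d ∈ range q, ∑ e ∈ range q,
      s.a tb ((s.r 15 / s.r 12 / s.r 12 % R * q + d) * q + e) *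
        s.a j ((s.r 15 / s.r 12 / s.r 12 / R * (s.r 12 * q) +
          (s.r 15 / s.r 12 % s.r 12 * q + d)) * (s.r 12 * q) + (s.r 15 % s.r 12 * q + e))) %
            s.r 1 := by
  simp only [dnE, dnT, E.eval, eval_sumE]

theorem upE_eval (env : Env) (s : St) (q R tb j : ℕ) :
    (upE q R tb j).eval env s = (∑ r ∈ range R,
      s.a tb ((r * q + s.r 15 / s.r 12 % s.r 12 % q) * q + s.r 15 % s.r 12 % q) *
        s.a j (((s.r 15 / s.r 12 / s.r 12 * R + r) * (s.r 12 / q) +
          s.r 15 / s.r 12 % s.r 12 / q) * (s.r 12 / q) + s.r 15 % s.r 12 / q)) % s.r 1 := by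
  simp only [upE, upT, E.eval, eval_sumE]

theorem dnE_noArr {q R tb j j' : ℕ} (h1 : tb ≠ j') (h2 : j ≠ j') : (dnE q R tb j).NoArr j' := by
  refine ⟨noArr_sumE (fun d => noArr_sumE (fun e => ?_) q) q, trivial⟩
  simp [dnT, E.NoArr, h1, h2]

theorem upE_noArr {q R tb j j' : ℕ} (h1 : tb ≠ j') (h2 : j ≠ j') : (upE q R tb j).NoArr j' := by
  refine ⟨noArr_sumE (fun r => ?_) R, trivial⟩
  simp [upT, E.NoArr, h1, h2]

theorem two_fill {env : Env} {cap L j j' : ℕ} {e : E} {s : St} (hjj : j ≠ j')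
    (he : e.NoArr j') (hlen : s.r 13 * (s.r 12 * s.r 12) = L) (hL : L ≤ cap)
    (hv : ∀ x < L, e.eval env (s.set 15 x) ≤ cap) :
    Tri env cap (.seq (fill 15 szE j' e) (fill 15 szE j (.ld j' (.reg 15)))) s (4 * L + 2)
      (fun s' => (∀ x, x ≠ 15 → s'.r x = s.r x) ∧ (∀ i, i ≠ j → i ≠ j' → s'.a i = s.a i) ∧
        (∀ x < L, s'.a j x = e.eval env (s.set 15 x)) ∧ s'.pos = s.pos) := by
  have hlen' : szE.eval env s = L := by simpa [szE, E.eval] using hlen
  have h1 := fill_tri (env := env) (cap := cap) (i := 15) (len := szE) (j := j') (e := e) (s := s)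
    he (by rw [hlen']; exact hL) (by rw [hlen']; exact hv)
  rw [hlen'] at h1
  refine (h1.seq (t' := 2 * L + 1) fun s1 ⟨r1, a1, v1, p1⟩ => ?_).mono (by omega) fun _ h => h
  have hlen1 : szE.eval env s1 = L := by
    simp only [szE, E.eval]
    rw [r1 13 (by omega), r1 12 (by omega)]
    exact hlen
  have h2 := fill_tri (env := env) (cap := cap) (i := 15) (len := szE) (j := j)
    (e := .ld j' (.reg 15)) (s := s1) (by simp [E.NoArr, hjj.symm]) (by rw [hlen1]; exact hL)
    (by
      rw [hlen1]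
      intro x hx
      simp only [E.eval, St.set_a, St.set_r, Function.update_self]
      rw [v1 x, if_pos hx]
      exact hv x hx)
  rw [hlen1] at h2
  refine h2.mono le_rfl fun s2 ⟨r2, a2, v2, p2⟩ => ⟨fun x hx => ?_, fun i hi hi' => ?_,
    fun x hx => ?_, p2.trans p1⟩
  · rw [r2 x hx, r1 x hx]
  · rw [a2 i hi, a1 i hi']
  · rw [v2 x, if_pos hx]
    simp only [E.eval, St.set_a, St.set_r, Function.update_self]
    rw [v1 x, if_pos hx]

theorem size_le {q R K t : ℕ} (hqR : q * q ≤ R) (ht : t ≤ K) :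
    R ^ t * (q ^ (K - t) * q ^ (K - t)) ≤ R ^ K := by
  calc R ^ t * (q ^ (K - t) * q ^ (K - t)) = R ^ t * (q * q) ^ (K - t) := by rw [mul_pow]
    _ ≤ R ^ t * R ^ (K - t) := Nat.mul_le_mul_left _ (Nat.pow_le_pow_left hqR _)
    _ = R ^ K := by rw [← pow_add]; congr 1; omega

theorem dn_tri {q R tb j j' p K cap : ℕ} [Fact p.Prime] {env : Env} {s : St}
    {U : ℕ → ℕ → ℕ → ZMod p} {A : ℕ → ℕ → ZMod p} (hq : 2 ≤ q) (hqR : q * q ≤ R)
    (hjj : j ≠ j') (htj : tb ≠ j) (htj' : tb ≠ j') (hp : s.r 1 = p) (hK : s.r 10 = K)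
    (hM : s.r 11 = q ^ K) (hcap : p ≤ cap) (hR : R ^ (K + 1) ≤ cap)
    (htab : ∀ r < R, ∀ d < q, ∀ e < q, s.a tb ((r * q + d) * q + e) = (U r d e).val)
    (hA : Holds (s.a j) (q ^ K) A) :
    Tri env cap (dnC q R tb j j') s (3 + K * (5 + 4 * R ^ K)) (fun s' =>
      Holds3 (s'.a j) (R ^ K) 1 (ydns q R U A K) ∧ s'.r 13 = R ^ K ∧
      (∀ x, x < 12 ∨ 15 < x → s'.r x = s.r x) ∧ (∀ i, i ≠ j → i ≠ j' → s'.a i = s.a i) ∧
      s'.pos = s.pos) := by
  have hq0 : 0 < q := by omega
  have hR2 : 2 ≤ R := hq.trans ((Nat.le_mul_of_pos_left q hq0).trans hqR)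
  have hR0 : 0 < R := by omega
  have hRK : R ^ K ≤ cap := (Nat.pow_le_pow_right hR0 (by omega)).trans hR
  have hp0 : 0 < p := (Fact.out : p.Prime).pos
  have hqR1 : q ≤ R := (Nat.le_mul_of_pos_left q hq0).trans hqR
  have hqK : q ^ K ≤ R ^ K := Nat.pow_le_pow_left hqR1 _
  have hKc : K ≤ cap :=
    ((Nat.lt_two_pow_self (n := K)).le.trans (Nat.pow_le_pow_left hR2 K)).trans hRK
  set I : ℕ → St → Prop := fun t s' =>
    Holds3 (s'.a j) (R ^ t) (q ^ (K - t)) (ydns q R U A t) ∧ s'.r 12 = q ^ (K - t) ∧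
      s'.r 13 = R ^ t ∧ (∀ x, x < 12 ∨ 15 < x → s'.r x = s.r x) ∧
      (∀ i, i ≠ j → i ≠ j' → s'.a i = s.a i) ∧ s'.pos = s.pos with hI
  have hround : ∀ t < K, ∀ s', I t s' → Tri env cap
      (.seq (.asg 12 (.div (.reg 12) (.const q))) (.seq (.asg 13 (.mul (.reg 13) (.const R)))
        (.seq (fill 15 szE j' (dnE q R tb j)) (fill 15 szE j (.ld j' (.reg 15))))))
      (s'.set 14 t) (1 + (1 + (4 * R ^ K + 2))) (I (t + 1)) := by
    intro t ht s' ⟨h1, h2, h3, h4, h5, h6⟩
    have hKt : K - t = K - (t + 1) + 1 := by omega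
    have hm : q ^ (K - t) = q ^ (K - (t + 1)) * q := by rw [hKt, pow_succ]
    have hm' : q ^ (K - t) / q = q ^ (K - (t + 1)) := by
      rw [hm, Nat.mul_div_cancel _ hq0]
    have hn : R ^ t * R = R ^ (t + 1) := (pow_succ _ _).symm
    refine Tri.seq (Q := fun s1 => s1 = (s'.set 14 t).set 12 (q ^ (K - (t + 1)))) ?_ ?_
    · refine Tri.asg ?_ ?_
      · simp only [E.eval, St.set_r]
        rw [Function.update_of_ne (by omega), h2, hm']
        exact (Nat.pow_le_pow_right hq0 (by omega)).trans (hqK.trans hRK)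
      · simp only [E.eval, St.set_r]
        rw [Function.update_of_ne (by omega), h2, hm']
    intro s1 hs1
    refine Tri.seq (Q := fun s2 => s2 = s1.set 13 (R ^ (t + 1))) ?_ ?_
    · have e1 : s1.r 13 = R ^ t := by
        rw [hs1]
        simp only [St.set_r]
        rw [Function.update_of_ne (by omega), Function.update_of_ne (by omega), h3]
      refine Tri.asg ?_ ?_
      · simp only [E.eval]
        rw [e1, hn]
        exact (Nat.pow_le_pow_right hR0 (by omega)).trans hR
      · simp only [E.eval]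
        rw [e1, hn]
    intro s2 hs2
    have r12 : s2.r 12 = q ^ (K - (t + 1)) := by
      rw [hs2, hs1]
      simp [St.set_r]
    have r13 : s2.r 13 = R ^ (t + 1) := by
      rw [hs2]
      simp [St.set_r]
    have rr : ∀ x, x < 12 ∨ 15 < x → s2.r x = s.r x := by
      intro x hx
      rw [hs2, hs1]
      simp only [St.set_r]
      rw [Function.update_of_ne (by omega), Function.update_of_ne (by omega),
        Function.update_of_ne (by omega), h4 x hx]
    have ra : s2.a = s'.a := by rw [hs2, hs1]; rfl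
    have rp : s2.pos = s.pos := by rw [hs2, hs1]; exact h6
    have rp1 : s2.r 1 = p := by rw [rr 1 (by omega), hp]
    have hsz : R ^ (t + 1) * (q ^ (K - (t + 1)) * q ^ (K - (t + 1))) ≤ R ^ K :=
      size_le hqR (by omega)
    have hev : ∀ x, (dnE q R tb j).eval env (s2.set 15 x) = (∑ d ∈ range q, ∑ e ∈ range q,
        s'.a tb ((x / q ^ (K - (t + 1)) / q ^ (K - (t + 1)) % R * q + d) * q + e) *
          s'.a j ((x / q ^ (K - (t + 1)) / q ^ (K - (t + 1)) / R * (q ^ (K - (t + 1)) * q) +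
            (x / q ^ (K - (t + 1)) % q ^ (K - (t + 1)) * q + d)) * (q ^ (K - (t + 1)) * q) +
              (x % q ^ (K - (t + 1)) * q + e))) % p := by
      intro x
      rw [dnE_eval]
      simp only [St.set_r, St.set_a, Function.update_self]
      rw [Function.update_of_ne (show (12 : ℕ) ≠ 15 by omega),
        Function.update_of_ne (show (1 : ℕ) ≠ 15 by omega), r12, rp1, ra]
    refine (two_fill (L := R ^ (t + 1) * (q ^ (K - (t + 1)) * q ^ (K - (t + 1)))) hjj
      (dnE_noArr htj' hjj) ?_ (hsz.trans hRK) ?_).mono (by omega) ?_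
    · rw [r12, r13]
    · intro x _
      rw [hev]
      exact (Nat.mod_lt _ hp0).le.trans hcap
    · rintro s3 ⟨r3, a3, v3, p3⟩
      refine ⟨?_, ?_, ?_, fun x hx => ?_, fun i hi hi' => ?_, p3.trans rp⟩
      · show Holds3 (s3.a j) (R ^ (t + 1)) (q ^ (K - (t + 1))) (ydn q R U (ydns q R U A t))
        rw [← hn]
        refine holds3_dn (f := s'.a j) (tab := s'.a tb) ?_ (fun r hr d hd e he => ?_)
          (fun x hx => ?_)
        · rw [← hm]
          exact h1
        · rw [h5 tb htj htj']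
          exact htab r hr d hd e he
        · rw [v3 x (by rw [← hn]; exact hx), hev]
      · rw [r3 12 (by omega), r12]
      · rw [r3 13 (by omega), r13]
      · rw [r3 x (by omega), rr x hx]
      · rw [a3 i hi hi', ra, h5 i hi hi']
  refine (Tri.seq (Q := fun s1 => s1 = s.set 12 (q ^ K)) (t := 1) (t' := 2 + K * (5 + 4 * R ^ K)) ?_
    ?_).mono (by omega) fun _ h => h
  · refine Tri.asg ?_ ?_
    · simp only [E.eval, hM]
      exact hqK.trans hRK
    · simp only [E.eval, hM]
  intro s1 hs1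
  refine (Tri.seq (Q := fun s2 => s2 = s1.set 13 1) (t := 1) (t' := 1 + K * (5 + 4 * R ^ K)) ?_
    ?_).mono (by omega) fun _ h => h
  · refine Tri.asg ?_ ?_
    · simp only [E.eval]
      exact (Nat.one_le_pow _ _ hR0).trans hRK
    · simp only [E.eval]
  intro s2 hs2
  have r10 : s2.r 10 = K := by
    rw [hs2, hs1]
    simp only [St.set_r]
    rw [Function.update_of_ne (by omega), Function.update_of_ne (by omega), hK]
  have hfor := Tri.for_ (env := env) (cap := cap) (i := 14) (e := .reg 10)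
    (p := .seq (.asg 12 (.div (.reg 12) (.const q))) (.seq (.asg 13 (.mul (.reg 13) (.const R)))
        (.seq (fill 15 szE j' (dnE q R tb j)) (fill 15 szE j (.ld j' (.reg 15))))))
    (s := s2) (T := 1 + (1 + (4 * R ^ K + 2))) I (Q := I K) (by simpa [E.eval, r10] using hKc)
    (by
      refine ⟨?_, ?_, ?_, fun x hx => ?_, fun i _ _ => ?_, ?_⟩
      · intro ρ hρ i hi k hk
        have h0 : ρ = 0 := by simpa using hρ
        subst h0
        rw [hs2, hs1]
        simp only [St.set_a, zero_mul, zero_add]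
        rw [Nat.sub_zero] at hi hk ⊢
        exact hA i hi k hk
      · rw [hs2, hs1]; simp [St.set_r]
      · rw [hs2]; simp [St.set_r]
      · rw [hs2, hs1]
        simp only [St.set_r]
        rw [Function.update_of_ne (by omega), Function.update_of_ne (by omega)]
      · rw [hs2, hs1]; rfl
      · rw [hs2, hs1]; rfl)
    (by
      simp only [E.eval, r10]
      exact hround)
    (by
      simp only [E.eval, r10]
      exact fun _ h => h)
  simp only [E.eval, r10] at hfor
  refine hfor.mono (le_of_eq (by ring)) ?_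
  rintro s3 ⟨h1, h2, h3, h4, h5, h6⟩
  refine ⟨?_, h3, h4, h5, h6⟩
  rw [Nat.sub_self, pow_zero] at h1
  exact h1

theorem up_tri {q R tb j j' p K cap : ℕ} [Fact p.Prime] {env : Env} {s : St}
    {W X : ℕ → ℕ → ℕ → ZMod p} (hq : 2 ≤ q) (hqR : q * q ≤ R)
    (hjj : j ≠ j') (htj : tb ≠ j) (htj' : tb ≠ j') (hp : s.r 1 = p) (hK : s.r 10 = K)
    (h13 : s.r 13 = R ^ K) (hcap : p ≤ cap) (hR : R ^ (K + 1) ≤ cap)
    (htab : ∀ r < R, ∀ d < q, ∀ e < q, s.a tb ((r * q + d) * q + e) = (W r d e).val)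
    (hX : Holds3 (s.a j) (R ^ K) 1 X) :
    Tri env cap (upC q R tb j j') s (2 + K * (5 + 4 * R ^ K)) (fun s' =>
      Holds3 (s'.a j) 1 (q ^ K) (yups q R W X K) ∧
      (∀ x, x < 12 ∨ 15 < x → s'.r x = s.r x) ∧ (∀ i, i ≠ j → i ≠ j' → s'.a i = s.a i) ∧
      s'.pos = s.pos) := by
  have hq0 : 0 < q := by omega
  have hR2 : 2 ≤ R := hq.trans ((Nat.le_mul_of_pos_left q hq0).trans hqR)
  have hR0 : 0 < R := by omega
  have hRK : R ^ K ≤ cap := (Nat.pow_le_pow_right hR0 (by omega)).trans hR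
  have hp0 : 0 < p := (Fact.out : p.Prime).pos
  have hqR1 : q ≤ R := (Nat.le_mul_of_pos_left q hq0).trans hqR
  have hqK : q ^ K ≤ R ^ K := Nat.pow_le_pow_left hqR1 _
  have hKc : K ≤ cap :=
    ((Nat.lt_two_pow_self (n := K)).le.trans (Nat.pow_le_pow_left hR2 K)).trans hRK
  set I : ℕ → St → Prop := fun t s' =>
    Holds3 (s'.a j) (R ^ (K - t)) (q ^ t) (yups q R W X t) ∧ s'.r 12 = q ^ t ∧
      s'.r 13 = R ^ (K - t) ∧ (∀ x, x < 12 ∨ 15 < x → s'.r x = s.r x) ∧
      (∀ i, i ≠ j → i ≠ j' → s'.a i = s.a i) ∧ s'.pos = s.pos with hI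
  have hround : ∀ t < K, ∀ s', I t s' → Tri env cap
      (.seq (.asg 12 (.mul (.reg 12) (.const q))) (.seq (.asg 13 (.div (.reg 13) (.const R)))
        (.seq (fill 15 szE j' (upE q R tb j)) (fill 15 szE j (.ld j' (.reg 15))))))
      (s'.set 14 t) (1 + (1 + (4 * R ^ K + 2))) (I (t + 1)) := by
    intro t ht s' ⟨h1, h2, h3, h4, h5, h6⟩
    have hKt : K - t = K - (t + 1) + 1 := by omega
    have hn : R ^ (K - t) = R ^ (K - (t + 1)) * R := by rw [hKt, pow_succ]
    have hn' : R ^ (K - t) / R = R ^ (K - (t + 1)) := by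
      rw [hn, Nat.mul_div_cancel _ hR0]
    have hm : q ^ t * q = q ^ (t + 1) := (pow_succ _ _).symm
    refine Tri.seq (Q := fun s1 => s1 = (s'.set 14 t).set 12 (q ^ (t + 1))) ?_ ?_
    · refine Tri.asg ?_ ?_
      · simp only [E.eval, St.set_r]
        rw [Function.update_of_ne (by omega), h2, hm]
        exact (Nat.pow_le_pow_right hq0 (by omega)).trans (hqK.trans hRK)
      · simp only [E.eval, St.set_r]
        rw [Function.update_of_ne (by omega), h2, hm]
    intro s1 hs1
    refine Tri.seq (Q := fun s2 => s2 = s1.set 13 (R ^ (K - (t + 1)))) ?_ ?_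
    · have e1 : s1.r 13 = R ^ (K - t) := by
        rw [hs1]
        simp only [St.set_r]
        rw [Function.update_of_ne (by omega), Function.update_of_ne (by omega), h3]
      refine Tri.asg ?_ ?_
      · simp only [E.eval]
        rw [e1, hn']
        exact (Nat.pow_le_pow_right hR0 (by omega)).trans hRK
      · simp only [E.eval]
        rw [e1, hn']
    intro s2 hs2
    have r12 : s2.r 12 = q ^ (t + 1) := by
      rw [hs2, hs1]
      simp [St.set_r]
    have r13 : s2.r 13 = R ^ (K - (t + 1)) := by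
      rw [hs2]
      simp [St.set_r]
    have rr : ∀ x, x < 12 ∨ 15 < x → s2.r x = s.r x := by
      intro x hx
      rw [hs2, hs1]
      simp only [St.set_r]
      rw [Function.update_of_ne (by omega), Function.update_of_ne (by omega),
        Function.update_of_ne (by omega), h4 x hx]
    have ra : s2.a = s'.a := by rw [hs2, hs1]; rfl
    have rp : s2.pos = s.pos := by rw [hs2, hs1]; exact h6
    have rp1 : s2.r 1 = p := by rw [rr 1 (by omega), hp]
    have hsz : R ^ (K - (t + 1)) * (q ^ (t + 1) * q ^ (t + 1)) ≤ R ^ K := by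
      have := size_le (q := q) (R := R) (K := K) (t := K - (t + 1)) hqR (by omega)
      rwa [show K - (K - (t + 1)) = t + 1 by omega] at this
    have hmq : q ^ (t + 1) / q = q ^ t := by rw [← hm, Nat.mul_div_cancel _ hq0]
    have hev : ∀ x, (upE q R tb j).eval env (s2.set 15 x) = (∑ r ∈ range R,
        s'.a tb ((r * q + x / q ^ (t + 1) % q ^ (t + 1) % q) * q + x % q ^ (t + 1) % q) *
          s'.a j (((x / q ^ (t + 1) / q ^ (t + 1) * R + r) * q ^ t +
            x / q ^ (t + 1) % q ^ (t + 1) / q) * q ^ t + x % q ^ (t + 1) / q)) % p := by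
      intro x
      rw [upE_eval]
      simp only [St.set_r, St.set_a, Function.update_self]
      rw [Function.update_of_ne (show (12 : ℕ) ≠ 15 by omega),
        Function.update_of_ne (show (1 : ℕ) ≠ 15 by omega), r12, rp1, ra, hmq]
    refine (two_fill (L := R ^ (K - (t + 1)) * (q ^ (t + 1) * q ^ (t + 1))) hjj
      (upE_noArr htj' hjj) ?_ (hsz.trans hRK) ?_).mono (by omega) ?_
    · rw [r12, r13]
    · intro x _
      rw [hev]
      exact (Nat.mod_lt _ hp0).le.trans hcap
    · rintro s3 ⟨r3, a3, v3, p3⟩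
      refine ⟨?_, ?_, ?_, fun x hx => ?_, fun i hi hi' => ?_, p3.trans rp⟩
      · show Holds3 (s3.a j) (R ^ (K - (t + 1))) (q ^ (t + 1)) (yup q R W (yups q R W X t))
        rw [← hm]
        refine holds3_up (f := s'.a j) (tab := s'.a tb) ?_ (fun r hr d hd e he => ?_)
          (fun x hx => ?_)
        · rw [← hn]
          exact h1
        · rw [h5 tb htj htj']
          exact htab r hr d hd e he
        · rw [hm] at hx ⊢
          rw [v3 x hx, hev]
      · rw [r3 12 (by omega), r12]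
      · rw [r3 13 (by omega), r13]
      · rw [r3 x (by omega), rr x hx]
      · rw [a3 i hi hi', ra, h5 i hi hi']
  refine (Tri.seq (Q := fun s1 => s1 = s.set 12 1) (t := 1)
    (t' := 1 + K * (5 + 4 * R ^ K)) ?_ ?_).mono (by omega) fun _ h => h
  · refine Tri.asg ?_ ?_
    · simp only [E.eval]
      exact (Nat.one_le_pow _ _ hR0).trans hRK
    · simp only [E.eval]
  intro s1 hs1
  have r10 : s1.r 10 = K := by
    rw [hs1]
    simp only [St.set_r]
    rw [Function.update_of_ne (by omega), hK]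
  have hfor := Tri.for_ (env := env) (cap := cap) (i := 14) (e := .reg 10)
    (p := .seq (.asg 12 (.mul (.reg 12) (.const q))) (.seq (.asg 13 (.div (.reg 13) (.const R)))
        (.seq (fill 15 szE j' (upE q R tb j)) (fill 15 szE j (.ld j' (.reg 15))))))
    (s := s1) (T := 1 + (1 + (4 * R ^ K + 2))) I (Q := I K) (by simpa [E.eval, r10] using hKc)
    (by
      refine ⟨?_, ?_, ?_, fun x hx => ?_, fun i _ _ => ?_, ?_⟩
      · rw [hs1, Nat.sub_zero, pow_zero]
        exact hX
      · rw [hs1]; simp [St.set_r]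
      · rw [hs1]
        simp only [St.set_r]
        rw [Function.update_of_ne (by omega), h13, Nat.sub_zero]
      · rw [hs1]
        simp only [St.set_r]
        rw [Function.update_of_ne (by omega)]
      · rw [hs1]; rfl
      · rw [hs1]; rfl)
    (by
      simp only [E.eval, r10]
      exact hround)
    (by
      simp only [E.eval, r10]
      exact fun _ h => h)
  simp only [E.eval, r10] at hfor
  refine hfor.mono (le_of_eq (by ring)) ?_
  rintro s3 ⟨h1, h2, h3, h4, h5, h6⟩
  refine ⟨?_, h4, h5, h6⟩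
  rw [Nat.sub_self, pow_zero] at h1
  exact h1

theorem pow_tri {q K cap : ℕ} {env : Env} {s : St} (hq : 2 ≤ q) (hK : s.r 10 = K)
    (hcap : q ^ K ≤ cap) :
    Tri env cap (powC q) s (2 + K * 2) (fun s' => s'.r 11 = q ^ K ∧
      (∀ x, x < 11 ∨ 15 < x → s'.r x = s.r x) ∧ s'.a = s.a ∧ s'.pos = s.pos) := by
  have hq0 : 0 < q := by omega
  have hKc : K ≤ cap :=
    ((Nat.lt_two_pow_self (n := K)).le.trans (Nat.pow_le_pow_left hq K)).trans hcap
  refine (Tri.seq (Q := fun s1 => s1 = s.set 11 1) (t := 1) (t' := 1 + K * 2) ?_ ?_).mono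
    (by omega) fun _ h => h
  · refine Tri.asg ?_ ?_
    · simp only [E.eval]
      exact (Nat.one_le_pow _ _ hq0).trans hcap
    · simp only [E.eval]
  intro s1 hs1
  have r10 : s1.r 10 = K := by
    rw [hs1]
    simp only [St.set_r]
    rw [Function.update_of_ne (by omega), hK]
  set I : ℕ → St → Prop := fun t s' => s'.r 11 = q ^ t ∧
      (∀ x, x < 11 ∨ 15 < x → s'.r x = s.r x) ∧ s'.a = s.a ∧ s'.pos = s.pos with hI
  have hfor := Tri.for_ (env := env) (cap := cap) (i := 14) (e := .reg 10)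
    (p := .asg 11 (.mul (.reg 11) (.const q)))
    (s := s1) (T := 1) I (Q := I K) (by simpa [E.eval, r10] using hKc)
    (by
      refine ⟨?_, fun x hx => ?_, ?_, ?_⟩
      · rw [hs1]; simp [St.set_r]
      · rw [hs1]
        simp only [St.set_r]
        rw [Function.update_of_ne (by omega)]
      · rw [hs1]; rfl
      · rw [hs1]; rfl)
    (by
      simp only [E.eval, r10]
      intro t ht s' ⟨h1, h2, h3, h4⟩
      refine Tri.asg ?_ ?_
      · simp only [E.eval, St.set_r]
        rw [Function.update_of_ne (by omega), h1, ← pow_succ]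
        exact (Nat.pow_le_pow_right hq0 ht).trans hcap
      · refine ⟨?_, fun x hx => ?_, h3, h4⟩
        · simp only [E.eval, St.set_r, Function.update_self]
          rw [Function.update_of_ne (by omega), h1, ← pow_succ]
        · simp only [St.set_r]
          rw [Function.update_of_ne (by omega), Function.update_of_ne (by omega), h2 x hx])
    (by
      simp only [E.eval, r10]
      exact fun _ h => h)
  simp only [E.eval, r10] at hfor
  exact hfor.mono (le_of_eq (by ring)) fun _ h => h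

theorem copy_tri {env : Env} {cap p m j j0 : ℕ} [Fact p.Prime] {s : St} {A : ℕ → ℕ → ZMod p}
    (hj : j0 ≠ j) (h11 : s.r 11 = m) (hm : m * m ≤ cap) (hp : p ≤ cap)
    (hA : Holds (s.a j0) m A) :
    Tri env cap (fill 15 (.mul (.reg 11) (.reg 11)) j (.ld j0 (.reg 15))) s (2 * (m * m) + 1)
      (fun s' => (∀ x, x ≠ 15 → s'.r x = s.r x) ∧ (∀ i, i ≠ j → s'.a i = s.a i) ∧
        Holds (s'.a j) m A ∧ s'.pos = s.pos) := by
  have hlen : (E.mul (.reg 11) (.reg 11)).eval env s = m * m := by simp [E.eval, h11]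
  have h := fill_tri (env := env) (cap := cap) (i := 15) (len := .mul (.reg 11) (.reg 11))
    (j := j) (e := .ld j0 (.reg 15)) (s := s) (by simp [E.NoArr, hj])
    (by rw [hlen]; exact hm) (by
      rw [hlen]
      intro x hx
      have hm0 : 0 < m := by
        rcases Nat.eq_zero_or_pos m with h | h
        · subst h; simp at hx
        · exact h
      simp only [E.eval, St.set_a, St.set_r, Function.update_self]
      have h1 := hA (x / m) (by rw [Nat.div_lt_iff_lt_mul hm0]; exact hx) (x % m)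
        (Nat.mod_lt _ hm0)
      rw [Nat.div_add_mod' x m] at h1
      rw [h1]
      exact (ZMod.val_lt _).le.trans hp)
  rw [hlen] at h
  refine h.mono le_rfl ?_
  rintro s' ⟨h1, h2, h3, h4⟩
  refine ⟨h1, h2, ?_, h4⟩
  intro i hi k hk
  rw [h3, if_pos (dig_lt hi hk)]
  simp only [E.eval, St.set_a, St.set_r, Function.update_self]
  exact hA i hi k hk

end B1

open B1

/-- matrix product of the arrays `9`, `10` -/
def mmC (𝔸 : Alg) : C :=
  .seq (powC 𝔸.q) (.seq (fill 15 (.mul (.reg 11) (.reg 11)) 12 (.ld 9 (.reg 15)))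
    (.seq (dnC 𝔸.q 𝔸.R 4 12 13) (.seq (fill 15 (.mul (.reg 11) (.reg 11)) 14 (.ld 10 (.reg 15)))
      (.seq (dnC 𝔸.q 𝔸.R 5 14 13) (.seq (fill 15 (.reg 13) 15
        (.mod (.mul (.ld 12 (.reg 15)) (.ld 14 (.reg 15))) (.reg 1)))
          (.seq (upC 𝔸.q 𝔸.R 6 15 16)
            (fill 15 (.mul (.reg 11) (.reg 11)) 11 (.ld 15 (.reg 15)))))))))

theorem mm_tri (𝔸 : Alg) : ∃ cM : ℕ, ∀ (env : Env) (cap p K : ℕ) [Fact p.Prime] (s : St)
    (A B : ℕ → ℕ → ZMod p), Base 𝔸 p s → (𝔸.D : ZMod p) ≠ 0 → s.r 10 = K →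
    Holds (s.a 9) (𝔸.q ^ K) A → Holds (s.a 10) (𝔸.q ^ K) B → p ≤ cap → 𝔸.R ^ (K + 1) ≤ cap →
    Tri env cap (mmC 𝔸) s (cM * ((K + 1) * 𝔸.R ^ K)) (fun s' =>
      Holds (s'.a 11) (𝔸.q ^ K) (mulN (𝔸.q ^ K) A B) ∧
      (∀ x, x ≤ 10 ∨ 40 ≤ x → s'.r x = s.r x) ∧ (∀ j, j < 9 ∨ 20 ≤ j → s'.a j = s.a j) ∧
      s'.pos = s.pos) := by
  refine ⟨29, fun env cap p K hpr s A B hB hD hK hA hBm hcap hR => ?_⟩
  have hp0 : 0 < p := hpr.out.pos
  obtain ⟨q, R, D, u, v, w, hq, hev, hsq, hD0, bil⟩ := 𝔸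
  set 𝔸 : Alg := ⟨q, R, D, u, v, w, hq, hev, hsq, hD0, bil⟩ with h𝔸
  have hqR : q * q ≤ R := by rw [← sq]; exact hsq
  have hq0 : 0 < q := by omega
  have hR0 : 0 < R := by nlinarith
  have hRK : R ^ K ≤ cap := (Nat.pow_le_pow_right hR0 (by omega)).trans hR
  have hqq : q ^ K * q ^ K ≤ R ^ K := by
    have := size_le (q := q) (R := R) (K := K) (t := 0) hqR (by omega)
    simpa using this
  have hqK : q ^ K ≤ cap :=
    (Nat.le_mul_of_pos_left _ (Nat.pow_pos hq0)).trans (hqq.trans hRK)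
  have hX1 : 1 ≤ R ^ K := Nat.one_le_pow _ _ hR0
  -- 1
  refine (Tri.seq (t := 2 + K * 2) (t' := 2 * R ^ K + 1 + ((3 + K * (5 + 4 * R ^ K)) +
    (2 * R ^ K + 1 + ((3 + K * (5 + 4 * R ^ K)) + (2 * R ^ K + 1 +
      ((2 + K * (5 + 4 * R ^ K)) + (2 * R ^ K + 1)))))))
    (pow_tri (env := env) (cap := cap) (K := K) hq hK hqK) ?_).mono ?_ fun _ h => h
  swap
  · nlinarith [Nat.zero_le K, Nat.zero_le (K * R ^ K), Nat.le_mul_of_pos_right K hX1]
  intro s1 ⟨b11, br, ba, bp⟩
  -- 2
  refine Tri.seq (t := 2 * R ^ K + 1) ((copy_tri (env := env) (cap := cap) (j := 12) (j0 := 9)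
    (p := p) (A := A) (by omega) b11 (hqq.trans hRK) hcap (by rw [ba]; exact hA)).mono
      (by omega) fun _ h => h) ?_
  intro s2 ⟨cr, ca, cH, cp⟩
  have c11 : s2.r 11 = q ^ K := by rw [cr 11 (by omega), b11]
  have c10 : s2.r 10 = K := by rw [cr 10 (by omega), br 10 (by omega), hK]
  have c1 : s2.r 1 = p := by rw [cr 1 (by omega), br 1 (by omega), hB.p_eq]
  -- 3
  refine Tri.seq (dn_tri (tb := 4) (j := 12) (j' := 13) (env := env) (cap := cap) (U := tU 𝔸 p)
    (A := A) hq hqR (by omega) (by omega) (by omega) c1 c10 c11 hcap hR (by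
      intro r hr d hd e he
      rw [ca 4 (by omega), ba]
      exact hB.u r hr d hd e he) cH) ?_
  intro s3 ⟨dH, d13, dr, da, dp⟩
  have d11 : s3.r 11 = q ^ K := by rw [dr 11 (by omega), c11]
  have d10 : s3.r 10 = K := by rw [dr 10 (by omega), c10]
  have d1 : s3.r 1 = p := by rw [dr 1 (by omega), c1]
  -- 4
  refine Tri.seq (t := 2 * R ^ K + 1) ((copy_tri (env := env) (cap := cap) (j := 14) (j0 := 10)
    (p := p) (A := B) (by omega) d11 (hqq.trans hRK) hcap (by
      rw [da 10 (by omega) (by omega), ca 10 (by omega), ba]; exact hBm)).mono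
      (by omega) fun _ h => h) ?_
  intro s4 ⟨er, ea, eH, ep⟩
  have e11 : s4.r 11 = q ^ K := by rw [er 11 (by omega), d11]
  have e10 : s4.r 10 = K := by rw [er 10 (by omega), d10]
  have e1 : s4.r 1 = p := by rw [er 1 (by omega), d1]
  -- 5
  refine Tri.seq (dn_tri (tb := 5) (j := 14) (j' := 13) (env := env) (cap := cap) (U := tV 𝔸 p)
    (A := B) hq hqR (by omega) (by omega) (by omega) e1 e10 e11 hcap hR (by
      intro r hr d hd e he
      rw [ea 5 (by omega), da 5 (by omega) (by omega), ca 5 (by omega), ba]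
      exact hB.v r hr d hd e he) eH) ?_
  intro s5 ⟨fH, f13, fr, fa, fp⟩
  have f11 : s5.r 11 = q ^ K := by rw [fr 11 (by omega), e11]
  have f10 : s5.r 10 = K := by rw [fr 10 (by omega), e10]
  have f1 : s5.r 1 = p := by rw [fr 1 (by omega), e1]
  have f12 : Holds3 (s5.a 12) (R ^ K) 1 (ydns q R (tU 𝔸 p) A K) := by
    rw [fa 12 (by omega) (by omega), ea 12 (by omega)]
    exact dH
  -- 6
  have hf := fill_tri (env := env) (cap := cap) (i := 15) (len := .reg 13) (j := 15)
    (e := .mod (.mul (.ld 12 (.reg 15)) (.ld 14 (.reg 15))) (.reg 1)) (s := s5)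
    (by simp [E.NoArr]) (by simpa only [E.eval, f13] using hRK) (by
      intro x _
      simp only [E.eval, St.set_a, St.set_r]
      rw [Function.update_of_ne (show (1 : ℕ) ≠ 15 by omega), f1]
      exact (Nat.mod_lt _ hp0).le.trans hcap)
  simp only [E.eval, f13] at hf
  refine Tri.seq hf ?_
  intro s6 ⟨gr, ga, gv, gp⟩
  have g10 : s6.r 10 = K := by rw [gr 10 (by omega), f10]
  have g11 : s6.r 11 = q ^ K := by rw [gr 11 (by omega), f11]
  have g13 : s6.r 13 = R ^ K := by rw [gr 13 (by omega), f13]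
  have g1 : s6.r 1 = p := by rw [gr 1 (by omega), f1]
  have gH : Holds3 (s6.a 15) (R ^ K) 1 (fun ρ i j => ydns q R (tU 𝔸 p) A K ρ i j *
      ydns q R (tV 𝔸 p) B K ρ i j) := by
    intro ρ hρ i hi j hj
    have hlt : (ρ * 1 + i) * 1 + j < R ^ K := by
      have := idx_lt hρ hi hj
      simpa using this
    rw [gv, if_pos hlt]
    simp only [St.set_a, St.set_r, Function.update_self]
    rw [Function.update_of_ne (show (1 : ℕ) ≠ 15 by omega), f1, f12 ρ hρ i hi j hj,
      fH ρ hρ i hi j hj, ZMod.val_mul]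
  -- 7
  refine Tri.seq (up_tri (tb := 6) (j := 15) (j' := 16) (env := env) (cap := cap) (W := tW 𝔸 p)
    hq hqR (by omega) (by omega) (by omega) g1 g10 g13 hcap hR (by
      intro r hr d hd e he
      rw [ga 6 (by omega), fa 6 (by omega) (by omega), ea 6 (by omega),
        da 6 (by omega) (by omega), ca 6 (by omega), ba]
      exact hB.w r hr d hd e he) gH) ?_
  intro s7 ⟨kH, kr, ka, kp⟩
  have k11 : s7.r 11 = q ^ K := by rw [kr 11 (by omega), g11]
  -- 8
  have hY : Holds (s7.a 15) (q ^ K) (mulN (q ^ K) A B) := by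
    intro i hi j hj
    have h1 := kH 0 (by omega) i hi j hj
    rw [zero_mul, zero_add] at h1
    rw [h1, ← yates_alg 𝔸 p hD K A B 0 i hi j hj]
  refine (copy_tri (env := env) (cap := cap) (j := 11) (j0 := 15)
    (p := p) (A := mulN (q ^ K) A B) (by omega) k11 (hqq.trans hRK) hcap hY).mono
      (by omega) ?_
  rintro s8 ⟨lr, la, lH, lp⟩
  refine ⟨lH, fun x hx => ?_, fun j hj => ?_, ?_⟩
  · rw [lr x (by omega), kr x (by omega), gr x (by omega), fr x (by omega), er x (by omega),
      dr x (by omega), cr x (by omega), br x (by omega)]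
  · rw [la j (by omega), ka j (by omega) (by omega), ga j (by omega),
      fa j (by omega) (by omega), ea j (by omega), da j (by omega) (by omega),
      ca j (by omega), ba]
  · rw [lp, kp, gp, fp, ep, dp, cp, bp]

end Vale.Agent.P305.MM
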