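import Vale.Agent.P305.MM.CrossUpd
import Vale.Agent.P305.MM.H559.Level0
import Vale.Agent.P305.MM.H559.Sizes

/-! TASK C (the recursive procedure as a program): level `0` (`H559/Level0.lean`), the loop over
the children (`childC`, `updC` in `CrossUpd.lean`), cost recursion. -/

set_option autoImplicit false

namespace Vale.Agent.P305.MM

open Finset

/-- The recursive procedure. -/
def crossC (𝔸 : Alg) : ℕ → C
  | 0 => H559.cross0C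
  | l + 1 => .for_ (111 + 10 * l) (.mul (.reg 4) (.reg 4))
      (.seq (childC l) (.seq (crossC 𝔸 l) (updC 𝔸 l)))

theorem Alg.cost_rec (𝔸 : Alg) (κ l cX cU : ℕ) :
    1 + 𝔸.q ^ κ * 𝔸.q ^ κ * (1 + (14 * 𝔸.R ^ (κ * (l + 1)) +
      (cX * ((𝔸.q ^ κ) ^ 2 * ((κ * l + 2) * 𝔸.R ^ (κ * l))) +
        cU * ((κ * (l + 1) + 2) * 𝔸.R ^ (κ * (l + 1)))))) ≤
    (16 + cX + cU) * ((𝔸.q ^ κ) ^ 2 * ((κ * (l + 1) + 2) * 𝔸.R ^ (κ * (l + 1)))) := by
  have hq : 0 < 𝔸.q := by have := 𝔸.two_le; omega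
  have hR : 0 < 𝔸.R := by have := 𝔸.four_le; omega
  have h1 : (𝔸.q ^ κ) ^ 2 * 𝔸.R ^ (κ * l) ≤ 𝔸.R ^ (κ * (l + 1)) := by
    rw [Nat.mul_succ, pow_add, mul_comm (𝔸.R ^ (κ * l)), pow_two]
    exact Nat.mul_le_mul_right _ (𝔸.sq_pow_le κ)
  have h2 : κ * l + 2 ≤ κ * (l + 1) + 2 := by
    have : κ * l ≤ κ * (l + 1) := Nat.mul_le_mul_left _ (by omega)
    omega
  have h3 : (𝔸.q ^ κ) ^ 2 * ((κ * l + 2) * 𝔸.R ^ (κ * l)) ≤
      (κ * (l + 1) + 2) * 𝔸.R ^ (κ * (l + 1)) := by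
    calc (𝔸.q ^ κ) ^ 2 * ((κ * l + 2) * 𝔸.R ^ (κ * l))
        = (κ * l + 2) * ((𝔸.q ^ κ) ^ 2 * 𝔸.R ^ (κ * l)) := by ring
      _ ≤ _ := Nat.mul_le_mul h2 h1
  generalize hX : (κ * (l + 1) + 2) * 𝔸.R ^ (κ * (l + 1)) = X at *
  have hRX : 𝔸.R ^ (κ * (l + 1)) ≤ X := by
    rw [← hX]; exact Nat.le_mul_of_pos_left _ (by omega)
  have hX1 : 1 ≤ X := (Nat.pow_pos hR).trans_le hRX
  have hs : 1 ≤ (𝔸.q ^ κ) ^ 2 := Nat.pow_pos (Nat.pow_pos hq)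
  have h4 : cX * ((𝔸.q ^ κ) ^ 2 * ((κ * l + 2) * 𝔸.R ^ (κ * l))) ≤ cX * X :=
    Nat.mul_le_mul_left _ h3
  have h5 : 1 ≤ (𝔸.q ^ κ) ^ 2 * X := Nat.mul_pos hs hX1
  calc _ ≤ (𝔸.q ^ κ) ^ 2 * X + 𝔸.q ^ κ * 𝔸.q ^ κ * (X + (14 * X + (cX * X + cU * X))) := by
        refine Nat.add_le_add h5 (Nat.mul_le_mul_left _ ?_)
        omega
    _ = (16 + cX + cU) * ((𝔸.q ^ κ) ^ 2 * X) := by ring

theorem cross_tri (𝔸 : Alg) (l : ℕ) : ∃ cX : ℕ, ∀ (env : Env) (cap p κ : ℕ) [Fact p.Prime] (s : St)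
    (ND : (ℕ → ℕ → ZMod p) × (ℕ → ℕ → ZMod p)), Base 𝔸 p s → (𝔸.D : ZMod p) ≠ 0 → 1 ≤ κ →
    s.r 4 = 𝔸.q ^ κ → s.r 5 = κ → (∀ l' ≤ l, s.r (100 + 10 * l') = (𝔸.q ^ κ) ^ l') →
    Holds (s.a (20 + 2 * l)) (2 * (𝔸.q ^ κ) ^ l) ND.1 →
    Holds (s.a (21 + 2 * l)) ((𝔸.q ^ κ) ^ l) ND.2 → p ≤ cap → 𝔸.R ^ (κ * l + 2) ≤ cap →
    Tri env cap (crossC 𝔸 l) s (cX * ((𝔸.q ^ κ) ^ 2 * ((κ * l + 2) * 𝔸.R ^ (κ * l)))) (fun s' =>
      Holds (s'.a (20 + 2 * l)) (2 * (𝔸.q ^ κ) ^ l) (crossF (𝔸.q ^ κ) l ND).1 ∧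
      Holds (s'.a (21 + 2 * l)) ((𝔸.q ^ κ) ^ l) (crossF (𝔸.q ^ κ) l ND).2 ∧
      (∀ x, x < 10 ∨ 110 + 10 * l ≤ x ∨ (∃ l' ≤ l, x = 100 + 10 * l') → s'.r x = s.r x) ∧
      (∀ j, j < 9 ∨ 22 + 2 * l ≤ j → s'.a j = s.a j) ∧ s'.pos = s.pos) := by
  induction l with
  | zero =>
    refine ⟨11, ?_⟩
    intro env cap p κ _ s ND hB _ _ _ _ _ hN hD hp hcap
    have hq : 0 < 𝔸.q := by have := 𝔸.two_le; omega
    have h4 := 𝔸.four_le
    have hc4 : 4 ≤ cap := by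
      have : 4 ≤ 𝔸.R ^ 2 := by nlinarith
      rw [Nat.mul_zero, Nat.zero_add] at hcap
      omega
    have hs : 1 ≤ (𝔸.q ^ κ) ^ 2 := Nat.pow_pos (Nat.pow_pos hq)
    refine (H559.cross0_tri 𝔸 (𝔸.q ^ κ) ND hB hN hD hp hc4).mono ?_ ?_
    · rw [Nat.mul_zero, pow_zero]
      omega
    · rintro s' ⟨k1, k2, k3, k4, k5⟩
      refine ⟨k1, k2, ?_, ?_, k5⟩
      · intro x hx
        have hx' : x ≠ 40 ∧ x ≠ 41 := by
          rcases hx with hx | hx | ⟨l', _, rfl⟩ <;> omega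
        exact k3 x hx'.1 hx'.2
      · intro j hj
        exact k4 j (by omega) (by omega)
  | succ l ih =>
    obtain ⟨cX, hX⟩ := ih
    obtain ⟨cU, hU⟩ := upd_tri 𝔸 l
    refine ⟨16 + cX + cU, ?_⟩
    intro env cap p κ _ s ND hB hD0 hκ h4 h5 hl hN hD hp hcap
    have hcap0 := 𝔸.cap_le hcap
    have hcap1 := 𝔸.cap_le' hcap
    have hq : 0 < 𝔸.q := by have := 𝔸.two_le; omega
    have hσ1 : 0 < 𝔸.q ^ κ := Nat.pow_pos hq
    obtain ⟨f, hf⟩ : ∃ f : ℕ → (ℕ → ℕ → ZMod p) × (ℕ → ℕ → ZMod p) →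
        (ℕ → ℕ → ZMod p) × (ℕ → ℕ → ZMod p), f = fun t ND' =>
      let r := crossF (𝔸.q ^ κ) l (childF (𝔸.q ^ κ) l t ND')
      (updN ((𝔸.q ^ κ) ^ l) ((𝔸.q ^ κ) ^ (l + 1)) (t / 𝔸.q ^ κ) (t % 𝔸.q ^ κ) ND'.1 r.1 r.2,
       updD ((𝔸.q ^ κ) ^ l) (t / 𝔸.q ^ κ) (t % 𝔸.q ^ κ) ND'.2 r.2) := ⟨_, rfl⟩
    have hlen : (E.mul (.reg 4) (.reg 4)).eval env s = 𝔸.q ^ κ * 𝔸.q ^ κ := by
      simp only [E.eval, h4]
    have hcr : crossF (𝔸.q ^ κ) (l + 1) ND = itN f ND (𝔸.q ^ κ * 𝔸.q ^ κ) := by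
      rw [crossF, hf]
    rw [hcr]
    have hmain := Tri.for_ (env := env) (cap := cap) (i := 111 + 10 * l)
      (e := .mul (.reg 4) (.reg 4)) (p := .seq (childC l) (.seq (crossC 𝔸 l) (updC 𝔸 l))) (s := s)
      (T := 14 * 𝔸.R ^ (κ * (l + 1)) +
        (cX * ((𝔸.q ^ κ) ^ 2 * ((κ * l + 2) * 𝔸.R ^ (κ * l))) +
          cU * ((κ * (l + 1) + 2) * 𝔸.R ^ (κ * (l + 1)))))
      (fun k s' =>
        Holds (s'.a (22 + 2 * l)) (2 * (𝔸.q ^ κ) ^ (l + 1)) (itN f ND k).1 ∧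
        Holds (s'.a (23 + 2 * l)) ((𝔸.q ^ κ) ^ (l + 1)) (itN f ND k).2 ∧
        (∀ x, x < 10 ∨ 120 + 10 * l ≤ x ∨ (∃ l' ≤ l + 1, x = 100 + 10 * l') → s'.r x = s.r x) ∧
        (∀ j, j < 9 ∨ 24 + 2 * l ≤ j → s'.a j = s.a j) ∧ s'.pos = s.pos)
      (Q := fun s' =>
        Holds (s'.a (20 + 2 * (l + 1))) (2 * (𝔸.q ^ κ) ^ (l + 1))
          (itN f ND (𝔸.q ^ κ * 𝔸.q ^ κ)).1 ∧
        Holds (s'.a (21 + 2 * (l + 1))) ((𝔸.q ^ κ) ^ (l + 1))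
          (itN f ND (𝔸.q ^ κ * 𝔸.q ^ κ)).2 ∧
        (∀ x, x < 10 ∨ 110 + 10 * (l + 1) ≤ x ∨ (∃ l' ≤ l + 1, x = 100 + 10 * l') →
          s'.r x = s.r x) ∧
        (∀ j, j < 9 ∨ 22 + 2 * (l + 1) ≤ j → s'.a j = s.a j) ∧ s'.pos = s.pos)
      ?_ ?_ ?_ ?_
    · refine hmain.mono ?_ (fun _ h => h)
      rw [hlen]
      exact 𝔸.cost_rec κ l cX cU
    · -- the number of rounds is at most `cap`
      rw [hlen]
      have e : (𝔸.q ^ κ) ^ (l + 1) = (𝔸.q ^ κ) ^ l * 𝔸.q ^ κ := pow_succ _ _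
      have : 1 * 𝔸.q ^ κ ≤ (𝔸.q ^ κ) ^ l * 𝔸.q ^ κ :=
        Nat.mul_le_mul_right _ (Nat.pow_pos hσ1)
      rw [one_mul, ← e] at this
      calc 𝔸.q ^ κ * 𝔸.q ^ κ ≤ (2 * (𝔸.q ^ κ) ^ (l + 1)) * (2 * (𝔸.q ^ κ) ^ (l + 1)) :=
            Nat.mul_le_mul (by omega) (by omega)
        _ ≤ cap := hcap1
    · refine ⟨?_, ?_, fun _ _ => rfl, fun _ _ => rfl, rfl⟩
      · have e : 22 + 2 * l = 20 + 2 * (l + 1) := by ring
        rw [e]; exact hN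
      · have e : 23 + 2 * l = 21 + 2 * (l + 1) := by ring
        rw [e]; exact hD
    · -- one round
      rw [hlen]
      rintro k hk s1 ⟨a1, a2, a3, a4, a5⟩
      have u : ∀ x, x < 10 ∨ 120 + 10 * l ≤ x ∨ (∃ l' ≤ l + 1, x = 100 + 10 * l') →
          (s1.set (111 + 10 * l) k).r x = s.r x := by
        intro x hx
        have hx' : x ≠ 111 + 10 * l := by
          rcases hx with hx | hx | ⟨l', _, rfl⟩ <;> omega
        rw [St.set_r, Function.update_of_ne hx', a3 x hx]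
      have e111 : (s1.set (111 + 10 * l) k).r (111 + 10 * l) = k := by
        rw [St.set_r, Function.update_self]
      have e4 : (s1.set (111 + 10 * l) k).r 4 = 𝔸.q ^ κ := by rw [u 4 (by omega), h4]
      have e100 : (s1.set (111 + 10 * l) k).r (100 + 10 * l) = (𝔸.q ^ κ) ^ l := by
        rw [u _ (Or.inr (Or.inr ⟨l, by omega, rfl⟩)), hl l (by omega)]
      have e110 : (s1.set (111 + 10 * l) k).r (110 + 10 * l) = (𝔸.q ^ κ) ^ (l + 1) := by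
        have e : 110 + 10 * l = 100 + 10 * (l + 1) := by ring
        rw [e, u _ (Or.inr (Or.inr ⟨l + 1, le_rfl, rfl⟩)), hl (l + 1) le_rfl]
      refine Tri.seq (child_tri 𝔸 l env cap p κ (s1.set (111 + 10 * l) k) (itN f ND k) k
        e4 e100 e110 e111 hk (by simpa only [St.set_a] using a1) (by simpa only [St.set_a] using a2)
        hp hcap) ?_
      rintro s2 ⟨b1, b2, b3, b4, b5, b6, b7⟩
      have u2 : ∀ x, x < 10 ∨ 120 + 10 * l ≤ x ∨ (∃ l' ≤ l + 1, x = 100 + 10 * l') →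
          s2.r x = s.r x := by
        intro x hx
        have hx' : x ≠ 40 ∧ x ≠ 112 + 10 * l ∧ x ≠ 113 + 10 * l := by
          rcases hx with hx | hx | ⟨l', _, rfl⟩ <;> omega
        rw [b5 x hx'.1 hx'.2.1 hx'.2.2, u x hx]
      have w2 : ∀ j, j < 9 ∨ 24 + 2 * l ≤ j → s2.a j = s.a j := by
        intro j hj
        rw [b6 j (by omega) (by omega), St.set_a, a4 j hj]
      have hB2 : Base 𝔸 p s2 := hB.of_frame (u2 1 (by omega)) (w2 3 (by omega)) (w2 4 (by omega))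
        (w2 5 (by omega)) (w2 6 (by omega))
      refine Tri.seq (hX env cap p κ s2 (childF (𝔸.q ^ κ) l k (itN f ND k)) hB2 hD0 hκ
        (by rw [u2 4 (by omega), h4]) (by rw [u2 5 (by omega), h5])
        (fun l' hl' => by
          rw [u2 _ (Or.inr (Or.inr ⟨l', by omega, rfl⟩)), hl l' (by omega)])
        b1 b2 hp hcap0) ?_
      rintro s3 ⟨c1, c2, c3, c4, c5⟩
      have u3 : ∀ x, x < 10 ∨ 120 + 10 * l ≤ x ∨ (∃ l' ≤ l + 1, x = 100 + 10 * l') →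
          s3.r x = s.r x := by
        intro x hx
        have hx' : x < 10 ∨ 110 + 10 * l ≤ x ∨ (∃ l' ≤ l, x = 100 + 10 * l') := by
          rcases hx with hx | hx | ⟨l', hl', rfl⟩
          · exact Or.inl hx
          · exact Or.inr (Or.inl (by omega))
          · by_cases h : l' ≤ l
            · exact Or.inr (Or.inr ⟨l', h, rfl⟩)
            · exact Or.inr (Or.inl (by omega))
        rw [c3 x hx', u2 x hx]
      have w3 : ∀ j, j < 9 ∨ 24 + 2 * l ≤ j → s3.a j = s.a j := by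
        intro j hj
        rw [c4 j (by omega), w2 j hj]
      have hB3 : Base 𝔸 p s3 := hB.of_frame (u3 1 (by omega)) (w3 3 (by omega)) (w3 4 (by omega))
        (w3 5 (by omega)) (w3 6 (by omega))
      have d22 : s3.a (22 + 2 * l) = s1.a (22 + 2 * l) := by
        rw [c4 _ (by omega), b6 _ (by omega) (by omega), St.set_a]
      have d23 : s3.a (23 + 2 * l) = s1.a (23 + 2 * l) := by
        rw [c4 _ (by omega), b6 _ (by omega) (by omega), St.set_a]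
      refine (hU env cap p κ s3 (itN f ND k)
        (crossF (𝔸.q ^ κ) l (childF (𝔸.q ^ κ) l k (itN f ND k))) k hB3 hD0
        (by rw [u3 4 (by omega), h4]) (by rw [u3 5 (by omega), h5])
        (by rw [u3 _ (Or.inr (Or.inr ⟨l, by omega, rfl⟩)), hl l (by omega)])
        (by
          have e : 110 + 10 * l = 100 + 10 * (l + 1) := by ring
          rw [e, u3 _ (Or.inr (Or.inr ⟨l + 1, le_rfl, rfl⟩)), hl (l + 1) le_rfl])
        (by rw [c3 _ (by omega), b3]) (by rw [c3 _ (by omega), b4]) hk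
        (by rw [d22]; exact a1) (by rw [d23]; exact a2) c1 c2 hp hcap).mono le_rfl ?_
      rintro s4 ⟨g1, g2, g3, g4, g5⟩
      refine ⟨?_, ?_, ?_, ?_, ?_⟩
      · rw [itN, hf]
        rw [hf] at g1
        exact g1
      · rw [itN, hf]
        rw [hf] at g2
        exact g2
      · intro x hx
        have hx' : (x < 10 ∨ 100 ≤ x) ∧ x ≠ 114 + 10 * l := by
          rcases hx with hx | hx | ⟨l', _, rfl⟩ <;> omega
        rw [g3 x hx'.1 hx'.2, u3 x hx]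
      · intro j hj
        rw [g4 j (by omega) (by omega) (by omega), w3 j hj]
      · rw [g5, c5, b7, St.set_pos, a5]
    · rw [hlen]
      rintro s' ⟨a1, a2, a3, a4, a5⟩
      refine ⟨?_, ?_, ?_, ?_, a5⟩
      · have e : 22 + 2 * l = 20 + 2 * (l + 1) := by ring
        rw [← e]; exact a1
      · have e : 23 + 2 * l = 21 + 2 * (l + 1) := by ring
        rw [← e]; exact a2
      · intro x hx
        apply a3 x
        rcases hx with hx | hx | hx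
        · exact Or.inl hx
        · exact Or.inr (Or.inl (by omega))
        · exact Or.inr (Or.inr hx)
      · intro j hj
        exact a4 j (by omega)

end Vale.Agent.P305.MM
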