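import Vale.Agent.P305.MM.CrossPure

/-! TASK D (pure correctness of the recursive procedure): `cross_correct` is proved in
`Vale.Agent.P305.MM.CrossPure`. -/
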