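import Vale.Agent.P305.MM.Defs2
import Vale.Agent.P305.MM.H81.Alg

/-! TASK E1 (nonsingular alternating matrices and perfect matchings). By induction on a set
`A` of vertices: if no nonzero `z` supported on `A` has `T z = 0` on `A` then `A` is perfectly
matched by pairs with `T u v ≠ 0`. (MM/H81/Alg.lean has this in other notation.) -/

set_option autoImplicit false

namespace Vale.Agent.P305.MM

open Finset

namespace E1

theorem TS_apply {F : Type} [Field F] {N : ℕ} (x : Fin N → Fin N → F)
    (S : Finset (Fin N × Fin N)) (a b : Fin N) : TS x S a b =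
      ∑ e ∈ S, x e.1 e.2 * ((if a = e.1 ∧ b = e.2 then 1 else 0) -
        (if a = e.2 ∧ b = e.1 then 1 else 0)) := by
  unfold TS
  rw [Matrix.sum_apply]
  rfl

theorem alt_conv {F : Type} [Field F] {V : Type} [Fintype V] [DecidableEq V] {T : Matrix V V F}
    (hT : Alt T) : H81.Alt T := ⟨fun i j => hT.1 j i, hT.2⟩

theorem smul_Kab {F : Type} [Field F] {V : Type} [Fintype V] [DecidableEq V] (u v : V) (δ : F) :
    δ • (Kab u v : V → V → F) = (H81.single2 u v δ : Matrix V V F) := by
  funext a b
  change δ * ((if a = u ∧ b = v then 1 else 0) - (if a = v ∧ b = u then 1 else 0)) =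
    Matrix.single u v δ a b - Matrix.single v u δ a b
  rw [Matrix.single_apply, Matrix.single_apply]
  have h1 : (u = a ∧ v = b) ↔ (a = u ∧ b = v) := by
    constructor <;> rintro ⟨h, h'⟩ <;> exact ⟨h.symm, h'.symm⟩
  have h2 : (v = a ∧ u = b) ↔ (a = v ∧ b = u) := by
    constructor <;> rintro ⟨h, h'⟩ <;> exact ⟨h.symm, h'.symm⟩
  simp only [h1, h2]
  split_ifs <;> ring

end E1

theorem alt_TS {F : Type} [Field F] {N : ℕ} (x : Fin N → Fin N → F) (S : Finset (Fin N × Fin N)) :
    Alt (TS x S) := by
  constructor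
  · intro u v
    rw [E1.TS_apply, E1.TS_apply, ← Finset.sum_neg_distrib]
    refine Finset.sum_congr rfl fun e _ => ?_
    have h1 : (u = e.1 ∧ v = e.2) ↔ (v = e.2 ∧ u = e.1) := and_comm
    have h2 : (u = e.2 ∧ v = e.1) ↔ (v = e.1 ∧ u = e.2) := and_comm
    simp only [h1, h2]
    ring
  · intro u
    rw [E1.TS_apply]
    refine Finset.sum_eq_zero fun e _ => ?_
    have h1 : (u = e.1 ∧ u = e.2) ↔ (u = e.2 ∧ u = e.1) := and_comm
    simp only [h1]
    ring

theorem hasPM_of_det {F : Type} [Field F] {N : ℕ} (x : Fin N → Fin N → F)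
    (S : Finset (Fin N × Fin N)) (hS : ∀ e ∈ S, e.1 < e.2) (h : (TS x S).det ≠ 0) : HasPM S := by
  have hT : TS x S * (TS x S)⁻¹ = 1 := Matrix.mul_nonsing_inv _ (isUnit_iff_ne_zero.mpr h)
  obtain ⟨m, hm⟩ := H81.exists_mate (E1.alt_conv (alt_TS x S)) hT
  refine ⟨S.filter fun e => m e.1 = e.2, Finset.filter_subset _ _,
    fun e he => hS e (Finset.mem_filter.mp he).1, fun v => ?_⟩
  have hne := (hm v).2
  rw [E1.TS_apply] at hne
  obtain ⟨e, he, hv⟩ := Finset.exists_ne_zero_of_sum_ne_zero hne
  have hor : (v = e.1 ∧ m v = e.2) ∨ (v = e.2 ∧ m v = e.1) := by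
    by_contra hc
    push Not at hc
    apply hv
    rw [if_neg (fun h1 => hc.1 h1.1 h1.2), if_neg (fun h1 => hc.2 h1.1 h1.2)]
    ring
  -- every pair of the matching at `v`
  have key : ∀ e' : Fin N × Fin N, e'.1 < e'.2 → m e'.1 = e'.2 → (e'.1 = v ∨ e'.2 = v) →
      (e'.1 = v ∧ e'.2 = m v) ∨ (e'.1 = m v ∧ e'.2 = v) := by
    intro e' _ h2 h3
    rcases h3 with h3 | h3
    · left; exact ⟨h3, by rw [← h2, h3]⟩
    · right
      refine ⟨?_, h3⟩
      rw [← h3, ← h2, (hm e'.1).1]
  have hmem : e ∈ S.filter fun e => m e.1 = e.2 := by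
    refine Finset.mem_filter.mpr ⟨he, ?_⟩
    rcases hor with h1 | h1
    · rw [← h1.1, h1.2]
    · rw [← h1.2, (hm v).1, h1.1]
  have hev : e.1 = v ∨ e.2 = v := by
    rcases hor with h1 | h1
    · left; exact h1.1.symm
    · right; exact h1.1.symm
  refine ⟨e, ⟨hmem, hev⟩, ?_⟩
  rintro e' ⟨he', hv'⟩
  obtain ⟨he1, he2⟩ := Finset.mem_filter.mp he'
  have k1 := key e (hS e he) (Finset.mem_filter.mp hmem).2 hev
  have k2 := key e' (hS e' he1) he2 hv'
  have l1 := hS e he
  have l2 := hS e' he1
  rcases k1 with ⟨a1, a2⟩ | ⟨a1, a2⟩ <;> rcases k2 with ⟨b1, b2⟩ | ⟨b1, b2⟩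
  · exact Prod.ext (b1.trans a1.symm) (b2.trans a2.symm)
  · rw [a1, a2] at l1; rw [b1, b2] at l2; exact absurd l1 (lt_asymm l2)
  · rw [a1, a2] at l1; rw [b1, b2] at l2; exact absurd l1 (lt_asymm l2)
  · exact Prod.ext (b1.trans a1.symm) (b2.trans a2.symm)

theorem det_of_isPM {F : Type} [Field F] {N : ℕ} (x : Fin N → Fin N → F)
    (hx : ∀ u v, u < v → x u v ≠ 0) (M : Finset (Fin N × Fin N)) (hM : IsPM M) :
    (TS x M).det ≠ 0 := by
  intro hdet
  obtain ⟨y, hy0, hy⟩ := Matrix.exists_mulVec_eq_zero_iff.mpr hdet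
  apply hy0
  have hentry : ∀ w : Fin N, ∑ e ∈ M, x e.1 e.2 * ((if w = e.1 then y e.2 else 0) -
      (if w = e.2 then y e.1 else 0)) = 0 := by
    intro w
    have h1 := congrFun hy w
    rw [Matrix.mulVec, dotProduct] at h1
    simp only [Pi.zero_apply] at h1
    refine Eq.trans ?_ h1
    simp only [E1.TS_apply, Finset.sum_mul]
    rw [Finset.sum_comm]
    refine Finset.sum_congr rfl fun e _ => ?_
    have h2 : ∀ b : Fin N, x e.1 e.2 * ((if w = e.1 ∧ b = e.2 then (1 : F) else 0) -
        (if w = e.2 ∧ b = e.1 then 1 else 0)) * y b =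
        x e.1 e.2 * ((if b = e.2 then (if w = e.1 then y b else 0) else 0) -
          (if b = e.1 then (if w = e.2 then y b else 0) else 0)) := by
      intro b
      simp only [ite_and]
      split_ifs <;> ring
    rw [Finset.sum_congr rfl fun b _ => h2 b, ← Finset.mul_sum, Finset.sum_sub_distrib,
      Finset.sum_ite_eq', Finset.sum_ite_eq', if_pos (Finset.mem_univ _),
      if_pos (Finset.mem_univ _)]
  funext v
  obtain ⟨e, ⟨he, hev⟩, huniq⟩ := hM.2 v
  have hlt := hM.1 e he
  rcases hev with h1 | h1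
  · -- v = e.1, look at w = e.2
    have h2 := hentry e.2
    rw [Finset.sum_eq_single e] at h2
    · rw [if_neg hlt.ne', if_pos rfl, zero_sub, mul_neg, neg_eq_zero] at h2
      rw [← h1]
      exact (mul_eq_zero.mp h2).resolve_left (hx _ _ hlt)
    · intro e' he' hne
      obtain ⟨e₀, _, hu⟩ := hM.2 e.2
      have e1 : e = e₀ := hu e ⟨he, Or.inr rfl⟩
      have n1 : e.2 ≠ e'.1 := by
        intro hc
        exact hne ((hu e' ⟨he', Or.inl hc.symm⟩).trans e1.symm)
      have n2 : e.2 ≠ e'.2 := by
        intro hc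
        exact hne ((hu e' ⟨he', Or.inr hc.symm⟩).trans e1.symm)
      rw [if_neg n1, if_neg n2, sub_zero, mul_zero]
    · intro hc; exact absurd he hc
  · have h2 := hentry e.1
    rw [Finset.sum_eq_single e] at h2
    · rw [if_pos rfl, if_neg hlt.ne, sub_zero] at h2
      rw [← h1]
      exact (mul_eq_zero.mp h2).resolve_left (hx _ _ hlt)
    · intro e' he' hne
      obtain ⟨e₀, _, hu⟩ := hM.2 e.1
      have e1 : e = e₀ := hu e ⟨he, Or.inl rfl⟩
      have n1 : e.1 ≠ e'.1 := by
        intro hc
        exact hne ((hu e' ⟨he', Or.inl hc.symm⟩).trans e1.symm)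
      have n2 : e.1 ≠ e'.2 := by
        intro hc
        exact hne ((hu e' ⟨he', Or.inr hc.symm⟩).trans e1.symm)
      rw [if_neg n1, if_neg n2, sub_zero, mul_zero]
    · intro hc; exact absurd he hc

/-- At most one weight makes the matrix singular. -/
theorem bad_unique {F : Type} [Field F] {V : Type} [Fintype V] [DecidableEq V] (T : Matrix V V F)
    (hT : Alt T) (hdet : T.det ≠ 0) (u v : V) (x y : F) (hx : (T + x • Kab u v).det = 0)
    (hy : (T + y • Kab u v).det = 0) : x = y := by
  have hTN : T * T⁻¹ = 1 := Matrix.mul_nonsing_inv _ (isUnit_iff_ne_zero.mpr hdet)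
  have key : ∀ z : F, (T + z • Kab u v).det = 0 → 1 - z * T⁻¹ u v = 0 := by
    intro z hz
    by_contra hc
    have h1 := H81.test_ok (E1.alt_conv hT) hTN u v z hc
    have h2 : (T + H81.single2 u v z).det ≠ 0 := by
      intro h3
      have h4 := congrArg Matrix.det h1
      rw [Matrix.det_mul, h3, zero_mul, Matrix.det_one] at h4
      exact zero_ne_one h4
    apply h2
    rw [← hz]
    exact congrArg (fun K : Matrix V V F => (T + K).det) (E1.smul_Kab u v z).symm
  have h1 := key x hx
  have h2 := key y hy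
  have h3 : T⁻¹ u v ≠ 0 := by
    intro hc
    rw [hc, mul_zero, sub_zero] at h1
    exact one_ne_zero h1
  apply mul_right_cancel₀ h3
  linear_combination h2 - h1

namespace E1

theorem TS_pendant {F : Type} [Field F] (h : ℕ) (x : Fin (2 * h) → Fin (2 * h) → F)
    (u v : Fin (2 * h)) : TS x (PS (2 * h) h) u v =
      if (v : ℕ) = u + h then x u v else if (u : ℕ) = v + h then - x v u else 0 := by
  rw [TS_apply]
  have hu := u.2
  have hv := v.2
  by_cases h1 : (v : ℕ) = u + h
  · rw [if_pos h1, Finset.sum_eq_single (u, v)]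
    · have : ¬ (u = v) := by
        intro hc
        rw [hc] at h1
        have : h = 0 := by omega
        omega
      have h3 : ¬ (u = v ∧ v = u) := fun h4 => this h4.1
      simp only [if_true, and_self]
      rw [if_neg h3]
      ring
    · intro e he hne
      have he' : (e.2 : ℕ) = e.1 + h := by simpa [PS] using he
      have n1 : ¬ (u = e.1 ∧ v = e.2) := fun h3 => hne (Prod.ext h3.1.symm h3.2.symm)
      have n2 : ¬ (u = e.2 ∧ v = e.1) := by
        rintro ⟨h3, h4⟩
        rw [h3, h4] at h1
        omega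
      rw [if_neg n1, if_neg n2, sub_zero, mul_zero]
    · intro hc
      exact absurd (by simpa [PS] using h1) hc
  · rw [if_neg h1]
    by_cases h2 : (u : ℕ) = v + h
    · rw [if_pos h2, Finset.sum_eq_single (v, u)]
      · have n1 : ¬ (u = v ∧ v = u) := by
          rintro ⟨h3, _⟩
          rw [h3] at h2
          omega
        simp only [and_self, if_true]
        rw [if_neg n1]
        ring
      · intro e he hne
        have he' : (e.2 : ℕ) = e.1 + h := by simpa [PS] using he
        have n1 : ¬ (u = e.1 ∧ v = e.2) := by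
          rintro ⟨h3, h4⟩
          rw [h3, h4] at h2
          omega
        have n2 : ¬ (u = e.2 ∧ v = e.1) := fun h3 => hne (Prod.ext h3.2.symm h3.1.symm)
        rw [if_neg n1, if_neg n2, sub_zero, mul_zero]
      · intro hc
        exact absurd (by simpa [PS] using h2) hc
    · rw [if_neg h2]
      refine Finset.sum_eq_zero fun e he => ?_
      have he' : (e.2 : ℕ) = e.1 + h := by simpa [PS] using he
      have n1 : ¬ (u = e.1 ∧ v = e.2) := by
        rintro ⟨h3, h4⟩
        rw [h3, h4] at h1
        exact h1 he'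
      have n2 : ¬ (u = e.2 ∧ v = e.1) := by
        rintro ⟨h3, h4⟩
        rw [h3, h4] at h2
        exact h2 he'
      rw [if_neg n1, if_neg n2, sub_zero, mul_zero]

end E1

/-- The inverse of the initial matrix. -/
theorem inv_pendant {F : Type} [Field F] (h : ℕ) (x : Fin (2 * h) → Fin (2 * h) → F)
    (hx : ∀ u v, x u v ≠ 0) (u v : Fin (2 * h)) :
    (TS x (PS (2 * h) h))⁻¹ u v =
      if (v : ℕ) = u + h then - (x u v)⁻¹ else if (u : ℕ) = v + h then (x v u)⁻¹ else 0 := by
  set Ni : Matrix (Fin (2 * h)) (Fin (2 * h)) F := fun u v =>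
    if (v : ℕ) = u + h then - (x u v)⁻¹ else if (u : ℕ) = v + h then (x v u)⁻¹ else 0 with hNi
  have hmul : TS x (PS (2 * h) h) * Ni = 1 := by
    ext a b
    rw [Matrix.mul_apply, Matrix.one_apply]
    have ha := a.2
    have hb := b.2
    by_cases hah : (a : ℕ) < h
    · have hw : (a : ℕ) + h < 2 * h := by omega
      rw [Finset.sum_eq_single (⟨a + h, hw⟩ : Fin (2 * h))]
      · rw [E1.TS_pendant, if_pos rfl, hNi]
        simp only
        rw [if_neg (by omega)]
        by_cases hab : a = b
        · subst hab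
          rw [if_pos rfl, if_pos rfl, mul_inv_cancel₀ (hx _ _)]
        · have : ¬ ((a : ℕ) + h = b + h) := by
            intro hc
            exact hab (Fin.ext (by omega))
          rw [if_neg this, if_neg hab, mul_zero]
      · intro w _ hw'
        have n1 : ¬ ((w : ℕ) = a + h) := fun hc => hw' (Fin.ext hc)
        have n2 : ¬ ((a : ℕ) = w + h) := by omega
        rw [E1.TS_pendant, if_neg n1, if_neg n2, zero_mul]
      · intro hc; exact absurd (Finset.mem_univ _) hc
    · have hw : (a : ℕ) - h < 2 * h := by omega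
      rw [Finset.sum_eq_single (⟨a - h, hw⟩ : Fin (2 * h))]
      · have n1 : ¬ ((a : ℕ) - h = a + h) := by omega
        have n2 : (a : ℕ) = a - h + h := by omega
        rw [E1.TS_pendant, if_neg n1, if_pos n2, hNi]
        simp only
        by_cases hab : a = b
        · subst hab
          rw [if_pos n2, if_pos rfl, neg_mul_neg, mul_inv_cancel₀ (hx _ _)]
        · have n3 : ¬ ((b : ℕ) = a - h + h) := by
            intro hc
            exact hab (Fin.ext (by omega))
          have n4 : ¬ ((a : ℕ) - h = b + h) := by omega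
          rw [if_neg n3, if_neg n4, if_neg hab, mul_zero]
      · intro w _ hw'
        have n1 : ¬ ((w : ℕ) = a + h) := by
          have := w.2
          omega
        have n2 : ¬ ((a : ℕ) = w + h) := by
          intro hc
          exact hw' (Fin.ext (by simp only; omega))
        rw [E1.TS_pendant, if_neg n1, if_neg n2, zero_mul]
      · intro hc; exact absurd (Finset.mem_univ _) hc
  rw [Matrix.inv_eq_right_inv hmul]

end Vale.Agent.P305.MM
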