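import Vale.Agent.P305.MM.TE1
import Vale.Agent.P305.MM.H81.Prob

/-! TASK E3 (probability of a chain): for each `k`, given the other words, at most one word
`w e_k` makes the matrix `k + 1` singular while matrix `k` is nonsingular (`bad_unique`). -/

set_option autoImplicit false

namespace Vale.Agent.P305.MM

open Finset

theorem wt_ne_zero {N b p : ℕ} [Fact p.Prime] (hp : 2 ^ b < p) (w : Fin N → Fin N → Fin (2 ^ b))
    (u v : Fin N) : wt p w u v ≠ 0 := by
  unfold wt
  intro h
  have h1 : (((w u v : ℕ) + 1 : ℕ) : ZMod p) = 0 := by push_cast; exact h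
  rw [ZMod.natCast_eq_zero_iff] at h1
  have h2 := Nat.le_of_dvd (by omega) h1
  have h3 := (w u v).2
  omega

namespace E3

/-- Value of a word. -/
def wval {b : ℕ} (p : ℕ) (s : Fin (2 ^ b)) : ZMod p := ((s : ℕ) : ZMod p) + 1

theorem wval_inj {b p : ℕ} (hp : 2 ^ b < p) : Function.Injective (wval (b := b) p) := by
  intro s t h
  have h1 : ((s : ℕ) : ZMod p) = ((t : ℕ) : ZMod p) := add_right_cancel h
  rw [ZMod.natCast_eq_natCast_iff] at h1
  have h2 := h1
  unfold Nat.ModEq at h2
  rw [Nat.mod_eq_of_lt (by have := s.2; omega), Nat.mod_eq_of_lt (by have := t.2; omega)] at h2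
  exact Fin.ext h2

theorem TS_insert {F : Type} [Field F] {N : ℕ} (x : Fin N → Fin N → F)
    (S : Finset (Fin N × Fin N)) (e : Fin N × Fin N) (he : e ∉ S) :
    TS x (insert e S) = TS x S + x e.1 e.2 • Kab e.1 e.2 := by
  unfold TS
  rw [Finset.sum_insert he, add_comm]

theorem TS_congr {F : Type} [Field F] {N : ℕ} (x y : Fin N → Fin N → F)
    (S : Finset (Fin N × Fin N)) (h : ∀ e ∈ S, x e.1 e.2 = y e.1 e.2) : TS x S = TS y S := by
  unfold TS
  exact Finset.sum_congr rfl fun e he => by rw [h e he]

/-- One step: at most `|Ω| / 2^b` of the words turn a nonsingular matrix into a singular one. -/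
theorem step_count {N b p : ℕ} [Fact p.Prime] (hp : 2 ^ b < p) (S : Finset (Fin N × Fin N))
    (e : Fin N × Fin N) (he : e ∉ S) :
    2 ^ b * Nat.card {w : Fin N × Fin N → Fin (2 ^ b) //
      (TS (fun u v => wval p (w (u, v))) S).det ≠ 0 ∧
      (TS (fun u v => wval p (w (u, v))) (insert e S)).det = 0} ≤
      Nat.card (Fin N × Fin N → Fin (2 ^ b)) := by
  classical
  set x₀ : (Fin N × Fin N → Fin (2 ^ b)) → ZMod p := fun w =>
    if h : ∃ c : ZMod p, (TS (fun u v => wval p (w (u, v))) S + c • Kab e.1 e.2).det = 0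
    then h.choose else 0 with hx₀
  have h0 : ∀ w s, x₀ (Function.update w e s) = x₀ w := by
    intro w s
    have : TS (fun u v => wval p (Function.update w e s (u, v))) S =
        TS (fun u v => wval p (w (u, v))) S := by
      apply TS_congr
      intro f hf
      have hne : (f.1, f.2) ≠ e := fun h => he (by rw [← h]; exact hf)
      rw [Function.update_of_ne hne]
    simp only [hx₀, this]
  have := H81.fresh (wval (b := b) p) 1 (by
    intro x
    rw [Finset.card_le_one]
    intro s hs t ht
    simp only [mem_filter, mem_univ, true_and] at hs ht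
    exact wval_inj hp (hs.trans ht.symm)) e
    (univ.filter fun w : Fin N × Fin N → Fin (2 ^ b) =>
      (TS (fun u v => wval p (w (u, v))) S).det ≠ 0 ∧
      (TS (fun u v => wval p (w (u, v))) (insert e S)).det = 0) x₀ h0 (by
    intro w hw
    simp only [mem_filter, mem_univ, true_and] at hw
    rw [TS_insert _ _ _ he] at hw
    have hex : ∃ c : ZMod p,
        (TS (fun u v => wval p (w (u, v))) S + c • Kab e.1 e.2).det = 0 := ⟨_, hw.2⟩
    simp only [hx₀]
    rw [dif_pos hex]
    exact bad_unique _ (alt_TS _ _) hw.1 e.1 e.2 _ _ hw.2 hex.choose_spec)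
  rw [Fintype.card_fin, one_mul] at this
  rw [Nat.card_eq_fintype_card, Nat.card_eq_fintype_card, Fintype.card_subtype, mul_comm]
  exact this

theorem chain_count' {N b p : ℕ} [Fact p.Prime] (hp : 2 ^ b < p) (S₀ : Finset (Fin N × Fin N))
    (h₀ : IsPM S₀) (es : List (Fin N × Fin N)) (hnd : es.Nodup) (hes : ∀ e ∈ es, e.1 < e.2 ∧ e ∉ S₀)
    (m : ℕ) (hm : m ≤ es.length) :
    2 ^ b * Nat.card {w : Fin N × Fin N → Fin (2 ^ b) // ∃ k ≤ m,
      (TS (fun u v => wval p (w (u, v))) (S₀ ∪ (es.take k).toFinset)).det = 0} ≤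
      m * Nat.card (Fin N × Fin N → Fin (2 ^ b)) := by
  classical
  induction m with
  | zero =>
    have : IsEmpty {w : Fin N × Fin N → Fin (2 ^ b) // ∃ k ≤ 0,
        (TS (fun u v => wval p (w (u, v))) (S₀ ∪ (es.take k).toFinset)).det = 0} := by
      refine ⟨fun w => ?_⟩
      obtain ⟨w, k, hk, hw⟩ := w
      have hk0 : k = 0 := by omega
      subst hk0
      simp only [List.take_zero, List.toFinset_nil, union_empty] at hw
      exact det_of_isPM _ (fun u v _ => wt_ne_zero hp (fun u v => w (u, v)) u v) S₀ h₀ hw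
    rw [Nat.card_of_isEmpty]
    simp
  | succ m ih =>
    have hm' : m < es.length := by omega
    set e := es[m] with he
    have htake : es.take (m + 1) = es.take m ++ [e] := by
      rw [List.take_append_getElem hm']
    have hemem : e ∈ es := List.getElem_mem hm'
    have hnot : e ∉ S₀ ∪ (es.take m).toFinset := by
      rw [mem_union, not_or]
      refine ⟨(hes e hemem).2, ?_⟩
      rw [List.mem_toFinset]
      have h1 := hnd
      rw [← List.take_append_drop (m + 1) es, htake] at h1
      have h2 := (List.nodup_append.mp (List.nodup_append.mp h1).1).2.2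
      intro h3
      exact h2 e h3 e (by simp) rfl
    have hS : S₀ ∪ (es.take (m + 1)).toFinset = insert e (S₀ ∪ (es.take m).toFinset) := by
      rw [htake, List.toFinset_append]
      ext f
      simp only [mem_union, List.toFinset_cons, List.toFinset_nil, mem_insert,
        insert_empty_eq, mem_singleton]
      tauto
    have h1 := ih (by omega)
    have h2 := step_count hp (S₀ ∪ (es.take m).toFinset) e hnot
    have h3 : Nat.card {w : Fin N × Fin N → Fin (2 ^ b) // ∃ k ≤ m + 1,
        (TS (fun u v => wval p (w (u, v))) (S₀ ∪ (es.take k).toFinset)).det = 0} ≤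
        Nat.card {w : Fin N × Fin N → Fin (2 ^ b) // ∃ k ≤ m,
          (TS (fun u v => wval p (w (u, v))) (S₀ ∪ (es.take k).toFinset)).det = 0} +
        Nat.card {w : Fin N × Fin N → Fin (2 ^ b) //
          (TS (fun u v => wval p (w (u, v))) (S₀ ∪ (es.take m).toFinset)).det ≠ 0 ∧
          (TS (fun u v => wval p (w (u, v)))
            (insert e (S₀ ∪ (es.take m).toFinset))).det = 0} := by
      simp only [Nat.card_eq_fintype_card, Fintype.card_subtype]
      refine le_trans (card_le_card ?_) (card_union_le _ _)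
      intro w hw
      simp only [mem_filter, mem_univ, true_and, mem_union] at hw ⊢
      by_cases hex : ∃ k ≤ m,
          (TS (fun u v => wval p (w (u, v))) (S₀ ∪ (es.take k).toFinset)).det = 0
      · exact Or.inl hex
      · right
        obtain ⟨k, hk, hw⟩ := hw
        have hkm : k = m + 1 := by
          by_contra hne
          exact hex ⟨k, by omega, hw⟩
        subst hkm
        rw [hS] at hw
        refine ⟨fun h => hex ⟨m, le_rfl, h⟩, hw⟩
    calc _ ≤ 2 ^ b * _ := Nat.mul_le_mul_left _ h3
      _ ≤ _ := by rw [mul_add, add_mul, one_mul]; exact Nat.add_le_add h1 h2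

end E3

theorem chain_count {N b p : ℕ} [Fact p.Prime] (hp : 2 ^ b < p) (S₀ : Finset (Fin N × Fin N))
    (h₀ : IsPM S₀) (es : List (Fin N × Fin N)) (hnd : es.Nodup)
    (hes : ∀ e ∈ es, e.1 < e.2 ∧ e ∉ S₀) :
    2 ^ b * Nat.card {w : Fin N → Fin N → Fin (2 ^ b) // ¬ ChainOK S₀ es (wt p w)} ≤
      es.length * Nat.card (Fin N → Fin N → Fin (2 ^ b)) := by
  have h := E3.chain_count' hp S₀ h₀ es hnd hes es.length le_rfl
  rw [Nat.card_congr (Equiv.curry (Fin N) (Fin N) (Fin (2 ^ b)))] at h
  refine le_trans (Nat.mul_le_mul_left _ (le_of_eq ?_)) h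
  refine Nat.card_congr ((Equiv.curry (Fin N) (Fin N) (Fin (2 ^ b))).symm.subtypeEquiv ?_)
  intro w
  unfold ChainOK
  push Not
  rfl

end Vale.Agent.P305.MM
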