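import Vale.Agent.P305.MM.Defs2

/-! TASK E4a (insertion pass = adding the edge set) -/

set_option autoImplicit false

namespace Vale.Agent.P305.MM

open Finset

namespace E4

theorem gF_inj {N : ℕ} (hN : 0 < N) {a b : ℕ} (ha : a < N) (hb : b < N) (h : gF hN a = gF hN b) :
    a = b := by
  have := congrArg Fin.val h
  simpa [gF, Nat.mod_eq_of_lt ha, Nat.mod_eq_of_lt hb] using this

theorem gP_inj {N : ℕ} (hN : 0 < N) {ab cd : ℕ × ℕ} (h1 : ab.1 < N) (h2 : ab.2 < N)
    (h3 : cd.1 < N) (h4 : cd.2 < N) (h : gP hN ab = gP hN cd) : ab = cd := by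
  have h' := Prod.ext_iff.1 h
  exact Prod.ext (gF_inj hN h1 h3 h'.1) (gF_inj hN h2 h4 h'.2)

theorem TS_insert {F : Type} [Field F] {N : ℕ} (x : Fin N → Fin N → F)
    (S : Finset (Fin N × Fin N)) (e : Fin N × Fin N) (he : e ∉ S) :
    TS x (insert e S) = TS x S + x e.1 e.2 • Kab e.1 e.2 := by
  unfold TS
  rw [sum_insert he, add_comm]

theorem TS_erase {F : Type} [Field F] {N : ℕ} (x : Fin N → Fin N → F)
    (S : Finset (Fin N × Fin N)) (e : Fin N × Fin N) (he : e ∈ S) :
    TS x (S.erase e) = TS x S + (- x e.1 e.2) • Kab e.1 e.2 := by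
  have h := TS_insert x (S.erase e) e (notMem_erase e S)
  rw [insert_erase he] at h
  rw [h, neg_smul, add_assoc, add_neg_cancel, add_zero]

theorem acc_zero {F : Type} [Field F] {V : Type} [Fintype V] [DecidableEq V]
    (T : Matrix V V F) (u v : V) : acc T u v 0 = 0 := by
  unfold acc
  split_ifs <;> rfl

theorem upd_same {F : Type} (D : ℕ → ℕ → F) (ab : ℕ × ℕ) (c : F) (h : c = D ab.1 ab.2) :
    (fun x y => if x = ab.1 ∧ y = ab.2 then c else D x y) = D := by
  funext x y
  split_ifs with hxy
  · rw [hxy.1, hxy.2, h]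
  · rfl

theorem seqRun_snd {F : Type} [Field F] {V : Type} [Fintype V] [DecidableEq V] (g₁ g₂ : ℕ → V)
    (l : List (ℕ × ℕ)) (T : Matrix V V F) (D : ℕ → ℕ → F) (ab : ℕ × ℕ) (h : ab ∉ l) :
    (seqRun g₁ g₂ l (T, D)).2 ab.1 ab.2 = D ab.1 ab.2 := by
  induction l generalizing T D with
  | nil => rfl
  | cons c l ih =>
    rw [List.mem_cons, not_or] at h
    simp only [seqRun]
    rw [ih _ _ h.2]
    rw [if_neg]
    intro hc
    exact h.1 (Prod.ext hc.1 hc.2)

theorem mem_delRun {N : ℕ} (l : List (Fin N × Fin N)) (S : Finset (Fin N × Fin N))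
    (e : Fin N × Fin N) (h : e ∉ l) : e ∈ delRun l S ↔ e ∈ S := by
  classical
  induction l generalizing S with
  | nil => simp [delRun]
  | cons c l ih =>
    rw [List.mem_cons, not_or] at h
    simp only [delRun]
    rw [ih _ h.2]
    split_ifs with hc
    · rw [mem_erase]
      exact ⟨fun hh => hh.2, fun hh => ⟨h.1, hh⟩⟩
    · rfl

end E4

open E4

variable {F : Type} [Field F] {N : ℕ}

open Classical in
/-- E4a. Insertion. -/
theorem seqRun_ins (hN : 0 < N) (x : Fin N → Fin N → F) (hx : ∀ u v, x u v ≠ 0)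
    (S : Finset (Fin N × Fin N)) (P : ℕ × ℕ → Prop) (l : List (ℕ × ℕ)) (hnd : l.Nodup)
    (hlt : ∀ ab ∈ l, ab.1 < N ∧ ab.2 < N) (hP : ∀ ab ∈ l, P ab → ab.1 < ab.2 ∧ gP hN ab ∉ S)
    (D : ℕ → ℕ → F) (hD : ∀ ab ∈ l, D ab.1 ab.2 = if P ab then x (gF hN ab.1) (gF hN ab.2) else 0)
    (hch : ChainOK S ((l.filter (fun ab => decide (P ab))).map (gP hN)) x) :
    (seqRun (gF hN) (gF hN) l (TS x S, D)).1 =
      TS x (S ∪ ((l.filter (fun ab => decide (P ab))).map (gP hN)).toFinset) ∧
    ∀ a b, (seqRun (gF hN) (gF hN) l (TS x S, D)).2 a b = D a b := by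
  induction l generalizing S with
  | nil => simp [seqRun]
  | cons ab l ih =>
    have hab := hD ab List.mem_cons_self
    have hlt' : ∀ ab ∈ l, ab.1 < N ∧ ab.2 < N := fun c hc => hlt c (List.mem_cons_of_mem _ hc)
    have hD' : ∀ ab ∈ l, D ab.1 ab.2 = if P ab then x (gF hN ab.1) (gF hN ab.2) else 0 :=
      fun c hc => hD c (List.mem_cons_of_mem _ hc)
    have hnd' := (List.nodup_cons.1 hnd).2
    have hni := (List.nodup_cons.1 hnd).1
    by_cases hp : P ab
    · rw [if_pos hp] at hab
      have hf : (ab :: l).filter (fun ab => decide (P ab)) =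
          ab :: l.filter (fun ab => decide (P ab)) := by
        rw [List.filter_cons_of_pos (by simpa using hp)]
      rw [hf, List.map_cons] at hch ⊢
      obtain ⟨h1, h2⟩ := hP ab List.mem_cons_self hp
      have hT : TS x S + D ab.1 ab.2 • Kab (gF hN ab.1) (gF hN ab.2) =
          TS x (insert (gP hN ab) S) := by
        rw [TS_insert x S _ h2, hab]
        rfl
      have hdet : (TS x (insert (gP hN ab) S)).det ≠ 0 := by
        have := hch 1 (by simp)
        rw [List.take_succ_cons, List.take_zero, List.toFinset_cons, List.toFinset_nil,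
          union_insert, union_empty] at this
        convert this
      have hacc : acc (TS x S) (gF hN ab.1) (gF hN ab.2) (D ab.1 ab.2) = D ab.1 ab.2 := by
        unfold acc
        rw [hT, if_neg hdet]
      have key := ih (insert (gP hN ab) S) hnd' hlt' (fun c hc hPc => by
          obtain ⟨h3, h4⟩ := hP c (List.mem_cons_of_mem _ hc) hPc
          refine ⟨h3, fun hm => ?_⟩
          rcases mem_insert.1 hm with hm | hm
          · have := gP_inj hN (hlt' c hc).1 (hlt' c hc).2 (hlt ab List.mem_cons_self).1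
              (hlt ab List.mem_cons_self).2 hm
            exact hni (this ▸ hc)
          · exact h4 hm) hD' (fun k hk => by
          have := hch (k + 1) (by simpa using hk)
          rw [List.take_succ_cons, List.toFinset_cons] at this
          rwa [show insert (gP hN ab) S ∪ (List.take k (List.map (gP hN)
            (List.filter (fun ab => decide (P ab)) l))).toFinset = S ∪ insert (gP hN ab)
            (List.take k (List.map (gP hN) (List.filter (fun ab => decide (P ab)) l))).toFinset
            from by rw [insert_union, union_insert]])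
      simp only [seqRun]
      rw [hacc, hT, upd_same D ab _ rfl]
      rw [List.toFinset_cons, union_insert, ← insert_union]
      exact key
    · rw [if_neg hp] at hab
      have hf : (ab :: l).filter (fun ab => decide (P ab)) = l.filter (fun ab => decide (P ab)) := by
        rw [List.filter_cons_of_neg (by simpa using hp)]
      rw [hf] at hch ⊢
      have hacc : acc (TS x S) (gF hN ab.1) (gF hN ab.2) (D ab.1 ab.2) = 0 := by
        rw [hab, acc_zero]
      simp only [seqRun]
      rw [hacc, zero_smul, add_zero, upd_same D ab _ hab.symm]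
      exact ih S hnd' hlt' (fun c hc => hP c (List.mem_cons_of_mem _ hc)) hD' hch

end Vale.Agent.P305.MM
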