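import Vale.Agent.P305.MM.TE1
import Vale.Agent.P305.MM.TE4a

/-! TASK E4b (deletion pass = ideal deletion run) -/

set_option autoImplicit false

namespace Vale.Agent.P305.MM

open Finset

open E4

variable {F : Type} [Field F] {N : ℕ}

open Classical in
/-- E4b. Deletion. -/
theorem seqRun_del (hN : 0 < N) (x : Fin N → Fin N → F) (hx : ∀ u v, x u v ≠ 0)
    (S : Finset (Fin N × Fin N)) (hS : ∀ e ∈ S, e.1 < e.2) (P : ℕ × ℕ → Prop) (l : List (ℕ × ℕ))
    (hnd : l.Nodup) (hlt : ∀ ab ∈ l, ab.1 < N ∧ ab.2 < N) (hP : ∀ ab ∈ l, P ab → gP hN ab ∈ S)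
    (D : ℕ → ℕ → F)
    (hD : ∀ ab ∈ l, D ab.1 ab.2 = if P ab then - x (gF hN ab.1) (gF hN ab.2) else 0)
    (hch : ∀ k ≤ (l.filter (fun ab => decide (P ab))).length,
      (TS x (delRun (((l.filter (fun ab => decide (P ab))).map (gP hN)).take k) S)).det ≠ 0) :
    (seqRun (gF hN) (gF hN) l (TS x S, D)).1 =
      TS x (delRun ((l.filter (fun ab => decide (P ab))).map (gP hN)) S) ∧
    ∀ ab ∈ l, P ab → ((seqRun (gF hN) (gF hN) l (TS x S, D)).2 ab.1 ab.2 = 0 ↔
      gP hN ab ∈ delRun ((l.filter (fun ab => decide (P ab))).map (gP hN)) S) := by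
  induction l generalizing S D with
  | nil => simp [seqRun, delRun]
  | cons ab l ih =>
    have hab := hD ab List.mem_cons_self
    have hlt' : ∀ ab ∈ l, ab.1 < N ∧ ab.2 < N := fun c hc => hlt c (List.mem_cons_of_mem _ hc)
    have hnd' := (List.nodup_cons.1 hnd).2
    have hni := (List.nodup_cons.1 hnd).1
    have hDu : ∀ c' : F, ∀ c ∈ l, (fun x y => if x = ab.1 ∧ y = ab.2 then c' else D x y) c.1 c.2 =
        if P c then - x (gF hN c.1) (gF hN c.2) else 0 := by
      intro c' c hc
      have hne : ¬ (c.1 = ab.1 ∧ c.2 = ab.2) := fun hh => hni ((Prod.ext hh.1 hh.2 : c = ab) ▸ hc)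
      show (if c.1 = ab.1 ∧ c.2 = ab.2 then c' else D c.1 c.2) = _
      rw [if_neg hne]
      exact hD c (List.mem_cons_of_mem _ hc)
    by_cases hp : P ab
    · rw [if_pos hp] at hab
      have hf : (ab :: l).filter (fun ab => decide (P ab)) =
          ab :: l.filter (fun ab => decide (P ab)) := by
        rw [List.filter_cons_of_pos (by simpa using hp)]
      rw [hf, List.map_cons] at hch ⊢
      have h2 := hP ab List.mem_cons_self hp
      have hnm : gP hN ab ∉ (l.filter (fun ab => decide (P ab))).map (gP hN) := by
        intro hm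
        obtain ⟨c, hc, hcc⟩ := List.mem_map.1 hm
        have hc' := (List.mem_filter.1 hc).1
        have := gP_inj hN (hlt' c hc').1 (hlt' c hc').2 (hlt ab List.mem_cons_self).1
          (hlt ab List.mem_cons_self).2 hcc
        exact hni (this ▸ hc')
      have hT : TS x S + D ab.1 ab.2 • Kab (gF hN ab.1) (gF hN ab.2) =
          TS x (S.erase (gP hN ab)) := by
        rw [TS_erase x S _ h2, hab]
        rfl
      by_cases hpm : HasPM (S.erase (gP hN ab))
      · have hdet : (TS x (S.erase (gP hN ab))).det ≠ 0 := by
          have := hch 1 (by simp)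
          simpa [delRun, hpm] using this
        have hacc : acc (TS x S) (gF hN ab.1) (gF hN ab.2) (D ab.1 ab.2) = D ab.1 ab.2 := by
          unfold acc
          rw [hT, if_neg hdet]
        have hS' : ∀ e ∈ S.erase (gP hN ab), e.1 < e.2 := fun e he => hS e (mem_of_mem_erase he)
        have hP' : ∀ c ∈ l, P c → gP hN c ∈ S.erase (gP hN ab) := fun c hc hPc => by
          refine mem_erase.2 ⟨fun hh => ?_, hP c (List.mem_cons_of_mem _ hc) hPc⟩
          have := gP_inj hN (hlt' c hc).1 (hlt' c hc).2 (hlt ab List.mem_cons_self).1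
            (hlt ab List.mem_cons_self).2 hh
          exact hni (this ▸ hc)
        have key := ih (S.erase (gP hN ab)) hS' hnd' hlt' hP'
          (fun x y => if x = ab.1 ∧ y = ab.2 then D ab.1 ab.2 else D x y) (hDu _) (fun k hk => by
            have := hch (k + 1) (by simpa using hk)
            rwa [List.take_succ_cons, delRun, if_pos hpm] at this)
        simp only [seqRun, delRun, if_pos hpm]
        rw [hacc, hT]
        refine ⟨key.1, fun c hc hPc => ?_⟩
        rcases List.mem_cons.1 hc with rfl | hc
        · rw [seqRun_snd _ _ _ _ _ _ hni, mem_delRun _ _ _ hnm]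
          simp only [and_self, if_true, hab, neg_eq_zero, mem_erase, ne_eq, not_true_eq_false,
            false_and, iff_false]
          exact hx _ _
        · exact key.2 c hc hPc
      · have hdet : (TS x (S.erase (gP hN ab))).det = 0 := by
          by_contra hne
          exact hpm (hasPM_of_det x _ (fun e he => hS e (mem_of_mem_erase he)) hne)
        have hacc : acc (TS x S) (gF hN ab.1) (gF hN ab.2) (D ab.1 ab.2) = 0 := by
          unfold acc
          rw [hT, if_pos hdet]
        have key := ih S hS hnd' hlt' (fun c hc => hP c (List.mem_cons_of_mem _ hc))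
          (fun x y => if x = ab.1 ∧ y = ab.2 then 0 else D x y) (hDu _) (fun k hk => by
            have := hch (k + 1) (by simpa using hk)
            rwa [List.take_succ_cons, delRun, if_neg hpm] at this)
        simp only [seqRun, delRun, if_neg hpm]
        rw [hacc, zero_smul, add_zero]
        refine ⟨key.1, fun c hc hPc => ?_⟩
        rcases List.mem_cons.1 hc with rfl | hc
        · rw [seqRun_snd _ _ _ _ _ _ hni, mem_delRun _ _ _ hnm]
          simp [h2]
        · exact key.2 c hc hPc
    · rw [if_neg hp] at hab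
      have hf : (ab :: l).filter (fun ab => decide (P ab)) = l.filter (fun ab => decide (P ab)) := by
        rw [List.filter_cons_of_neg (by simpa using hp)]
      rw [hf] at hch ⊢
      have hacc : acc (TS x S) (gF hN ab.1) (gF hN ab.2) (D ab.1 ab.2) = 0 := by
        rw [hab, acc_zero]
      have key := ih S hS hnd' hlt' (fun c hc => hP c (List.mem_cons_of_mem _ hc)) D
        (fun c hc => hD c (List.mem_cons_of_mem _ hc)) hch
      simp only [seqRun]
      rw [hacc, zero_smul, add_zero, upd_same D ab _ hab.symm]
      refine ⟨key.1, fun c hc hPc => ?_⟩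
      rcases List.mem_cons.1 hc with rfl | hc
      · exact absurd hPc hp
      · exact key.2 c hc hPc

end Vale.Agent.P305.MM
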