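import Vale.Agent.P305.MM.Defs2

/-! TASK E4c. One chain contains all edge sets of an ideal deletion run: start with a
perfect matching `M₀` of the last set, add the rest of the last set, then the deleted pairs in
reverse order. -/

set_option autoImplicit false

namespace Vale.Agent.P305.MM

open Finset

variable {N : ℕ}

theorem del_chain_aux (S : Finset (Fin N × Fin N))
    (hlt : ∀ e ∈ S, e.1 < e.2) (hS : HasPM S) (l : List (Fin N × Fin N)) :
    ∃ (M₀ : Finset (Fin N × Fin N)) (es : List (Fin N × Fin N)), IsPM M₀ ∧ es.Nodup ∧
      (∀ e ∈ es, e.1 < e.2 ∧ e ∉ M₀) ∧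
      (∀ k ≤ l.length, ∃ j ≤ es.length, delRun (l.take k) S = M₀ ∪ (es.take j).toFinset) ∧
      S = M₀ ∪ es.toFinset := by
  induction l generalizing S with
  | nil =>
    obtain ⟨M₀, hM, hpm⟩ := hS
    have hu : S = M₀ ∪ (S \ M₀).toList.toFinset := by
      rw [toList_toFinset, union_sdiff_of_subset hM]
    refine ⟨M₀, (S \ M₀).toList, hpm, nodup_toList _, fun e he => ?_, fun k hk => ?_, hu⟩
    · rw [mem_toList, mem_sdiff] at he
      exact ⟨hlt e he.1, he.2⟩
    · refine ⟨(S \ M₀).toList.length, le_rfl, ?_⟩
      rw [List.take_length]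
      simpa [delRun] using hu
  | cons e l ih =>
    by_cases hc : HasPM (S.erase e)
    · obtain ⟨M₀, es, h1, h2, h3, h4, h5⟩ := ih (S.erase e)
        (fun f hf => hlt f (mem_of_mem_erase hf)) hc
      by_cases he : e ∈ S
      · have hne : e ∉ M₀ ∪ es.toFinset := by
          rw [← h5]
          exact notMem_erase e S
        rw [mem_union, not_or, List.mem_toFinset] at hne
        have hSe : S = M₀ ∪ (es ++ [e]).toFinset := by
          rw [List.toFinset_append, ← union_assoc, ← h5]
          ext f
          simp only [mem_union, mem_erase, List.mem_toFinset, List.mem_singleton]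
          constructor
          · intro hf
            by_cases hfe : f = e
            · exact Or.inr hfe
            · exact Or.inl ⟨hfe, hf⟩
          · rintro (hf | rfl)
            · exact hf.2
            · exact he
        refine ⟨M₀, es ++ [e], h1, ?_, ?_, ?_, hSe⟩
        · rw [List.nodup_append]
          refine ⟨h2, by simp, ?_⟩
          intro a ha b hb hab
          rw [List.mem_singleton] at hb
          exact hne.2 (hb ▸ hab ▸ ha)
        · intro f hf
          rcases List.mem_append.1 hf with hf | hf
          · exact h3 f hf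
          · rw [List.mem_singleton] at hf
            exact hf ▸ ⟨hlt e he, hne.1⟩
        · intro k hk
          rcases k with _ | k
          · refine ⟨(es ++ [e]).length, le_rfl, ?_⟩
            rw [List.take_length]
            simpa [delRun] using hSe
          · obtain ⟨j, hj, hj'⟩ := h4 k (by simpa using hk)
            refine ⟨j, by simp; omega, ?_⟩
            rw [List.take_succ_cons, delRun, if_pos hc, List.take_append_of_le_length hj]
            exact hj'
      · have hSe : S.erase e = S := erase_eq_of_notMem he
        rw [hSe] at h4 h5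
        refine ⟨M₀, es, h1, h2, h3, ?_, h5⟩
        intro k hk
        rcases k with _ | k
        · refine ⟨es.length, le_rfl, ?_⟩
          rw [List.take_length]
          simpa [delRun] using h5
        · obtain ⟨j, hj, hj'⟩ := h4 k (by simpa using hk)
          refine ⟨j, hj, ?_⟩
          rw [List.take_succ_cons, delRun, if_pos hc, hSe]
          exact hj'
    · obtain ⟨M₀, es, h1, h2, h3, h4, h5⟩ := ih S hlt hS
      refine ⟨M₀, es, h1, h2, h3, ?_, h5⟩
      intro k hk
      rcases k with _ | k
      · refine ⟨es.length, le_rfl, ?_⟩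
        rw [List.take_length]
        simpa [delRun] using h5
      · obtain ⟨j, hj, hj'⟩ := h4 k (by simpa using hk)
        refine ⟨j, hj, ?_⟩
        rw [List.take_succ_cons, delRun, if_neg hc]
        exact hj'

/-- E4c. One chain contains all edge sets of an ideal deletion run. -/
theorem del_chain (S : Finset (Fin N × Fin N)) (hlt : ∀ e ∈ S, e.1 < e.2) (hS : HasPM S)
    (l : List (Fin N × Fin N)) :
    ∃ (M₀ : Finset (Fin N × Fin N)) (es : List (Fin N × Fin N)), IsPM M₀ ∧ es.Nodup ∧
      (∀ e ∈ es, e.1 < e.2 ∧ e ∉ M₀) ∧
      ∀ k ≤ l.length, ∃ j ≤ es.length, delRun (l.take k) S = M₀ ∪ (es.take j).toFinset := by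
  classical
  obtain ⟨M₀, es, h1, h2, h3, h4, -⟩ := del_chain_aux S hlt hS l
  exact ⟨M₀, es, h1, h2, h3, h4⟩

end Vale.Agent.P305.MM
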