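import Vale.Agent.P305.MM.Defs2

/-! TASK E4d. `ord σ l` lists every position `(a, b)`, `a, b < σ ^ l`, exactly once. -/

set_option autoImplicit false

namespace Vale.Agent.P305.MM

open Finset

theorem E4.ord_blk_lt {σ l i a : ℕ} (hi : i < σ) (ha : a < σ ^ l) : i * σ ^ l + a < σ ^ (l + 1) := by
  calc i * σ ^ l + a < i * σ ^ l + σ ^ l := by omega
    _ = (i + 1) * σ ^ l := by ring
    _ ≤ σ * σ ^ l := Nat.mul_le_mul_right _ hi
    _ = σ ^ (l + 1) := by ring

theorem E4.ord_lt (σ : ℕ) (l : ℕ) (ab : ℕ × ℕ) (h : ab ∈ ord σ l) :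
    ab.1 < σ ^ l ∧ ab.2 < σ ^ l := by
  induction l generalizing ab with
  | zero =>
    simp only [ord, List.mem_singleton] at h
    subst h
    simp
  | succ l ih =>
    simp only [ord, List.mem_flatMap, List.mem_range, List.mem_map] at h
    obtain ⟨t, ht, cd, hcd, rfl⟩ := h
    obtain ⟨h1, h2⟩ := ih cd hcd
    have hσ : 0 < σ := by
      rcases Nat.eq_zero_or_pos σ with h0 | h0
      · subst h0; simp at ht
      · exact h0
    exact ⟨E4.ord_blk_lt (Nat.div_lt_of_lt_mul ht) h1, E4.ord_blk_lt (Nat.mod_lt _ hσ) h2⟩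

/-- `ord σ l` lists every position `(a, b)`, `a, b < σ ^ l`, exactly once. -/
theorem ord_nodup (σ : ℕ) (l : ℕ) : (ord σ l).Nodup := by
  induction l with
  | zero => simp [ord]
  | succ l ih =>
    simp only [ord]
    rw [List.nodup_flatMap]
    constructor
    · intro t _
      refine ih.map ?_
      intro ab cd h
      simp only [Prod.mk.injEq] at h
      exact Prod.ext (by omega) (by omega)
    · refine List.Nodup.pairwise_of_forall_ne List.nodup_range ?_
      intro t ht t' ht' hne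
      rw [List.mem_range] at ht ht'
      rw [Function.onFun, List.disjoint_left]
      intro ab h1 h2
      obtain ⟨cd, hcd, rfl⟩ := List.mem_map.1 h1
      obtain ⟨cd', hcd', h⟩ := List.mem_map.1 h2
      simp only [Prod.mk.injEq] at h
      have b1 := E4.ord_lt σ l cd hcd
      have b2 := E4.ord_lt σ l cd' hcd'
      have hp : 0 < σ ^ l := by omega
      have e1 : t' / σ = t / σ := by
        have := congrArg (· / σ ^ l) h.1
        rwa [Nat.add_comm, Nat.add_mul_div_right _ _ hp, Nat.div_eq_of_lt b2.1, Nat.zero_add,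
          Nat.add_comm, Nat.add_mul_div_right _ _ hp, Nat.div_eq_of_lt b1.1, Nat.zero_add] at this
      have e2 : t' % σ = t % σ := by
        have := congrArg (· / σ ^ l) h.2
        rwa [Nat.add_comm, Nat.add_mul_div_right _ _ hp, Nat.div_eq_of_lt b2.2, Nat.zero_add,
          Nat.add_comm, Nat.add_mul_div_right _ _ hp, Nat.div_eq_of_lt b1.2, Nat.zero_add] at this
      apply hne
      rw [← Nat.div_add_mod t σ, ← Nat.div_add_mod t' σ, e1, e2]

theorem mem_ord (σ : ℕ) (hσ : 1 ≤ σ) (l : ℕ) (a b : ℕ) : (a, b) ∈ ord σ l ↔ a < σ ^ l ∧ b < σ ^ l := by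
  refine ⟨fun h => E4.ord_lt σ l (a, b) h, ?_⟩
  induction l generalizing a b with
  | zero =>
    rintro ⟨h1, h2⟩
    simp only [pow_zero, Nat.lt_one_iff] at h1 h2
    subst h1 h2
    simp [ord]
  | succ l ih =>
    rintro ⟨h1, h2⟩
    have hp : 0 < σ ^ l := Nat.pow_pos hσ
    rw [pow_succ] at h1 h2
    have ha : a / σ ^ l < σ := Nat.div_lt_of_lt_mul (by linarith)
    have hb : b / σ ^ l < σ := Nat.div_lt_of_lt_mul (by linarith)
    simp only [ord, List.mem_flatMap, List.mem_range, List.mem_map]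
    refine ⟨a / σ ^ l * σ + b / σ ^ l, ?_, (a % σ ^ l, b % σ ^ l),
      ih _ _ ⟨Nat.mod_lt _ hp, Nat.mod_lt _ hp⟩, ?_⟩
    · calc a / σ ^ l * σ + b / σ ^ l < a / σ ^ l * σ + σ := by omega
        _ = (a / σ ^ l + 1) * σ := by ring
        _ ≤ σ * σ := Nat.mul_le_mul_right _ ha
    · have e1 : (a / σ ^ l * σ + b / σ ^ l) / σ = a / σ ^ l := by
        rw [Nat.add_comm, Nat.add_mul_div_right _ _ hσ, Nat.div_eq_of_lt hb, Nat.zero_add]
      have e2 : (a / σ ^ l * σ + b / σ ^ l) % σ = b / σ ^ l := by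
        rw [Nat.add_comm, Nat.add_mul_mod_self_right, Nat.mod_eq_of_lt hb]
      rw [e1, e2]
      simp only [Prod.mk.injEq]
      exact ⟨by rw [mul_comm]; exact Nat.div_add_mod a _, by rw [mul_comm]; exact Nat.div_add_mod b _⟩

end Vale.Agent.P305.MM
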