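import Vale.Agent.P305.MM.Defs2

/-! TASK E5a -/

set_option autoImplicit false

namespace Vale.Agent.P305.MM

open Finset

namespace E5

/-- The covered vertices. -/
def vs (M : Finset (ℕ × ℕ)) : Finset ℕ := M.image Prod.fst ∪ M.image Prod.snd

theorem mem_vs (M : Finset (ℕ × ℕ)) (v : ℕ) : v ∈ vs M ↔ ∃ f ∈ M, v = f.1 ∨ v = f.2 := by
  simp only [vs, mem_union, mem_image]
  constructor
  · rintro (⟨f, hf, rfl⟩ | ⟨f, hf, rfl⟩)
    · exact ⟨f, hf, Or.inl rfl⟩
    · exact ⟨f, hf, Or.inr rfl⟩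
  · rintro ⟨f, hf, rfl | rfl⟩
    · exact Or.inl ⟨f, hf, rfl⟩
    · exact Or.inr ⟨f, hf, rfl⟩

theorem card_vs {Ad : ℕ → ℕ → Prop} {M : Finset (ℕ × ℕ)} (hM : IsMat Ad M) :
    (vs M).card = 2 * M.card := by
  unfold vs
  rw [card_union_of_disjoint, card_image_of_injOn, card_image_of_injOn, two_mul]
  · intro e he e' he' h
    exact hM.2 e he e' he' (Or.inr (Or.inr (Or.inr h)))
  · intro e he e' he' h
    exact hM.2 e he e' he' (Or.inl h)
  · rw [disjoint_left]
    intro x h1 h2
    rw [mem_image] at h1 h2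
    obtain ⟨e, he, rfl⟩ := h1
    obtain ⟨e', he', h3⟩ := h2
    have h4 := hM.2 e he e' he' (Or.inr (Or.inl h3.symm))
    have h5 := (hM.1 e he).1
    rw [← h4] at h3
    omega

/-- `e` and `f` share a vertex. -/
def Meet (e f : ℕ × ℕ) : Prop := e.1 = f.1 ∨ e.1 = f.2 ∨ e.2 = f.1 ∨ e.2 = f.2

theorem Meet.symm {e f : ℕ × ℕ} (h : Meet e f) : Meet f e := by
  unfold Meet at *
  omega

theorem exch_aux (Ad : ℕ → ℕ → Prop) (M : Finset (ℕ × ℕ)) (hM : IsMat Ad M) : ∀ (k : ℕ)
    (M' : Finset (ℕ × ℕ)), IsMat Ad M' → M.card < M'.card → M.card - (M' ∩ M).card = k →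
    ∃ M'', IsMat Ad M'' ∧ M.card < M''.card ∧ ∀ v ∈ vs M, v ∈ vs M'' := by
  classical
  intro k
  induction k using Nat.strong_induction_on with
  | _ k ih =>
    intro M' hM' hc hk
    by_cases hcov : ∀ v ∈ vs M, v ∈ vs M'
    · exact ⟨M', hM', hc, hcov⟩
    push Not at hcov
    obtain ⟨v, hv, hv'⟩ := hcov
    rw [mem_vs] at hv hv'
    push Not at hv'
    obtain ⟨e, he, hve⟩ := hv
    have heM' : e ∉ M' := by
      intro h
      have := hv' e h
      omega
    set R := M'.filter fun f => ¬ Meet e f with hR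
    -- at most one edge of `M'` meets `e`
    have hcard1 : (M'.filter fun f => Meet e f).card ≤ 1 := by
      rw [card_le_one]
      intro f hf g hg
      rw [mem_filter] at hf hg
      refine hM'.2 f hf.1 g hg.1 ?_
      have h1 := hv' f hf.1
      have h2 := hv' g hg.1
      have h3 := hf.2
      have h4 := hg.2
      unfold Meet at h3 h4
      omega
    have hsum : R.card + (M'.filter fun f => Meet e f).card = M'.card := by
      rw [add_comm, hR]
      exact card_filter_add_card_filter_not (s := M') (fun f => Meet e f)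
    have heR : e ∉ R := fun h => heM' (mem_filter.mp h).1
    have hcardN : (insert e R).card = R.card + 1 := card_insert_of_notMem heR
    have hN : IsMat Ad (insert e R) := by
      refine ⟨fun f hf => ?_, fun f hf g hg hfg => ?_⟩
      · rw [mem_insert] at hf
        rcases hf with rfl | hf
        · exact hM.1 _ he
        · exact hM'.1 f (mem_filter.mp hf).1
      · rw [mem_insert] at hf hg
        rcases hf with rfl | hf
        · rcases hg with rfl | hg
          · rfl
          · exact absurd hfg (mem_filter.mp hg).2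
        · rcases hg with rfl | hg
          · exact absurd (Meet.symm (e := f) hfg) (mem_filter.mp hf).2
          · exact hM'.2 f (mem_filter.mp hf).1 g (mem_filter.mp hg).1 hfg
    have hint : insert e (M' ∩ M) ⊆ insert e R ∩ M := by
      intro f hf
      rw [mem_insert] at hf
      rw [mem_inter, mem_insert]
      rcases hf with rfl | hf
      · exact ⟨Or.inl rfl, he⟩
      · rw [mem_inter] at hf
        refine ⟨Or.inr (mem_filter.mpr ⟨hf.1, fun hm => ?_⟩), hf.2⟩
        have : e = f := hM.2 e he f hf.2 hm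
        rw [this] at heM'
        exact heM' hf.1
    have h1 := card_le_card hint
    rw [card_insert_of_notMem (fun h => heM' (mem_inter.mp h).1)] at h1
    have h2 : (insert e R ∩ M).card ≤ M.card := card_le_card inter_subset_right
    refine ih _ ?_ (insert e R) hN (by omega) rfl
    omega

end E5

/-- Exchange: a matching with fewer edges than another one can be replaced by a matching covering
all its vertices and one more. Proof: among the matchings with more edges than `M` take one with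
most edges in common with `M`. -/
theorem exchange (Ad : ℕ → ℕ → Prop) (M M' : Finset (ℕ × ℕ)) (hM : IsMat Ad M) (hM' : IsMat Ad M')
    (h : M.card < M'.card) : ∃ M'', IsMat Ad M'' ∧
      (∀ e ∈ M, ∃ f ∈ M'', e.1 = f.1 ∨ e.1 = f.2) ∧ (∀ e ∈ M, ∃ f ∈ M'', e.2 = f.1 ∨ e.2 = f.2) ∧
      ∃ f ∈ M'', ∃ v, (v = f.1 ∨ v = f.2) ∧ ∀ e ∈ M, v ≠ e.1 ∧ v ≠ e.2 := by
  obtain ⟨M'', hM'', hc, hcov⟩ := E5.exch_aux Ad M hM _ M' hM' h rfl
  refine ⟨M'', hM'', fun e he => ?_, fun e he => ?_, ?_⟩
  · exact (E5.mem_vs M'' e.1).mp (hcov _ ((E5.mem_vs M e.1).mpr ⟨e, he, Or.inl rfl⟩))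
  · exact (E5.mem_vs M'' e.2).mp (hcov _ ((E5.mem_vs M e.2).mpr ⟨e, he, Or.inr rfl⟩))
  · have h1 : (E5.vs M).card < (E5.vs M'').card := by
      rw [E5.card_vs hM, E5.card_vs hM'']; omega
    obtain ⟨v, hv, hv'⟩ := exists_mem_notMem_of_card_lt_card h1
    rw [E5.mem_vs] at hv hv'
    obtain ⟨f, hf, hvf⟩ := hv
    push Not at hv'
    exact ⟨f, hf, v, hvf, hv'⟩

theorem isPM_PS (h : ℕ) : IsPM (PS (2 * h) h) := by
  have hmem : ∀ e : Fin (2 * h) × Fin (2 * h), e ∈ PS (2 * h) h ↔ (e.2 : ℕ) = e.1 + h := by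
    intro e; simp [PS]
  refine ⟨fun e he => ?_, fun v => ?_⟩
  · rw [hmem] at he
    have h1 := e.1.2
    have h2 := e.2.2
    rw [Fin.lt_def]
    omega
  · by_cases hv : (v : ℕ) < h
    · refine ⟨(v, ⟨v + h, by omega⟩), ⟨?_, Or.inl rfl⟩, ?_⟩
      · rw [hmem]
      · rintro ⟨a, b⟩ ⟨h1, h2⟩
        rw [hmem] at h1
        simp only at h1 h2
        have h3 := b.2
        rcases h2 with rfl | rfl
        · exact Prod.ext rfl (Fin.ext h1)
        · omega
    · refine ⟨(⟨v - h, by omega⟩, v), ⟨?_, Or.inr rfl⟩, ?_⟩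
      · rw [hmem]; simp only; omega
      · rintro ⟨a, b⟩ ⟨h1, h2⟩
        rw [hmem] at h1
        simp only at h1 h2
        have h3 := b.2
        rcases h2 with rfl | rfl
        · omega
        · exact Prod.ext (Fin.ext (by simp only; omega)) rfl

end Vale.Agent.P305.MM
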