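import Vale.Agent.P305.MM.TE5a
import Vale.Agent.P305.MM.H81.Max

set_option autoImplicit false

namespace Vale.Agent.P305.MM

open Finset

namespace E5b

/-! ### Deletion runs -/

variable {N : ℕ}

theorem hasPM_mono {S S' : Finset (Fin N × Fin N)} (h : S ⊆ S') (H : HasPM S) : HasPM S' := by
  obtain ⟨M, hM, hP⟩ := H
  exact ⟨M, hM.trans h, hP⟩

theorem delRun_subset (l : List (Fin N × Fin N)) (S : Finset (Fin N × Fin N)) :
    delRun l S ⊆ S := by
  induction l generalizing S with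
  | nil => exact fun _ h => h
  | cons e l ih =>
    rw [delRun]
    split_ifs
    · exact (ih _).trans (Finset.erase_subset _ _)
    · exact ih _

theorem mem_delRun_of_notMem (l : List (Fin N × Fin N)) (S : Finset (Fin N × Fin N))
    (e : Fin N × Fin N) (he : e ∈ S) (hl : e ∉ l) : e ∈ delRun l S := by
  induction l generalizing S with
  | nil => exact he
  | cons e' l ih =>
    rw [List.mem_cons, not_or] at hl
    rw [delRun]
    split_ifs
    · exact ih _ (Finset.mem_erase.mpr ⟨hl.1, he⟩) hl.2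
    · exact ih _ he hl.2

theorem delRun_hasPM (l : List (Fin N × Fin N)) (S : Finset (Fin N × Fin N)) (hS : HasPM S) :
    HasPM (delRun l S) := by
  induction l generalizing S with
  | nil => exact hS
  | cons e l ih =>
    rw [delRun]
    split_ifs with h
    · exact ih _ h
    · exact ih _ hS

theorem delRun_min (l : List (Fin N × Fin N)) (S : Finset (Fin N × Fin N)) (e : Fin N × Fin N)
    (hl : e ∈ l) (he : e ∈ delRun l S) : ¬ HasPM ((delRun l S).erase e) := by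
  induction l generalizing S with
  | nil => simp at hl
  | cons e' l ih =>
    rw [delRun] at he ⊢
    rw [List.mem_cons] at hl
    rcases hl with rfl | hl
    · split_ifs at he ⊢ with h
      · exact absurd (delRun_subset _ _ he) (Finset.notMem_erase _ _)
      · exact fun H => h (hasPM_mono (Finset.erase_subset_erase _ (delRun_subset _ _)) H)
    · exact ih _ hl he

/-! ### Perfect matchings as involutions -/

/-- The relation of a set of pairs. -/
def Rel (S : Finset (Fin N × Fin N)) (x y : ℕ) : Prop :=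
  ∃ e ∈ S, ((e.1 : ℕ) = x ∧ (e.2 : ℕ) = y) ∨ ((e.1 : ℕ) = y ∧ (e.2 : ℕ) = x)

theorem exists_inv {S : Finset (Fin N × Fin N)} (H : HasPM S) :
    ∃ m : ℕ → ℕ, ∀ x < N, m x < N ∧ m (m x) = x ∧ Rel S x (m x) := by
  obtain ⟨M, hMS, hlt, hM⟩ := H
  choose f hf using hM
  have hfM : ∀ v, f v ∈ M := fun v => (hf v).1.1
  have hfv : ∀ v, (f v).1 = v ∨ (f v).2 = v := fun v => (hf v).1.2
  have huniq : ∀ v e, e ∈ M → (e.1 = v ∨ e.2 = v) → e = f v := fun v e h1 h2 => (hf v).2 e ⟨h1, h2⟩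
  let g : Fin N → Fin N := fun v => if (f v).1 = v then (f v).2 else (f v).1
  have hg : ∀ v, ((f v).1 = v ∧ (f v).2 = g v) ∨ ((f v).1 = g v ∧ (f v).2 = v) := by
    intro v
    by_cases h : (f v).1 = v
    · left; exact ⟨h, by simp [g, h]⟩
    · right
      refine ⟨by simp [g, h], ?_⟩
      rcases hfv v with h1 | h1
      · exact absurd h1 h
      · exact h1
  have hfg : ∀ v, f (g v) = f v := by
    intro v
    symm
    refine huniq (g v) (f v) (hfM v) ?_
    rcases hg v with h | h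
    · exact Or.inr h.2
    · exact Or.inl h.1
  have hne : ∀ v, g v ≠ v := by
    intro v h
    have h1 := hlt _ (hfM v)
    rcases hg v with h2 | h2
    · rw [h2.1, h2.2, h] at h1; exact lt_irrefl _ h1
    · rw [h2.1, h2.2, h] at h1; exact lt_irrefl _ h1
  have hgg : ∀ v, g (g v) = v := by
    intro v
    have h1 := hg (g v)
    rw [hfg v] at h1
    rcases hg v with h2 | h2
    · rcases h1 with h3 | h3
      · exact absurd (h3.1.symm.trans h2.1) (hne v)
      · exact h3.1.symm.trans h2.1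
    · rcases h1 with h3 | h3
      · exact h3.2.symm.trans h2.2
      · exact absurd (h3.2.symm.trans h2.2) (hne v)
  refine ⟨fun x => if hx : x < N then (g ⟨x, hx⟩ : ℕ) else x, fun x hx => ?_⟩
  have hgx : (g ⟨x, hx⟩ : ℕ) < N := (g ⟨x, hx⟩).2
  simp only [hx, dif_pos, hgx, Fin.eta, hgg]
  refine ⟨trivial, trivial, f ⟨x, hx⟩, hMS (hfM _), ?_⟩
  rcases hg ⟨x, hx⟩ with h2 | h2
  · left; exact ⟨congrArg Fin.val h2.1, congrArg Fin.val h2.2⟩
  · right; exact ⟨congrArg Fin.val h2.1, congrArg Fin.val h2.2⟩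

theorem hasPM_of_inv {S : Finset (Fin N × Fin N)} (hS : ∀ e ∈ S, e.1 < e.2) (m : ℕ → ℕ)
    (hm : ∀ x < N, m x < N ∧ m (m x) = x ∧ Rel S x (m x)) : HasPM S := by
  have hne : ∀ x < N, m x ≠ x := by
    intro x hx h
    obtain ⟨e, he, h1⟩ := (hm x hx).2.2
    have h2 : (e.1 : ℕ) < e.2 := hS e he
    rw [h] at h1
    omega
  refine ⟨Finset.univ.filter fun e => e.1 < e.2 ∧ m (e.1 : ℕ) = (e.2 : ℕ), ?_, ?_, ?_⟩
  · intro e he
    simp only [Finset.mem_filter, Finset.mem_univ, true_and] at he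
    obtain ⟨he1, he2⟩ := he
    obtain ⟨e', he', h1⟩ := (hm e.1 e.1.2).2.2
    rw [he2] at h1
    have h2 : (e'.1 : ℕ) < e'.2 := hS e' he'
    have h3 : (e.1 : ℕ) < e.2 := he1
    have h4 : e' = e := by
      rcases h1 with h1 | h1
      · exact Prod.ext (Fin.ext h1.1) (Fin.ext h1.2)
      · omega
    rw [← h4]; exact he'
  · intro e he
    simp only [Finset.mem_filter, Finset.mem_univ, true_and] at he
    exact he.1
  · intro v
    obtain ⟨h1, h2, -⟩ := hm v v.2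
    have h3 := hne v v.2
    by_cases hv : (v : ℕ) < m v
    · refine ⟨(v, ⟨m v, h1⟩), ?_, ?_⟩
      · simp only [Finset.mem_filter, Finset.mem_univ, true_and, true_or, and_true]
        exact hv
      · rintro ⟨a, b⟩ ⟨he, hab⟩
        simp only [Finset.mem_filter, Finset.mem_univ, true_and] at he
        obtain ⟨he1, he2⟩ := he
        have he1' : (a : ℕ) < b := he1
        rcases hab with hab | hab
        · simp only at hab
          subst hab
          exact Prod.ext rfl (Fin.ext he2.symm)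
        · simp only at hab
          subst hab
          exfalso
          have h5 := (hm a a.2).2.1
          rw [he2] at h5
          omega
    · refine ⟨(⟨m v, h1⟩, v), ?_, ?_⟩
      · simp only [Finset.mem_filter, Finset.mem_univ, true_and, or_true, and_true, h2]
        show m v < (v : ℕ)
        omega
      · rintro ⟨a, b⟩ ⟨he, hab⟩
        simp only [Finset.mem_filter, Finset.mem_univ, true_and] at he
        obtain ⟨he1, he2⟩ := he
        have he1' : (a : ℕ) < b := he1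
        rcases hab with hab | hab
        · simp only at hab
          subst hab
          exfalso
          omega
        · simp only at hab
          subst hab
          have h5 := (hm a a.2).2.1
          rw [he2] at h5
          exact Prod.ext (Fin.ext h5.symm) rfl

/-! ### Matchings as involutions -/

theorem card_fix {h : ℕ} (m : ℕ → ℕ) (hm : ∀ v, m (m v) = v) (hlt : ∀ v, m v ≠ v → v < h)
    (M : Finset (ℕ × ℕ)) (hM : ∀ u v, (u, v) ∈ M ↔ u < v ∧ m u = v) :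
    ((range h).filter fun v => m v = v).card + 2 * M.card = h := by
  have hlt' : ∀ v, m v ≠ v → m v < h := fun v hv => hlt _ (by rw [hm]; exact hv.symm)
  have h1 : ((range h).filter fun v => v < m v).card = M.card := by
    refine Finset.card_bij (fun v _ => (v, m v)) ?_ ?_ ?_
    · intro v hv
      rw [Finset.mem_filter] at hv
      exact (hM _ _).2 ⟨hv.2, rfl⟩
    · intro v _ w _ h
      exact (Prod.ext_iff.mp h).1
    · rintro ⟨u, v⟩ he
      obtain ⟨h1, h2⟩ := (hM _ _).1 he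
      refine ⟨u, ?_, by rw [h2]⟩
      rw [Finset.mem_filter, Finset.mem_range]
      exact ⟨hlt u (by omega), by omega⟩
  have h2 : ((range h).filter fun v => m v < v).card = M.card := by
    refine Finset.card_bij (fun v _ => (m v, v)) ?_ ?_ ?_
    · intro v hv
      rw [Finset.mem_filter] at hv
      exact (hM _ _).2 ⟨hv.2, hm v⟩
    · intro v _ w _ h
      exact (Prod.ext_iff.mp h).2
    · rintro ⟨u, v⟩ he
      obtain ⟨h1, h2⟩ := (hM _ _).1 he
      have h3 : m v = u := by rw [← h2, hm]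
      refine ⟨v, ?_, by rw [h3]⟩
      rw [Finset.mem_filter, Finset.mem_range]
      exact ⟨hlt v (by omega), by omega⟩
  have h3 : (range h).card = ((range h).filter fun v => m v = v).card +
      (((range h).filter fun v => v < m v).card + ((range h).filter fun v => m v < v).card) := by
    rw [← Finset.card_union_of_disjoint, ← Finset.card_union_of_disjoint]
    · congr 1
      ext v
      simp only [Finset.mem_union, Finset.mem_filter]
      have := lt_trichotomy (m v) v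
      tauto
    · rw [Finset.disjoint_left]
      intro v
      simp only [Finset.mem_union, Finset.mem_filter]
      omega
    · rw [Finset.disjoint_left]
      intro v
      simp only [Finset.mem_filter]
      omega
  rw [Finset.card_range] at h3
  omega

theorem inv_of_isMat {Ad : ℕ → ℕ → Prop} (hsymm : ∀ u v, Ad u v → Ad v u) {M : Finset (ℕ × ℕ)}
    (hM : IsMat Ad M) : ∃ m : ℕ → ℕ, (∀ v, m (m v) = v) ∧ (∀ v, m v ≠ v → Ad v (m v)) ∧
      ∀ u v, (u, v) ∈ M ↔ u < v ∧ m u = v := by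
  classical
  obtain ⟨hM1, hM2⟩ := hM
  let m : ℕ → ℕ := fun v => if h : ∃ w, (v, w) ∈ M then h.choose else
    if h : ∃ w, (w, v) ∈ M then h.choose else v
  have h1 : ∀ u v, (u, v) ∈ M → m u = v := by
    intro u v huv
    have hex : ∃ w, (u, w) ∈ M := ⟨v, huv⟩
    have h2 := hM2 _ hex.choose_spec _ huv (Or.inl rfl)
    simp only [m, hex, dif_pos]
    exact (Prod.ext_iff.mp h2).2
  have h2 : ∀ u v, (u, v) ∈ M → m v = u := by
    intro u v huv
    have hno : ¬ ∃ w, (v, w) ∈ M := by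
      rintro ⟨w, hw⟩
      have h3 := hM2 _ hw _ huv (Or.inr (Or.inl rfl))
      have h4 := (hM1 _ huv).1
      have h5 := (Prod.ext_iff.mp h3).1
      simp only at h4 h5
      omega
    have hex : ∃ w, (w, v) ∈ M := ⟨u, huv⟩
    have h3 := hM2 _ hex.choose_spec _ huv (Or.inr (Or.inr (Or.inr rfl)))
    simp only [m, hno, dif_neg, not_false_eq_true, hex, dif_pos]
    exact (Prod.ext_iff.mp h3).1
  have h3 : ∀ v, m v ≠ v → (v, m v) ∈ M ∨ (m v, v) ∈ M := by
    intro v hv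
    by_cases ha : ∃ w, (v, w) ∈ M
    · obtain ⟨w, hw⟩ := ha
      left; rw [h1 _ _ hw]; exact hw
    · by_cases hb : ∃ w, (w, v) ∈ M
      · obtain ⟨w, hw⟩ := hb
        right; rw [h2 _ _ hw]; exact hw
      · exfalso; apply hv
        simp only [m, ha, hb, dif_neg, not_false_eq_true]
  refine ⟨m, ?_, ?_, ?_⟩
  · intro v
    by_cases hv : m v = v
    · rw [hv, hv]
    · rcases h3 v hv with h | h
      · exact h2 _ _ h
      · exact h1 _ _ h
  · intro v hv
    rcases h3 v hv with h | h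
    · exact (hM1 _ h).2
    · exact hsymm _ _ (hM1 _ h).2
  · intro u v
    constructor
    · intro h
      exact ⟨(hM1 _ h).1, h1 _ _ h⟩
    · rintro ⟨h4, h5⟩
      have h6 : m u ≠ u := by omega
      rcases h3 u h6 with h | h
      · rwa [h5] at h
      · have := (hM1 _ h).1
        simp only at this
        omega

/-- The pair of two numbers, smaller one first. -/
theorem rel_of_lt {S : Finset (Fin N × Fin N)} {x y : ℕ} (hx : x < N) (hy : y < N)
    (hxy : x ≠ y) (H : ∀ e : Fin N × Fin N, e.1 < e.2 →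
      (((e.1 : ℕ) = x ∧ (e.2 : ℕ) = y) ∨ ((e.1 : ℕ) = y ∧ (e.2 : ℕ) = x)) → e ∈ S) : Rel S x y := by
  rcases lt_or_gt_of_ne hxy with h | h
  · exact ⟨(⟨x, hx⟩, ⟨y, hy⟩), H _ h (Or.inl ⟨rfl, rfl⟩), Or.inl ⟨rfl, rfl⟩⟩
  · exact ⟨(⟨y, hy⟩, ⟨x, hx⟩), H _ h (Or.inr ⟨rfl, rfl⟩), Or.inr ⟨rfl, rfl⟩⟩

end E5b

open E5b in
theorem ideal_max (h : ℕ) (Ad : ℕ → ℕ → Prop) (hsymm : ∀ u v, Ad u v → Ad v u)
    (hlt : ∀ u v, Ad u v → u < h ∧ v < h) (l₂ l₃ : List (Fin (2 * h) × Fin (2 * h)))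
    (h₂ : ∀ e, e ∈ l₂ ↔ e ∈ PS (2 * h) h) (h₃ : ∀ e, e ∈ l₃ ↔ e ∈ GS (2 * h) Ad)
    (M : Finset (ℕ × ℕ))
    (hM : ∀ u v, (u, v) ∈ M ↔ ∃ (hu : u < 2 * h) (hv : v < 2 * h),
      ((⟨u, hu⟩, ⟨v, hv⟩) : Fin (2 * h) × Fin (2 * h)) ∈ GS (2 * h) Ad ∧
      ((⟨u, hu⟩, ⟨v, hv⟩) : Fin (2 * h) × Fin (2 * h)) ∈
        delRun l₃ (delRun l₂ (PS (2 * h) h ∪ (GS (2 * h) Ad ∪ CS (2 * h) h)))) :
    IsMaxMat Ad M := by
  set S₀ := PS (2 * h) h ∪ (GS (2 * h) Ad ∪ CS (2 * h) h) with hS₀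
  set S₁ := delRun l₂ S₀ with hS₁
  set S₂ := delRun l₃ S₁ with hS₂
  have hPS : ∀ e : Fin (2 * h) × Fin (2 * h), e ∈ PS (2 * h) h ↔ (e.2 : ℕ) = e.1 + h := by
    intro e; simp [PS]
  have hGS : ∀ e : Fin (2 * h) × Fin (2 * h), e ∈ GS (2 * h) Ad ↔ (e.1 : ℕ) < e.2 ∧ Ad e.1 e.2 := by
    intro e; simp [GS]
  have hCS : ∀ e : Fin (2 * h) × Fin (2 * h), e ∈ CS (2 * h) h ↔ (e.1 : ℕ) < e.2 ∧ h ≤ (e.1 : ℕ) := by
    intro e; simp [CS]
  have hmem₀ : ∀ e, e ∈ S₀ ↔ (e.2 : ℕ) = e.1 + h ∨ ((e.1 : ℕ) < e.2 ∧ Ad e.1 e.2) ∨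
      ((e.1 : ℕ) < e.2 ∧ h ≤ (e.1 : ℕ)) := by
    intro e
    rw [hS₀, Finset.mem_union, Finset.mem_union, hPS, hGS, hCS]
  have hsub₁ : S₁ ⊆ S₀ := delRun_subset _ _
  have hsub₂ : S₂ ⊆ S₁ := delRun_subset _ _
  have hord : ∀ e ∈ S₀, e.1 < e.2 := by
    intro e he
    have h1 := e.1.2
    show (e.1 : ℕ) < e.2
    rcases (hmem₀ e).1 he with h2 | h2 | h2
    · omega
    · exact h2.1
    · exact h2.1
  have hPM₀ : HasPM S₀ := ⟨PS (2 * h) h, Finset.subset_union_left, isPM_PS h⟩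
  have hPM₁ : HasPM S₁ := delRun_hasPM _ _ hPM₀
  have hPM₂ : HasPM S₂ := delRun_hasPM _ _ hPM₁
  have hG₁ : ∀ e : Fin (2 * h) × Fin (2 * h), (e.1 : ℕ) < e.2 → Ad e.1 e.2 → e ∈ S₁ := by
    intro e he1 he2
    refine mem_delRun_of_notMem _ _ _ ((hmem₀ e).2 (Or.inr (Or.inl ⟨he1, he2⟩))) ?_
    rw [h₂, hPS]
    have := (hlt _ _ he2).2
    omega
  have hC₁ : ∀ e : Fin (2 * h) × Fin (2 * h), (e.1 : ℕ) < e.2 → h ≤ (e.1 : ℕ) → e ∈ S₁ := by
    intro e he1 he2
    refine mem_delRun_of_notMem _ _ _ ((hmem₀ e).2 (Or.inr (Or.inr ⟨he1, he2⟩))) ?_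
    rw [h₂, hPS]
    have := e.2.2
    omega
  have hC₂ : ∀ e : Fin (2 * h) × Fin (2 * h), (e.1 : ℕ) < e.2 → h ≤ (e.1 : ℕ) → e ∈ S₂ := by
    intro e he1 he2
    refine mem_delRun_of_notMem _ _ _ (hC₁ e he1 he2) ?_
    rw [h₃, hGS]
    rintro ⟨-, h4⟩
    have := (hlt _ _ h4).1
    omega
  let A : ℕ → ℕ → Prop := fun u v => Ad u v ∧ u ≠ v
  let P : ℕ → Prop := fun v => ∃ e ∈ S₂, (e.1 : ℕ) = v ∧ (e.2 : ℕ) = v + h
  let F : ℕ → ℕ → Prop := fun u v => ∃ e ∈ S₂, Ad e.1 e.2 ∧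
    (((e.1 : ℕ) = u ∧ (e.2 : ℕ) = v) ∨ ((e.1 : ℕ) = v ∧ (e.2 : ℕ) = u))
  have hlt₂ : ∀ e ∈ S₂, (e.1 : ℕ) < e.2 := fun e he => hord e (hsub₁ (hsub₂ he))
  have hFA : ∀ u v, F u v → A u v := by
    rintro u v ⟨e, he, hA, h1⟩
    have h2 := hlt₂ e he
    rcases h1 with ⟨h3, h4⟩ | ⟨h3, h4⟩
    · rw [h3, h4] at hA; exact ⟨hA, by omega⟩
    · rw [h3, h4] at hA; exact ⟨hsymm _ _ hA, by omega⟩
  have hp1 : H81.PM h (H81.RR h P F) := by
    obtain ⟨m, hm⟩ := exists_inv hPM₂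
    refine ⟨m, fun x hx => ⟨(hm x hx).1, (hm x hx).2.1, ?_⟩⟩
    obtain ⟨e, he, h1⟩ := (hm x hx).2.2
    have h2 := hlt₂ e he
    have he1 := e.1.2
    have he2 := e.2.2
    rcases (hmem₀ e).1 (hsub₁ (hsub₂ he)) with h3 | h3 | h3
    · rcases h1 with ⟨h4, h5⟩ | ⟨h4, h5⟩
      · right; left
        exact ⟨by omega, by omega, e, he, h4, by omega⟩
      · right; right; left
        exact ⟨by omega, by omega, e, he, h4, by omega⟩
    · left
      have h6 := hlt _ _ h3.2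
      rcases h1 with ⟨h4, h5⟩ | ⟨h4, h5⟩
      · exact ⟨by omega, by omega, e, he, h3.2, Or.inl ⟨h4, h5⟩⟩
      · exact ⟨by omega, by omega, e, he, h3.2, Or.inr ⟨h4, h5⟩⟩
    · right; right; right
      rcases h1 with ⟨h4, h5⟩ | ⟨h4, h5⟩
      · exact ⟨by omega, by omega, by omega⟩
      · exact ⟨by omega, by omega, by omega⟩
  have hp2 : ∀ w < h, P w → ¬ H81.PM h (H81.RR h (fun v => P v ∧ v ≠ w) A) := by
    rintro w hw ⟨e, he, h1, h2⟩ ⟨m, hm⟩
    have he₁ := hsub₂ he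
    refine delRun_min l₂ S₀ e ((h₂ e).2 ((hPS e).2 (by omega))) he₁ ?_
    refine hasPM_of_inv (fun e' he' => hord e' (hsub₁ (Finset.mem_of_mem_erase he'))) m
      fun x hx => ⟨(hm x hx).1, (hm x hx).2.1, ?_⟩
    have hmx := (hm x hx).1
    rcases (hm x hx).2.2 with ⟨h3, h4, h5, h6⟩ | ⟨h3, h4, ⟨e', he', h5, h6⟩, h7⟩ |
      ⟨h3, h4, ⟨e', he', h5, h6⟩, h7⟩ | ⟨h3, h4, h5⟩
    · refine rel_of_lt hx hmx h6 fun e' h7 h8 => Finset.mem_erase.mpr ⟨?_, hG₁ e' h7 ?_⟩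
      · rintro rfl; omega
      · rcases h8 with ⟨h8, h9⟩ | ⟨h8, h9⟩
        · rw [h8, h9]; exact h5
        · rw [h8, h9]; exact hsymm _ _ h5
    · refine ⟨e', Finset.mem_erase.mpr ⟨?_, hsub₂ he'⟩, Or.inl ⟨h5, by omega⟩⟩
      rintro rfl; omega
    · refine ⟨e', Finset.mem_erase.mpr ⟨?_, hsub₂ he'⟩, Or.inr ⟨h5, by omega⟩⟩
      rintro rfl; omega
    · refine rel_of_lt hx hmx h5 fun e' h7 h8 => Finset.mem_erase.mpr ⟨?_, hC₁ e' h7 ?_⟩
      · rintro rfl; omega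
      · omega
  have hp3 : ∀ u v, F u v → ¬ H81.PM h (H81.RR h P fun x y => F x y ∧ ¬ (x = u ∧ y = v) ∧
      ¬ (x = v ∧ y = u)) := by
    rintro u v ⟨e, he, hA, h1⟩ ⟨m, hm⟩
    have h2 := hlt₂ e he
    have h2' := hlt _ _ hA
    refine delRun_min l₃ S₁ e ((h₃ e).2 ((hGS e).2 ⟨h2, hA⟩)) he ?_
    refine hasPM_of_inv (fun e' he' => hord e' (hsub₁ (hsub₂ (Finset.mem_of_mem_erase he')))) m
      fun x hx => ⟨(hm x hx).1, (hm x hx).2.1, ?_⟩
    have hmx := (hm x hx).1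
    rcases (hm x hx).2.2 with ⟨h3, h4, ⟨e', he', h5, h6⟩, h7, h8⟩ | ⟨h3, h4, e', he', h5, h6⟩ |
      ⟨h3, h4, e', he', h5, h6⟩ | ⟨h3, h4, h5⟩
    · refine ⟨e', Finset.mem_erase.mpr ⟨?_, he'⟩, h6⟩
      rintro rfl
      omega
    · refine ⟨e', Finset.mem_erase.mpr ⟨?_, he'⟩, Or.inl ⟨h5, by omega⟩⟩
      rintro rfl; omega
    · refine ⟨e', Finset.mem_erase.mpr ⟨?_, he'⟩, Or.inr ⟨h5, by omega⟩⟩
      rintro rfl; omega
    · refine rel_of_lt hx hmx h5 fun e' h7 h8 => Finset.mem_erase.mpr ⟨?_, hC₂ e' h7 ?_⟩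
      · rintro rfl; omega
      · omega
  obtain ⟨m, hm, hmA, hmax, hF⟩ := H81.max_of_minimal (A := A) (n := h)
    (fun u v H => ⟨hsymm _ _ H.1, H.2.symm⟩) (fun u H => H.2 rfl) (fun u v H => (hlt _ _ H.1).1)
    le_rfl P F hFA hp1 hp2 hp3
  have hM' : ∀ u v, (u, v) ∈ M ↔ u < v ∧ m u = v := by
    intro u v
    rw [hM]
    constructor
    · rintro ⟨hu, hv, h1, h2⟩
      obtain ⟨h3, h4⟩ := (hGS _).1 h1
      have h5 : F u v := ⟨_, h2, h4, Or.inl ⟨rfl, rfl⟩⟩
      exact ⟨h3, ((hF u v).1 h5).1⟩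
    · rintro ⟨h1, h2⟩
      obtain ⟨e, he, hA, h3⟩ := (hF u v).2 ⟨h2, by omega⟩
      have h4 := hlt₂ e he
      rcases h3 with ⟨h5, h6⟩ | ⟨h5, h6⟩
      · have hu : u < 2 * h := by rw [← h5]; exact e.1.2
        have hv : v < 2 * h := by rw [← h6]; exact e.2.2
        have h7 : ((⟨u, hu⟩, ⟨v, hv⟩) : Fin (2 * h) × Fin (2 * h)) = e :=
          Prod.ext (Fin.ext h5.symm) (Fin.ext h6.symm)
        refine ⟨hu, hv, ?_, ?_⟩
        · rw [h7]; exact (hGS e).2 ⟨h4, hA⟩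
        · rw [h7]; exact he
      · omega
  have hmh : ∀ v, m v ≠ v → v < h := fun v hv => (hlt _ _ (hmA v hv).1).1
  refine ⟨⟨?_, ?_⟩, ?_⟩
  · rintro ⟨u, v⟩ he
    obtain ⟨h1, h2⟩ := (hM' u v).1 he
    have h3 := (hmA u (by omega)).1
    rw [h2] at h3
    exact ⟨h1, h3⟩
  · rintro ⟨u, v⟩ he ⟨u', v'⟩ he' hcase
    obtain ⟨h1, h2⟩ := (hM' u v).1 he
    obtain ⟨h1', h2'⟩ := (hM' u' v').1 he'
    have h3 : m v = u := by rw [← h2, hm]
    have h3' : m v' = u' := by rw [← h2', hm]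
    simp only at hcase
    rcases hcase with h4 | h4 | h4 | h4
    · subst h4; rw [Prod.mk.injEq]; omega
    · subst h4; omega
    · subst h4; omega
    · subst h4; rw [Prod.mk.injEq]; omega
  · intro M' hMat
    obtain ⟨m', hm', hmA', hM''⟩ := inv_of_isMat hsymm hMat
    have h1 := card_fix (h := h) m hm hmh M hM'
    have h2 := card_fix (h := h) m' hm' (fun v hv => (hlt _ _ (hmA' v hv)).1) M' hM''
    have h3 := hmax m' hm' (fun v hv => ⟨hmA' v hv, hv.symm⟩)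
    omega

end Vale.Agent.P305.MM
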