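import Vale.Agent.P305.MM.TD
import Vale.Agent.P305.MM.TE3
import Vale.Agent.P305.MM.TE4a
import Vale.Agent.P305.MM.TE4b
import Vale.Agent.P305.MM.TE4c
import Vale.Agent.P305.MM.TE4d
import Vale.Agent.P305.MM.TE5b

/-! TASK E6 (the pure algorithm finds a maximum matching if two chains are nonsingular) -/

set_option autoImplicit false

namespace Vale.Agent.P305.MM

open Finset

namespace E6

open E4

open Classical in
/-- The pairs of vertices of those positions of a list that satisfy `P`. -/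
noncomputable def fl {N : ℕ} (hN : 0 < N) (P : ℕ × ℕ → Prop) (l : List (ℕ × ℕ)) :
    List (Fin N × Fin N) :=
  (l.filter (fun ab => decide (P ab))).map (gP hN)

theorem gF_val {N : ℕ} (hN : 0 < N) (a : Fin N) : gF hN (a : ℕ) = a := by
  apply Fin.ext
  simp [gF, Nat.mod_eq_of_lt a.2]

theorem gF_val' {N : ℕ} (hN : 0 < N) (a : ℕ) (ha : a < N) : ((gF hN a : Fin N) : ℕ) = a := by
  simp [gF, Nat.mod_eq_of_lt ha]

theorem mem_fl {N : ℕ} (hN : 0 < N) (P : ℕ × ℕ → Prop) (l : List (ℕ × ℕ))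
    (hl : ∀ a b, (a, b) ∈ l ↔ a < N ∧ b < N) (e : Fin N × Fin N) :
    e ∈ fl hN P l ↔ P (e.1, e.2) := by
  classical
  unfold fl
  rw [List.mem_map]
  constructor
  · rintro ⟨⟨a, b⟩, hab, rfl⟩
    rw [List.mem_filter] at hab
    have h1 := (hl a b).1 hab.1
    have h2 : P (a, b) := by simpa using hab.2
    simpa only [gP, gF_val' hN a h1.1, gF_val' hN b h1.2] using h2
  · intro h
    refine ⟨(e.1, e.2), ?_, ?_⟩
    · rw [List.mem_filter]
      exact ⟨(hl _ _).2 ⟨e.1.2, e.2.2⟩, by simpa using h⟩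
    · simp only [gP, gF_val]

theorem nodup_fl {N : ℕ} (hN : 0 < N) (P : ℕ × ℕ → Prop) (l : List (ℕ × ℕ))
    (hl : ∀ a b, (a, b) ∈ l ↔ a < N ∧ b < N) (hnd : l.Nodup) : (fl hN P l).Nodup := by
  classical
  unfold fl
  refine List.Nodup.map_on ?_ (hnd.filter _)
  rintro ⟨a, b⟩ hab ⟨c, d⟩ hcd h
  have h1 := (hl a b).1 (List.mem_of_mem_filter hab)
  have h2 := (hl c d).1 (List.mem_of_mem_filter hcd)
  exact gP_inj hN h1.1 h1.2 h2.1 h2.2 h

/-- The recursive procedure on top level. -/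
theorem cross_top {F : Type} [Field F] [DecidableEq F] (σ : ℕ) (hσ : 1 ≤ σ) (L N : ℕ)
    (hN : σ ^ L = N) (hN0 : 0 < N) (T : Matrix (Fin N) (Fin N) F) (hT : Alt T) (hdet : T.det ≠ 0)
    (Nf D : ℕ → ℕ → F) (hD : ∀ a < N, D a a = 0)
    (hNf : ∀ x < 2 * N, ∀ y < 2 * N, Nf x y = T⁻¹ (gF hN0 x) (gF hN0 y)) :
    Alt (seqRun (gF hN0) (gF hN0) (ord σ L) (T, D)).1 ∧
    (seqRun (gF hN0) (gF hN0) (ord σ L) (T, D)).1.det ≠ 0 ∧
    (∀ x < 2 * N, ∀ y < 2 * N, (crossF σ L (Nf, D)).1 x y =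
      (seqRun (gF hN0) (gF hN0) (ord σ L) (T, D)).1⁻¹ (gF hN0 x) (gF hN0 y)) ∧
    (∀ a < N, ∀ b < N, (crossF σ L (Nf, D)).2 a b =
      (seqRun (gF hN0) (gF hN0) (ord σ L) (T, D)).2 a b) := by
  have hg : ∀ x < 2 * N, (if x < N then gF hN0 x else gF hN0 (x - N)) = gF hN0 x := by
    intro x hx
    split_ifs with hlt
    · rfl
    · apply Fin.ext
      simp only [gF]
      rw [Nat.mod_eq_sub_mod (a := x) (by omega)]
  have h := cross_correct σ hσ L (gF hN0) (gF hN0) T hT hdet Nf D ?_ ?_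
  · rw [hN] at h
    refine ⟨h.1, h.2.1, fun x hx y hy => ?_, h.2.2.2⟩
    rw [h.2.2.1 x hx y hy, hg x hx, hg y hy]
  · rw [hN]
    intro a ha b hb hab
    have := gF_inj hN0 ha hb hab
    subst this
    exact hD a ha
  · rw [hN]
    intro a ha b hb
    rw [hNf a ha b hb, hg a ha, hg b hb]

end E6

open E4 E6

theorem top_good (σ L h : ℕ) (hσ : 1 ≤ σ) (hh : 0 < h) (hN : σ ^ L = 2 * h) (Ad : ℕ → ℕ → Prop)
    (hsymm : ∀ u v, Ad u v → Ad v u) (hlt : ∀ u v, Ad u v → u < h ∧ v < h) :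
    ∃ (S₀ S₁ : Finset (Fin (2 * h) × Fin (2 * h))) (es₀ es₁ : List (Fin (2 * h) × Fin (2 * h))),
      (IsPM S₀ ∧ es₀.Nodup ∧ ∀ e ∈ es₀, e.1 < e.2 ∧ e ∉ S₀) ∧
      (IsPM S₁ ∧ es₁.Nodup ∧ ∀ e ∈ es₁, e.1 < e.2 ∧ e ∉ S₁) ∧
      ∀ (F : Type) [Field F] [DecidableEq F] (x : Fin (2 * h) → Fin (2 * h) → F),
        (∀ u v, x u v ≠ 0) → ChainOK S₀ es₀ x → ChainOK S₁ es₁ x →
        ∀ M : Finset (ℕ × ℕ), (∀ u v, (u, v) ∈ M ↔
          (⟨h, Ad, fun u v => x (gF (by omega) u) (gF (by omega) v)⟩ : Top F).mat σ L u v) →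
        IsMaxMat Ad M := by
  classical
  have hN0 : 0 < 2 * h := by omega
  have hl : ∀ a b, (a, b) ∈ ord σ L ↔ a < 2 * h ∧ b < 2 * h := by
    intro a b
    rw [mem_ord σ hσ L a b, hN]
  have hnd := ord_nodup σ L
  obtain ⟨S1, hS1⟩ : ∃ S1, S1 = PS (2 * h) h ∪ (GS (2 * h) Ad ∪ CS (2 * h) h) := ⟨_, rfl⟩
  obtain ⟨P1, hP1⟩ : ∃ P1 : ℕ × ℕ → Prop, P1 = fun ab => ab.1 < ab.2 ∧ (Ad ab.1 ab.2 ∨ h ≤ ab.1) :=
    ⟨_, rfl⟩
  obtain ⟨P2, hP2⟩ : ∃ P2 : ℕ × ℕ → Prop, P2 = fun ab => ab.2 = ab.1 + h := ⟨_, rfl⟩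
  obtain ⟨P3, hP3⟩ : ∃ P3 : ℕ × ℕ → Prop, P3 = fun ab => ab.1 < ab.2 ∧ Ad ab.1 ab.2 := ⟨_, rfl⟩
  have hm1 : ∀ e, e ∈ fl hN0 P1 (ord σ L) ↔ e ∈ GS (2 * h) Ad ∪ CS (2 * h) h := by
    intro e
    rw [mem_fl hN0 P1 _ hl, hP1, mem_union, GS, CS, mem_filter, mem_filter]
    simp only [mem_univ, true_and, Fin.lt_def]
    tauto
  have hm2 : ∀ e, e ∈ fl hN0 P2 (ord σ L) ↔ e ∈ PS (2 * h) h := by
    intro e
    rw [mem_fl hN0 P2 _ hl, hP2, PS, mem_filter]
    simp only [mem_univ, true_and]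
  have hm3 : ∀ e, e ∈ fl hN0 P3 (ord σ L) ↔ e ∈ GS (2 * h) Ad := by
    intro e
    rw [mem_fl hN0 P3 _ hl, hP3, GS, mem_filter]
    simp only [mem_univ, true_and, Fin.lt_def]
  have hGP : ∀ e, e ∈ GS (2 * h) Ad → e ∉ PS (2 * h) h := by
    intro e he hp
    rw [GS, mem_filter] at he
    rw [PS, mem_filter] at hp
    have h1 := hlt _ _ he.2.2
    have h2 := hp.2
    omega
  have hCP : ∀ e, e ∈ CS (2 * h) h → e ∉ PS (2 * h) h := by
    intro e he hp
    rw [CS, mem_filter] at he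
    rw [PS, mem_filter] at hp
    have h1 := he.2.2
    have h2 := hp.2
    have h3 := e.2.2
    omega
  have hS1lt : ∀ e ∈ S1, e.1 < e.2 := by
    intro e he
    rw [hS1, mem_union, mem_union] at he
    rcases he with he | he | he
    · rw [PS, mem_filter] at he
      rw [Fin.lt_def]
      have := he.2
      omega
    · rw [GS, mem_filter] at he; exact he.2.1
    · rw [CS, mem_filter] at he; exact he.2.1
  have hS1pm : HasPM S1 := ⟨PS (2 * h) h, by rw [hS1]; exact subset_union_left, isPM_PS h⟩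
  obtain ⟨M₀, es₁, hM₀, hnd₁, hes₁, hdel⟩ := del_chain S1 hS1lt hS1pm
    (fl hN0 P2 (ord σ L) ++ fl hN0 P3 (ord σ L))
  refine ⟨PS (2 * h) h, M₀, fl hN0 P1 (ord σ L), es₁,
    ⟨isPM_PS h, nodup_fl hN0 P1 _ hl hnd, ?_⟩, ⟨hM₀, hnd₁, hes₁⟩, ?_⟩
  · intro e he
    rw [hm1, mem_union] at he
    refine ⟨hS1lt e ?_, fun hp => ?_⟩
    · rw [hS1, mem_union, mem_union]; exact Or.inr he
    · rcases he with he | he
      · exact hGP e he hp
      · exact hCP e he hp
  intro F _ _ x hx hc0 hc1 M hM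
  obtain ⟨τ, hτ⟩ : ∃ τ : Top F, τ = ⟨h, Ad, fun u v => x (gF hN0 u) (gF hN0 v)⟩ := ⟨_, rfl⟩
  have hM' : ∀ u v, (u, v) ∈ M ↔ τ.mat σ L u v := by
    intro u v
    rw [hM u v, hτ]
  have hτh : τ.h = h := by rw [hτ]
  have hτA : τ.Ad = Ad := by rw [hτ]
  have hτx : τ.x = fun u v => x (gF hN0 u) (gF hN0 v) := by rw [hτ]
  have hltord : ∀ ab ∈ ord σ L, ab.1 < 2 * h ∧ ab.2 < 2 * h := fun ab hab => (hl ab.1 ab.2).1 hab
  -- determinants along the runs
  have hdet0 : (TS x (PS (2 * h) h)).det ≠ 0 := by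
    have := hc0 0 (Nat.zero_le _)
    rwa [List.take_zero, List.toFinset_nil, union_empty] at this
  have hdetk : ∀ k ≤ (fl hN0 P2 (ord σ L) ++ fl hN0 P3 (ord σ L)).length,
      (TS x (delRun ((fl hN0 P2 (ord σ L) ++ fl hN0 P3 (ord σ L)).take k) S1)).det ≠ 0 := by
    intro k hk
    obtain ⟨j, hj, hj'⟩ := hdel k hk
    rw [hj']
    exact hc1 j hj
  -- first pass
  have hins := seqRun_ins hN0 x hx (PS (2 * h) h) P1 (ord σ L) hnd hltord (by
      intro ab hab hp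
      have h1 : gP hN0 ab ∈ fl hN0 P1 (ord σ L) := by
        unfold fl
        rw [List.mem_map]
        exact ⟨ab, by rw [List.mem_filter]; exact ⟨hab, by simpa using hp⟩, rfl⟩
      refine ⟨?_, fun hq => ?_⟩
      · rw [hP1] at hp; exact hp.1
      · rw [hm1, mem_union] at h1
        rcases h1 with h1 | h1
        · exact hGP _ h1 hq
        · exact hCP _ h1 hq) τ.D1 (by
      intro ab _
      unfold Top.D1
      rw [hτh, hτA, hτx, hP1]
      by_cases hp : ab.1 < ab.2 ∧ (Ad ab.1 ab.2 ∨ h ≤ ab.1)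
      · rw [if_pos hp, if_pos hp]
      · rw [if_neg hp, if_neg hp]) hc0
  have hset : PS (2 * h) h ∪ (List.map (gP hN0)
      (List.filter (fun ab => decide (P1 ab)) (ord σ L))).toFinset = S1 := by
    ext e
    rw [hS1, mem_union, mem_union, List.mem_toFinset]
    have := hm1 e
    unfold fl at this
    rw [this]
  rw [hset] at hins
  have hcr1 := cross_top σ hσ L (2 * h) hN hN0 (TS x (PS (2 * h) h)) (alt_TS x _) hdet0
    (dbl (2 * τ.h) τ.N0) τ.D1 (by
      intro a _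
      unfold Top.D1
      rw [if_neg (by omega)]) (by
      intro a _ b _
      rw [inv_pendant h x hx]
      unfold dbl Top.N0
      rw [hτh, hτx]
      have hv : ∀ c : ℕ, ((gF hN0 c : Fin (2 * h)) : ℕ) = c % (2 * h) := fun c => rfl
      have hmm : ∀ c : ℕ, gF hN0 (c % (2 * h)) = gF hN0 c := fun c =>
        Fin.ext (by simp [gF])
      simp only [hv, hmm])
  -- second pass
  have hdetS1 : (TS x S1).det ≠ 0 := by
    have := hdetk 0 (Nat.zero_le _)
    rwa [List.take_zero, delRun] at this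
  have hdrn := seqRun_del hN0 x hx S1 hS1lt P2 (ord σ L) hnd hltord (by
      intro ab hab hp
      have h1 : gP hN0 ab ∈ fl hN0 P2 (ord σ L) := by
        unfold fl
        rw [List.mem_map]
        exact ⟨ab, by rw [List.mem_filter]; exact ⟨hab, by simpa using hp⟩, rfl⟩
      rw [hm2] at h1
      rw [hS1, mem_union]
      exact Or.inl h1) τ.D2 (by
      intro ab _
      unfold Top.D2
      rw [hτh, hτx, hP2]
      by_cases hp : ab.2 = ab.1 + h
      · rw [if_pos hp, if_pos hp]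
      · rw [if_neg hp, if_neg hp]) (by
      intro k hk
      have hk' : k ≤ (fl hN0 P2 (ord σ L)).length := by
        unfold fl; rw [List.length_map]; exact hk
      have := hdetk k (by rw [List.length_append]; omega)
      rw [List.take_append_of_le_length hk'] at this
      exact this)
  have hcr2 := cross_top σ hσ L (2 * h) hN hN0 (TS x S1) (alt_TS x _) hdetS1
    (τ.out1 σ L).1 τ.D2 (by
      intro a _
      unfold Top.D2
      rw [hτh, if_neg (by omega)]) (by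
      intro a ha b hb
      unfold Top.out1
      rw [hcr1.2.2.1 a ha b hb, hins.1])
  obtain ⟨S2, hS2⟩ : ∃ S2, S2 = delRun (fl hN0 P2 (ord σ L)) S1 := ⟨_, rfl⟩
  have hS2' : delRun (List.map (gP hN0) (List.filter (fun ab => decide (P2 ab)) (ord σ L))) S1
      = S2 := by
    rw [hS2]; rfl
  rw [hS2'] at hdrn
  have hS2sub : ∀ e ∈ S2, e ∈ S1 := by
    have : ∀ (l : List (Fin (2 * h) × Fin (2 * h))) (S : Finset (Fin (2 * h) × Fin (2 * h))),
        ∀ e ∈ delRun l S, e ∈ S := by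
      intro l
      induction l with
      | nil => intro S e he; exact he
      | cons c l ih =>
        intro S e he
        simp only [delRun] at he
        have := ih _ e he
        split_ifs at this with hc
        · exact (mem_erase.1 this).2
        · exact this
    intro e he
    rw [hS2] at he
    exact this _ _ e he
  have hdetS2 : (TS x S2).det ≠ 0 := by
    have := hdetk (fl hN0 P2 (ord σ L)).length (by rw [List.length_append]; omega)
    rwa [List.take_append_of_le_length le_rfl, List.take_length, ← hS2] at this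
  have hout1 : ∀ a < 2 * h, ∀ b < 2 * h, (τ.out1 σ L).2 a b = τ.D1 a b := by
    intro a ha b hb
    unfold Top.out1
    rw [hcr1.2.2.2 a ha b hb, hins.2]
  -- third pass
  have hdrn3 := seqRun_del hN0 x hx S2 (fun e he => hS1lt e (hS2sub e he)) P3 (ord σ L) hnd
    hltord (by
      intro ab hab hp
      have h1 : gP hN0 ab ∈ fl hN0 P3 (ord σ L) := by
        unfold fl
        rw [List.mem_map]
        exact ⟨ab, by rw [List.mem_filter]; exact ⟨hab, by simpa using hp⟩, rfl⟩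
      rw [hm3] at h1
      rw [hS2, mem_delRun _ _ _ (fun hq => hGP _ h1 ((hm2 _).1 hq)), hS1, mem_union, mem_union]
      exact Or.inr (Or.inl h1)) (τ.D3 (τ.out1 σ L).2) (by
      intro ab hab
      have hab' := hltord ab hab
      unfold Top.D3
      rw [hτA, hP3, hout1 _ hab'.1 _ hab'.2]
      unfold Top.D1
      rw [hτh, hτA, hτx]
      by_cases hp : ab.1 < ab.2 ∧ Ad ab.1 ab.2
      · rw [if_pos hp, if_pos hp, if_pos ⟨hp.1, Or.inl hp.2⟩]
      · rw [if_neg hp, if_neg hp]) (by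
      intro k hk
      have hk' : k ≤ (fl hN0 P3 (ord σ L)).length := by
        unfold fl; rw [List.length_map]; exact hk
      have := hdetk ((fl hN0 P2 (ord σ L)).length + k) (by rw [List.length_append]; omega)
      rw [List.take_length_add_append, delRun_append, ← hS2] at this
      exact this)
  have hcr3 := cross_top σ hσ L (2 * h) hN hN0 (TS x S2) (alt_TS x _) hdetS2
    (τ.out2 σ L).1 (τ.D3 (τ.out1 σ L).2) (by
      intro a _
      unfold Top.D3
      rw [if_neg (by omega)]) (by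
      intro a ha b hb
      unfold Top.out2
      rw [hcr2.2.2.1 a ha b hb, hdrn.1])
  refine ideal_max h Ad hsymm hlt (fl hN0 P2 (ord σ L)) (fl hN0 P3 (ord σ L)) hm2 hm3 M ?_
  intro u v
  rw [hM' u v]
  unfold Top.mat
  rw [hτA]
  constructor
  · rintro ⟨huv, hA, h0⟩
    have hb := hlt u v hA
    have hu : u < 2 * h := by omega
    have hv : v < 2 * h := by omega
    have hgu : gF hN0 u = ⟨u, hu⟩ := Fin.ext (gF_val' hN0 u hu)
    have hgv : gF hN0 v = ⟨v, hv⟩ := Fin.ext (gF_val' hN0 v hv)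
    refine ⟨hu, hv, ?_, ?_⟩
    · rw [GS, mem_filter]
      exact ⟨mem_univ _, by rw [Fin.lt_def]; exact huv, hA⟩
    · have h1 := hdrn3.2 (u, v) ((hl u v).2 ⟨hu, hv⟩) (by rw [hP3]; exact ⟨huv, hA⟩)
      have h2 : (τ.out3 σ L).2 u v = 0 := h0
      unfold Top.out3 at h2
      rw [hcr3.2.2.2 u hu v hv] at h2
      have h3 := h1.1 h2
      have hgp : gP hN0 (u, v) = (⟨u, hu⟩, ⟨v, hv⟩) := by simp only [gP, hgu, hgv]
      rw [hS2, hS1, hgp] at h3
      exact h3
  · rintro ⟨hu, hv, hG, hD⟩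
    have hgu : gF hN0 u = ⟨u, hu⟩ := Fin.ext (gF_val' hN0 u hu)
    have hgv : gF hN0 v = ⟨v, hv⟩ := Fin.ext (gF_val' hN0 v hv)
    rw [GS, mem_filter] at hG
    have huv : u < v := hG.2.1
    have hA : Ad u v := hG.2.2
    refine ⟨huv, hA, ?_⟩
    have h1 := hdrn3.2 (u, v) ((hl u v).2 ⟨hu, hv⟩) (by rw [hP3]; exact ⟨huv, hA⟩)
    unfold Top.out3
    rw [hcr3.2.2.2 u hu v hv]
    apply h1.2
    have hgp : gP hN0 (u, v) = (⟨u, hu⟩, ⟨v, hv⟩) := by simp only [gP, hgu, hgv]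
    rw [hS2, hS1, hgp]
    exact hD

end Vale.Agent.P305.MM
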