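import Vale.Agent.P305.MM.TN

/-! TASK F1 (sizes) -/

set_option autoImplicit false

namespace Vale.Agent.P305.MM

open Finset

namespace F1

/-- The expression for the `L`-th power of register `x`. -/
def powE (x : ℕ) : ℕ → E
  | 0 => .const 1
  | L + 1 => .mul (powE x L) (.reg x)

theorem powE_eval (env : Env) (s : St) (x : ℕ) (L : ℕ) : (powE x L).eval env s = s.r x ^ L := by
  induction L with
  | zero => simp only [powE, E.eval, pow_zero]
  | succ L ih => simp only [powE, E.eval, ih, pow_succ]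

/-- `r (100 + 10 l) := (r 4) ^ l` for `l ≤ L`. -/
def powsC : ℕ → C
  | 0 => .asg 100 (.const 1)
  | l + 1 => .seq (powsC l) (.asg (100 + 10 * (l + 1)) (.mul (.reg (100 + 10 * l)) (.reg 4)))

theorem pows_tri (env : Env) (cap σ : ℕ) (hσ : 1 ≤ σ) (L : ℕ) (s : St) (h4 : s.r 4 = σ)
    (hcap : σ ^ L ≤ cap) :
    Tri env cap (powsC L) s (L + 1) (fun s' =>
      (∀ x, x < 100 → s'.r x = s.r x) ∧ (∀ l ≤ L, s'.r (100 + 10 * l) = σ ^ l) ∧
      s'.a = s.a ∧ s'.pos = s.pos) := by
  induction L with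
  | zero =>
    refine (Tri.asg (env := env) (cap := cap) (d := 100) (e := .const 1) (s := s) ?_ ?_).mono
      (by omega) (fun s' h => h)
    · simpa only [E.eval, pow_zero] using hcap
    · refine ⟨?_, ?_, rfl, rfl⟩
      · intro x hx
        simp only [St.set_r]
        rw [Function.update_of_ne (by omega)]
      · intro l hl
        have : l = 0 := by omega
        subst this
        simp [E.eval]
  | succ L ih =>
    have h1 : σ ^ L ≤ cap := le_trans (Nat.pow_le_pow_right hσ (Nat.le_succ L)) hcap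
    refine (Tri.seq (ih h1) (fun s' hs' => ?_) (t' := 1)).mono (by omega) (fun s' h => h)
    obtain ⟨hr, hp, ha, hpos⟩ := hs'
    have hev : (E.mul (.reg (100 + 10 * L)) (.reg 4)).eval env s' = σ ^ (L + 1) := by
      simp only [E.eval, hp L le_rfl, hr 4 (by omega), h4, pow_succ]
    refine Tri.asg ?_ ?_
    · rw [hev]; exact hcap
    · rw [hev]
      refine ⟨?_, ?_, ?_, ?_⟩
      · intro x hx
        simp only [St.set_r]
        rw [Function.update_of_ne (by omega), hr x hx]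
      · intro l hl
        simp only [St.set_r]
        rcases Nat.lt_or_ge L l with h | h
        · have : l = L + 1 := by omega
          subst this
          rw [Function.update_self]
        · rw [Function.update_of_ne (by omega), hp l h]
      · simpa only [St.set_a] using ha
      · simpa only [St.set_pos] using hpos

/-- The expression `2 n + 2` (`n` in register `0`). -/
def len : E := .add (.mul (.const 2) (.reg 0)) (.const 2)

/-- The loop body. -/
def body (𝔸 : Alg) (L : ℕ) : C :=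
  .ite (powE 4 L) len (.seq (.asg 4 (.mul (.reg 4) (.const 𝔸.q))) (.asg 5 (.add (.reg 5) (.const 1))))
    .skip

theorem pow_lt_of_lt_kap (𝔸 : Alg) (L n j : ℕ) (h : j < kap 𝔸 L n) :
    (𝔸.q ^ j) ^ L < 2 * n + 2 := by
  have := Nat.notMem_of_lt_sInf h
  simp only [Set.mem_ofPred_eq, not_le] at this
  exact this

theorem kap_le (𝔸 : Alg) {L : ℕ} (hL : 1 ≤ L) (n : ℕ) : kap 𝔸 L n ≤ 2 * n + 2 := by
  apply Nat.sInf_le
  simp only [Set.mem_ofPred_eq]
  have h2 := 𝔸.two_le
  calc 2 * n + 2 ≤ 2 ^ (2 * n + 2) := (Nat.lt_two_pow_self).le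
    _ ≤ 𝔸.q ^ (2 * n + 2) := Nat.pow_le_pow_left h2 _
    _ = (𝔸.q ^ (2 * n + 2)) ^ 1 := (pow_one _).symm
    _ ≤ (𝔸.q ^ (2 * n + 2)) ^ L := Nat.pow_le_pow_right (Nat.pow_pos (by omega)) hL

theorem loop_tri (𝔸 : Alg) (L : ℕ) (hL : 1 ≤ L) (env : Env) (cap n : ℕ) (hcap : nV 𝔸 L n ≤ cap)
    (s : St) (h0 : s.r 0 = n) (h4 : s.r 4 = 1) (h5 : s.r 5 = 0) :
    Tri env cap (.for_ 40 len (body 𝔸 L)) s (1 + (2 * n + 2) * (1 + (1 + 2))) (fun s' =>
      s'.r 0 = n ∧ s'.r 4 = 𝔸.q ^ kap 𝔸 L n ∧ s'.r 5 = kap 𝔸 L n ∧ s'.a = s.a ∧ s'.pos = s.pos) := by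
  have hq := 𝔸.two_le
  have hlen : len.eval env s = 2 * n + 2 := by simp only [len, E.eval, h0]
  have hnV := le_nV 𝔸 hL n
  have hk := kap_le 𝔸 hL n
  have hσk : ∀ j ≤ kap 𝔸 L n, 𝔸.q ^ j ≤ cap := by
    intro j hj
    refine le_trans ?_ hcap
    calc 𝔸.q ^ j ≤ 𝔸.q ^ kap 𝔸 L n := Nat.pow_le_pow_right (by omega) hj
      _ = (𝔸.q ^ kap 𝔸 L n) ^ 1 := (pow_one _).symm
      _ ≤ (𝔸.q ^ kap 𝔸 L n) ^ L := Nat.pow_le_pow_right (Nat.pow_pos (by omega)) hL
  have h := Tri.for_ (env := env) (cap := cap) (i := 40) (e := len) (p := body 𝔸 L) (s := s)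
    (T := 1 + 2) (fun k s' => s'.r 0 = n ∧ s'.r 4 = 𝔸.q ^ (min k (kap 𝔸 L n)) ∧
      s'.r 5 = min k (kap 𝔸 L n) ∧ s'.a = s.a ∧ s'.pos = s.pos)
    (Q := fun s' => s'.r 0 = n ∧ s'.r 4 = 𝔸.q ^ kap 𝔸 L n ∧ s'.r 5 = kap 𝔸 L n ∧ s'.a = s.a ∧
      s'.pos = s.pos) (by rw [hlen]; omega) ⟨h0, by simp [h4], by simp [h5], rfl, rfl⟩ ?_ ?_
  · refine h.mono (by rw [hlen]) (fun _ h => h)
  · rw [hlen]
    intro k hk' s' ⟨g0, g4, g5, ga, gp⟩
    have e4 : (s'.set 40 k).r 4 = 𝔸.q ^ (min k (kap 𝔸 L n)) := by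
      simp only [St.set_r]; rw [Function.update_of_ne (by omega), g4]
    have e0 : (s'.set 40 k).r 0 = n := by
      simp only [St.set_r]; rw [Function.update_of_ne (by omega), g0]
    have e5 : (s'.set 40 k).r 5 = min k (kap 𝔸 L n) := by
      simp only [St.set_r]; rw [Function.update_of_ne (by omega), g5]
    have hle : len.eval env (s'.set 40 k) = 2 * n + 2 := by simp only [len, E.eval, e0]
    apply Tri.ite
    · intro hc
      rw [powE_eval, e4, hle] at hc
      have hlt : min k (kap 𝔸 L n) < kap 𝔸 L n := by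
        rcases Nat.lt_or_ge (min k (kap 𝔸 L n)) (kap 𝔸 L n) with h' | h'
        · exact h'
        · exfalso
          have : min k (kap 𝔸 L n) = kap 𝔸 L n := le_antisymm (min_le_right _ _) h'
          rw [this] at hc
          have := le_nV 𝔸 hL n
          unfold nV at this
          omega
      have hkk : k < kap 𝔸 L n := by
        rcases Nat.lt_or_ge k (kap 𝔸 L n) with h' | h'
        · exact h'
        · rw [min_eq_right h'] at hlt; omega
      have hm : min k (kap 𝔸 L n) = k := min_eq_left hkk.le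
      have hm' : min (k + 1) (kap 𝔸 L n) = k + 1 := min_eq_left hkk
      rw [hm] at e4 e5
      have ev1 : (E.mul (.reg 4) (.const 𝔸.q)).eval env (s'.set 40 k) = 𝔸.q ^ (k + 1) := by
        simp only [E.eval, e4, pow_succ]
      refine Tri.seq (t := 1) (t' := 1) (Q := fun s'' => s'' = (s'.set 40 k).set 4 (𝔸.q ^ (k + 1)))
        (Tri.asg (by rw [ev1]; exact hσk _ hkk) (by rw [ev1])) ?_
      rintro s'' rfl
      have ev2 : (E.add (.reg 5) (.const 1)).eval env ((s'.set 40 k).set 4 (𝔸.q ^ (k + 1))) =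
          k + 1 := by
        simp only [E.eval]
        rw [St.set_r, Function.update_of_ne (by omega), e5]
      refine Tri.asg (by rw [ev2]; omega) ?_
      rw [ev2, hm']
      refine ⟨?_, ?_, ?_, ga, gp⟩
      · simp only [St.set_r]
        rw [Function.update_of_ne (by omega), Function.update_of_ne (by omega),
          Function.update_of_ne (by omega), g0]
      · simp only [St.set_r]
        rw [Function.update_of_ne (by omega), Function.update_self]
      · simp only [St.set_r]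
        rw [Function.update_self]
    · intro hc
      rw [powE_eval, e4, hle] at hc
      have hge : kap 𝔸 L n ≤ k := by
        rcases Nat.lt_or_ge k (kap 𝔸 L n) with h' | h'
        · exfalso
          apply hc
          rw [min_eq_left h'.le]
          exact pow_lt_of_lt_kap 𝔸 L n k h'
        · exact h'
      refine (Tri.skip (env := env) (cap := cap) (s := s'.set 40 k) (Q := fun s' =>
        s'.r 0 = n ∧ s'.r 4 = 𝔸.q ^ (min (k + 1) (kap 𝔸 L n)) ∧
        s'.r 5 = min (k + 1) (kap 𝔸 L n) ∧ s'.a = s.a ∧ s'.pos = s.pos) ?_).mono (by omega)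
        (fun _ h => h)
      rw [min_eq_right (by omega : kap 𝔸 L n ≤ k + 1)]
      rw [min_eq_right hge] at e4 e5
      exact ⟨e0, e4, e5, ga, gp⟩
  · rw [hlen]
    intro s' ⟨g0, g4, g5, ga, gp⟩
    rw [min_eq_right hk] at g4 g5
    exact ⟨g0, g4, g5, ga, gp⟩

end F1

/-- `n := raw 0; σ := 1; κ := 0;` `2 n + 2` times: if `σ ^ L < 2 n + 2` then `σ := σ q; κ := κ + 1`;
then `r (100 + 10 l) := σ ^ l` for `l ≤ L`, `r 2 := σ ^ L`, `r 3 := r 2 / 2`. -/
def sizesC (𝔸 : Alg) (L : ℕ) : C :=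
  .seq (.asg 0 (.raw (.const 0))) <| .seq (.asg 4 (.const 1)) <| .seq (.asg 5 (.const 0)) <|
  .seq (.for_ 40 F1.len (F1.body 𝔸 L)) <| .seq (F1.powsC L) <|
  .seq (.asg 2 (.reg (100 + 10 * L))) <| .asg 3 (.div (.reg 2) (.const 2))

theorem sizes_tri (𝔸 : Alg) (L : ℕ) (hL : 1 ≤ L) : ∃ c : ℕ, ∀ (env : Env) (cap n : ℕ),
    env.inp.getD 0 0 = n → big 𝔸 L n ≤ cap →
    Tri env cap (sizesC 𝔸 L) St.init (c * nV 𝔸 L n) (fun s' =>
      s'.r 0 = n ∧ s'.r 2 = nV 𝔸 L n ∧ s'.r 3 = nV 𝔸 L n / 2 ∧ s'.r 4 = 𝔸.q ^ kap 𝔸 L n ∧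
      s'.r 5 = kap 𝔸 L n ∧ (∀ l ≤ L, s'.r (100 + 10 * l) = (𝔸.q ^ kap 𝔸 L n) ^ l) ∧
      s'.a = St.init.a ∧ s'.pos = 0) := by
  refine ⟨L + 20, fun env cap n hn hbig => ?_⟩
  have hnV := le_nV 𝔸 hL n
  have hD := 𝔸.D_pos
  have hq := 𝔸.two_le
  have hcap : nV 𝔸 L n ≤ cap := by
    refine le_trans ?_ hbig
    unfold big
    have h1 : nV 𝔸 L n ≤ 1000 * 𝔸.D * nV 𝔸 L n ^ 2 := by
      calc nV 𝔸 L n = 1 * 1 * nV 𝔸 L n ^ 1 := by ring
        _ ≤ 1000 * 𝔸.D * nV 𝔸 L n ^ 2 := by
          apply Nat.mul_le_mul (Nat.mul_le_mul (by norm_num) hD)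
          exact Nat.pow_le_pow_right (by omega) (by norm_num)
    omega
  have hcost : 1 + (1 + (1 + ((1 + (2 * n + 2) * (1 + (1 + 2))) + ((L + 1) + (1 + 1))))) ≤
      (L + 20) * nV 𝔸 L n := by
    nlinarith
  refine Tri.mono ?_ hcost (fun _ h => h)
  unfold sizesC
  refine Tri.seq (Q := fun s' => s' = St.init.set 0 n) (Tri.asg ?_ ?_) ?_
  · simp only [E.eval, hn]; omega
  · simp only [E.eval, hn]
  rintro s1 rfl
  refine Tri.seq (Q := fun s' => s' = (St.init.set 0 n).set 4 1) (Tri.asg ?_ ?_) ?_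
  · simp only [E.eval]; omega
  · simp only [E.eval]
  rintro s1 rfl
  refine Tri.seq (Q := fun s' => s' = ((St.init.set 0 n).set 4 1).set 5 0) (Tri.asg ?_ ?_) ?_
  · simp only [E.eval]; omega
  · simp only [E.eval]
  rintro s1 rfl
  refine Tri.seq (F1.loop_tri 𝔸 L hL env cap n hcap _ ?_ ?_ ?_) ?_
  · simp only [St.set_r]
    rw [Function.update_of_ne (by omega), Function.update_of_ne (by omega), Function.update_self]
  · simp only [St.set_r]
    rw [Function.update_of_ne (by omega), Function.update_self]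
  · simp only [St.set_r]
    rw [Function.update_self]
  rintro s2 ⟨g0, g4, g5, ga, gp⟩
  refine Tri.seq (F1.pows_tri env cap (𝔸.q ^ kap 𝔸 L n) (Nat.pow_pos (by omega)) L s2 g4 hcap) ?_
  rintro s3 ⟨hr, hp, ha, hpos⟩
  refine Tri.seq (Q := fun s' => s' = s3.set 2 (nV 𝔸 L n)) (Tri.asg ?_ ?_) ?_
  · simp only [E.eval, hp L le_rfl]; exact hcap
  · simp only [E.eval, hp L le_rfl]; rfl
  rintro s4 rfl
  have ev : (E.div (.reg 2) (.const 2)).eval env (s3.set 2 (nV 𝔸 L n)) = nV 𝔸 L n / 2 := by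
    simp only [E.eval, St.set_r, Function.update_self]
  refine Tri.asg ?_ ?_
  · rw [ev]; omega
  · rw [ev]
    refine ⟨?_, ?_, ?_, ?_, ?_, ?_, ?_, ?_⟩
    · simp only [St.set_r]
      rw [Function.update_of_ne (by omega), Function.update_of_ne (by omega), hr 0 (by omega), g0]
    · simp only [St.set_r]
      rw [Function.update_of_ne (by omega), Function.update_self]
    · simp only [St.set_r]
      rw [Function.update_self]
    · simp only [St.set_r]
      rw [Function.update_of_ne (by omega), Function.update_of_ne (by omega), hr 4 (by omega), g4]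
    · simp only [St.set_r]
      rw [Function.update_of_ne (by omega), Function.update_of_ne (by omega), hr 5 (by omega), g5]
    · intro l hl
      simp only [St.set_r]
      rw [Function.update_of_ne (by omega), Function.update_of_ne (by omega), hp l hl]
    · simp only [St.set_a, ha, ga]
    · simp only [St.set_pos, hpos, gp]; rfl

end Vale.Agent.P305.MM
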