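import Mathlib.NumberTheory.Bertrand
import Vale.Agent.P305.MM.ParamFacts

/-! TASK F2 (bits, sieve, prime). `pw := 1; b := 0;` `12 D nn` times: if `pw < 12 D nn²` then
`pw := 2 pw; b := b + 1`. Sieve: `for d < 2 pw + 1`: if `2 ≤ d`: `for k < 2 pw / d + 1`: if `2 ≤ k`
then `a 2 [d k] := 1`. Then `for x < pw`: if `a 2 [pw + 1 + x] = 0` then `p := pw + 1 + x`. -/

set_option autoImplicit false

namespace Vale.Agent.P305.MM

open Finset

namespace H984

/-- No random bits are drawn. -/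
def NoCoin : C → Prop
  | .skip => True
  | .asg _ _ => True
  | .sto _ _ _ => True
  | .coin _ => False
  | .seq p q => NoCoin p ∧ NoCoin q
  | .ite _ _ p q => NoCoin p ∧ NoCoin q
  | .for_ _ _ p => NoCoin p

theorem run_pos {env : Env} (c : C) (hx : NoCoin c) (s : St) : (run env c s).pos = s.pos := by
  induction c generalizing s with
  | skip => simp only [run]
  | asg d e => simp only [run, St.set_pos]
  | sto j e₁ e₂ => simp only [run, St.put_pos]
  | coin d => exact absurd hx (by simp only [NoCoin, not_false_eq_true])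
  | seq p q ihp ihq =>
    simp only [NoCoin] at hx
    simp only [run]
    rw [ihq hx.2, ihp hx.1]
  | ite e₁ e₂ p q ihp ihq =>
    simp only [NoCoin] at hx
    simp only [run]
    split
    · exact ihp hx.1 s
    · exact ihq hx.2 s
  | for_ i e p ih =>
    simp only [NoCoin] at hx
    simp only [run]
    generalize e.eval env s = n
    induction n with
    | zero => simp only [iter]
    | succ n ihn =>
      simp only [iter]
      rw [ih hx, St.set_pos, ihn]

/-- Add the frame of a command without random bits to a triple. -/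
theorem Tri.frame {env : Env} {cap : ℕ} {c : C} {s : St} {t : ℕ} {Q : St → Prop}
    (h : Tri env cap c s t Q) (hn : NoCoin c) : Tri env cap c s t (fun s' => Q s' ∧
      (∀ x, ¬ c.wr x → s'.r x = s.r x) ∧ (∀ j, ¬ c.wa j → s'.a j = s.a j) ∧ s'.pos = s.pos) :=
  ⟨h.1, h.2.1, h.2.2, fun _ hx => run_frame_r c hx s, fun _ hx => run_frame_a c hx s,
    run_pos c hn s⟩

/-- Dyadic bound for the harmonic sum. -/
theorem sum_div_le (P : ℕ) : ∀ B : ℕ, ∑ d ∈ range (2 ^ B), P / d ≤ P * B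
  | 0 => by simp
  | B + 1 => by
    have h1 := sum_div_le P B
    have h2 : ∑ x ∈ range (2 ^ B), P / (2 ^ B + x) ≤ P := by
      calc ∑ x ∈ range (2 ^ B), P / (2 ^ B + x) ≤ ∑ x ∈ range (2 ^ B), P / 2 ^ B :=
            Finset.sum_le_sum fun x _ => Nat.div_le_div_left (Nat.le_add_right _ _) (by positivity)
        _ = 2 ^ B * (P / 2 ^ B) := by rw [Finset.sum_const, Finset.card_range, smul_eq_mul]
        _ ≤ P := Nat.mul_div_le _ _
    rw [pow_succ, Nat.mul_two, Finset.sum_range_add, Nat.mul_add, Nat.mul_one]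
    exact Nat.add_le_add h1 h2

/-- `m` is marked after the rounds `d < k` of the sieve. -/
def Mk (P k m : ℕ) : Prop := ∃ d, 2 ≤ d ∧ d < k ∧ ∃ e, 2 ≤ e ∧ e < P / d + 1 ∧ d * e = m

theorem prime_iff_not_mk {P m : ℕ} (h2 : 2 ≤ m) (hm : m ≤ P) :
    m.Prime ↔ ¬ Mk P (P + 1) m := by
  constructor
  · rintro hp ⟨d, hd, -, e, he, -, hde⟩
    exact Nat.not_prime_of_mul_eq hde (by omega) (by omega) hp
  · intro h
    by_contra hp
    apply h
    have h1 : m.minFac ∣ m := Nat.minFac_dvd m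
    obtain ⟨e, he⟩ := h1
    have hpr : m.minFac.Prime := Nat.minFac_prime (by omega)
    have hd2 : 2 ≤ m.minFac := hpr.two_le
    have he0 : e ≠ 0 := by rintro rfl; rw [Nat.mul_zero] at he; omega
    have he1 : e ≠ 1 := by
      rintro rfl
      rw [Nat.mul_one] at he
      exact hp (he ▸ hpr)
    have hdm : m.minFac ≤ m := Nat.minFac_le (by omega)
    refine ⟨m.minFac, hd2, by omega, e, by omega, ?_, he.symm⟩
    rw [Nat.lt_add_one_iff, Nat.le_div_iff_mul_le (by omega), Nat.mul_comm, ← he]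
    exact hm

end H984

open H984

/-- The loop computing the number of bits. -/
def bitsC (𝔸 : Alg) : C :=
  .for_ 40 (.mul (.const (12 * 𝔸.D)) (.reg 2))
    (.ite (.reg 6) (.mul (.mul (.const (12 * 𝔸.D)) (.reg 2)) (.reg 2))
      (.seq (.asg 6 (.mul (.const 2) (.reg 6))) (.asg 7 (.add (.reg 7) (.const 1)))) .skip)

/-- The sieve. -/
def sieveC : C :=
  .for_ 41 (.add (.mul (.const 2) (.reg 6)) (.const 1))
    (.ite (.const 1) (.reg 41)
      (.for_ 42 (.add (.div (.mul (.const 2) (.reg 6)) (.reg 41)) (.const 1))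
        (.ite (.const 1) (.reg 42) (.sto 2 (.mul (.reg 41) (.reg 42)) (.const 1)) .skip))
      .skip)

/-- The search for the prime. -/
def findC : C :=
  .for_ 43 (.reg 6)
    (.ite (.ld 2 (.add (.add (.reg 6) (.const 1)) (.reg 43))) (.const 1)
      (.asg 1 (.add (.add (.reg 6) (.const 1)) (.reg 43))) .skip)

def primeC (𝔸 : Alg) : C :=
  .seq (.asg 6 (.const 1)) (.seq (.asg 7 (.const 0)) (.seq (bitsC 𝔸) (.seq sieveC findC)))

namespace H984

theorem bits_tri (𝔸 : Alg) {L : ℕ} (hL : 1 ≤ L) (env : Env) (cap n : ℕ) (s : St)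
    (h2 : s.r 2 = nV 𝔸 L n) (h6 : s.r 6 = 1) (h7 : s.r 7 = 0) (hcap : big 𝔸 L n ≤ cap) :
    Tri env cap (bitsC 𝔸) s (1 + 12 * 𝔸.D * nV 𝔸 L n * (1 + (1 + 2))) (fun s' =>
      s'.r 6 = 2 ^ bit 𝔸 L n ∧ s'.r 7 = bit 𝔸 L n) := by
  set nn := nV 𝔸 L n with hnn
  set b := bit 𝔸 L n with hb
  have hnn2 : 2 ≤ nn := by have := le_nV 𝔸 hL n; omega
  have hD := 𝔸.D_pos
  have hlow : ∀ k, k < b → 2 ^ k < 12 * 𝔸.D * nn ^ 2 := by
    intro k hk
    have := Nat.notMem_of_lt_sInf (s := {b | 12 * 𝔸.D * nV 𝔸 L n ^ 2 ≤ 2 ^ b}) hk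
    simpa using this
  have hup : ∀ k, b ≤ k → 12 * 𝔸.D * nn ^ 2 ≤ 2 ^ k := by
    intro k hk
    exact (le_bit 𝔸 hL n).trans (Nat.pow_le_pow_right (by norm_num) hk)
  have hbig : 1000 * 𝔸.D * nn ^ 2 ≤ cap := le_trans (by unfold big; exact Nat.le_add_right _ _) hcap
  have hnn1 : nn ≤ nn ^ 2 := by nlinarith
  have hDnn : 𝔸.D * nn ≤ 𝔸.D * nn ^ 2 := Nat.mul_le_mul_left _ hnn1
  have hDnn' : 1 ≤ 𝔸.D * nn ^ 2 := Nat.mul_pos hD (by positivity)
  have hcapD : 1000 * (𝔸.D * nn ^ 2) ≤ cap := by rw [← Nat.mul_assoc]; exact hbig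
  have hble : b ≤ 12 * 𝔸.D * nn := by
    by_contra hlt
    have h3 := hlow _ (not_le.mp hlt)
    have h4 : ∀ y : ℕ, 4 ≤ y → y ^ 2 ≤ 2 ^ y := by
      intro y hy
      induction y, hy using Nat.le_induction with
      | base => norm_num
      | succ y hy ih => rw [pow_succ 2 y]; nlinarith
    have h5 := h4 (12 * 𝔸.D * nn) (by
      have : 12 * 1 * 2 ≤ 12 * 𝔸.D * nn := Nat.mul_le_mul (Nat.mul_le_mul_left _ hD) hnn2
      omega)
    have h6 : 12 * 𝔸.D * nn ^ 2 ≤ (12 * 𝔸.D * nn) ^ 2 := by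
      have : 12 * 𝔸.D ≤ (12 * 𝔸.D) ^ 2 := Nat.le_self_pow (by norm_num) _
      calc 12 * 𝔸.D * nn ^ 2 ≤ (12 * 𝔸.D) ^ 2 * nn ^ 2 := Nat.mul_le_mul_right _ this
        _ = (12 * 𝔸.D * nn) ^ 2 := by ring
    omega
  have he : (E.mul (.const (12 * 𝔸.D)) (.reg 2)).eval env s = 12 * 𝔸.D * nn := by
    simp only [E.eval, h2]
  have := Tri.for_ (env := env) (cap := cap) (i := 40) (e := .mul (.const (12 * 𝔸.D)) (.reg 2))
    (p := .ite (.reg 6) (.mul (.mul (.const (12 * 𝔸.D)) (.reg 2)) (.reg 2))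
      (.seq (.asg 6 (.mul (.const 2) (.reg 6))) (.asg 7 (.add (.reg 7) (.const 1)))) .skip)
    (s := s) (T := 1 + 2)
    (fun k s' => s'.r 2 = nn ∧ s'.r 6 = 2 ^ min k b ∧ s'.r 7 = min k b)
    (Q := fun s' => s'.r 6 = 2 ^ b ∧ s'.r 7 = b)
    (by rw [he, Nat.mul_assoc]; omega) ⟨h2, by simpa using h6, by simpa using h7⟩ ?_ ?_
  · rw [he] at this
    exact this
  · intro k hk s' ⟨i2, i6, i7⟩
    rw [he] at hk
    apply Tri.ite
    · intro hlt
      have hlt2 : 2 ^ min k b < 12 * 𝔸.D * nn * nn := by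
        simpa [E.eval, Function.update_apply, i2, i6] using hlt
      have hkb : k < b := by
        by_contra hge
        rw [min_eq_right (not_lt.mp hge)] at hlt2
        have := hup b le_rfl
        rw [pow_two, ← Nat.mul_assoc] at this
        omega
      have hm1 : min k b = k := min_eq_left hkb.le
      have hm2 : min (k + 1) b = k + 1 := min_eq_left hkb
      have hlt' := hlow k hkb
      apply Tri.seq (Q := fun s' => s'.r 2 = nn ∧ s'.r 6 = 2 ^ (k + 1) ∧ s'.r 7 = k) (t := 1)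
        (t' := 1)
      · apply Tri.asg
        · have : (E.mul (.const 2) (.reg 6)).eval env (s'.set 40 k) = 2 * 2 ^ k := by
            simp [E.eval, i6, hm1]
          rw [this]
          rw [Nat.mul_assoc] at hlt'
          omega
        · refine ⟨?_, ?_, ?_⟩
          · simp [i2]
          · simp [E.eval, i6, hm1, pow_succ, Nat.mul_comm]
          · simp [i7, hm1]
      · intro s'' ⟨j2, j6, j7⟩
        apply Tri.asg
        · simp only [E.eval, j7]
          rw [Nat.mul_assoc] at hk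
          omega
        · refine ⟨?_, ?_, ?_⟩
          · simp [j2]
          · simp [j6, hm2]
          · simp [E.eval, j7, hm2]
    · intro hlt
      have hlt2 : ¬ 2 ^ min k b < 12 * 𝔸.D * nn * nn := by
        simpa [E.eval, Function.update_apply, i2, i6] using hlt
      have hkb : b ≤ k := by
        by_contra hge
        rw [min_eq_left (not_le.mp hge).le] at hlt2
        have := hlow k (not_le.mp hge)
        rw [pow_two, ← Nat.mul_assoc] at this
        omega
      refine (Tri.skip ?_).mono (by norm_num) (fun _ h => h)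
      have hm1 : min k b = b := min_eq_right hkb
      have hm2 : min (k + 1) b = b := min_eq_right (by omega)
      refine ⟨?_, ?_, ?_⟩
      · simp [i2]
      · simp [i6, hm1, hm2]
      · simp [i7, hm1, hm2]
  · intro s' ⟨_, i6, i7⟩
    rw [he, min_eq_right hble] at i6 i7
    exact ⟨i6, i7⟩

theorem sieve_tri (env : Env) (cap P : ℕ) (B : ℕ) (s : St) (h6 : 2 * s.r 6 = P)
    (h0 : ∀ x, s.a 2 x = 0) (hcap : P + 1 ≤ cap) (hP1 : 1 ≤ cap) (hB : P + 1 ≤ 2 ^ B) :
    Tri env cap sieveC s (1 + (6 * (P + 1) + 3 * (P * B))) (fun s' =>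
      ∀ m, s'.a 2 m = 0 ↔ ¬ Mk P (P + 1) m) := by
  have he : (E.add (.mul (.const 2) (.reg 6)) (.const 1)).eval env s = P + 1 := by
    simp only [E.eval, h6]
  have h := Tri.forSum (env := env) (cap := cap) (i := 41)
    (e := .add (.mul (.const 2) (.reg 6)) (.const 1))
    (p := .ite (.const 1) (.reg 41)
      (.for_ 42 (.add (.div (.mul (.const 2) (.reg 6)) (.reg 41)) (.const 1))
        (.ite (.const 1) (.reg 42) (.sto 2 (.mul (.reg 41) (.reg 42)) (.const 1)) .skip))
      .skip)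
    (s := s) (T := fun d => 1 + (1 + (P / d + 1) * (1 + (1 + 1))))
    (fun k s' => 2 * s'.r 6 = P ∧ ∀ m, s'.a 2 m = 0 ↔ ¬ Mk P k m)
    (Q := fun s' => ∀ m, s'.a 2 m = 0 ↔ ¬ Mk P (P + 1) m)
    (by rw [he]; exact hcap) ⟨h6, fun m => by
      rw [h0 m]
      simp [Mk]⟩ ?_ ?_
  · rw [he] at h
    refine h.mono ?_ (fun _ h => h)
    have h1 : ∑ k ∈ range (P + 1), (1 + (1 + (1 + (P / k + 1) * (1 + (1 + 1)))))
        = 6 * (P + 1) + 3 * ∑ k ∈ range (P + 1), P / k := by
      have : ∀ k, 1 + (1 + (1 + (P / k + 1) * (1 + (1 + 1)))) = 6 + 3 * (P / k) := fun k => by ring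
      simp only [this]
      rw [Finset.sum_add_distrib, Finset.mul_sum, Finset.sum_const, Finset.card_range, smul_eq_mul,
        Nat.mul_comm (P + 1) 6]
    have h2 : ∑ k ∈ range (P + 1), P / k ≤ ∑ k ∈ range (2 ^ B), P / k :=
      Finset.sum_le_sum_of_subset_of_nonneg (Finset.range_mono hB) fun _ _ _ => Nat.zero_le _
    have h3 := sum_div_le P B
    rw [h1]
    omega
  · intro k hk s' ⟨i6, im⟩
    rw [he] at hk
    apply Tri.ite
    · intro hlt
      have hk2 : 2 ≤ k := by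
        have : 1 < k := by simpa [E.eval] using hlt
        exact this
      have he' : (E.add (.div (.mul (.const 2) (.reg 6)) (.reg 41)) (.const 1)).eval env
          (s'.set 41 k) = P / k + 1 := by
        simp [E.eval, i6]
      have h' := Tri.for_ (env := env) (cap := cap) (i := 42)
        (e := .add (.div (.mul (.const 2) (.reg 6)) (.reg 41)) (.const 1))
        (p := .ite (.const 1) (.reg 42) (.sto 2 (.mul (.reg 41) (.reg 42)) (.const 1)) .skip)
        (s := s'.set 41 k) (T := 1 + 1)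
        (fun j s'' => 2 * s''.r 6 = P ∧ s''.r 41 = k ∧
          ∀ m, s''.a 2 m = 0 ↔ ¬ (Mk P k m ∨ ∃ e, 2 ≤ e ∧ e < j ∧ k * e = m))
        (Q := fun s' => 2 * s'.r 6 = P ∧ ∀ m, s'.a 2 m = 0 ↔ ¬ Mk P (k + 1) m)
        ?_ ?_ ?_ ?_
      · rw [he'] at h'
        exact h'
      · rw [he']
        have := Nat.div_le_self P k
        omega
      · refine ⟨by simpa using i6, by simp, fun m => ?_⟩
        simp only [St.set_a]
        rw [im m]
        constructor
        · rintro h1 (h2 | ⟨e, he1, he2, -⟩)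
          · exact h1 h2
          · omega
        · intro h1 h2
          exact h1 (Or.inl h2)
      · intro j hj s'' ⟨j6, j41, jm⟩
        rw [he'] at hj
        apply Tri.ite
        · intro hlt'
          have hj2 : 2 ≤ j := by
            have : 1 < j := by simpa [E.eval] using hlt'
            exact this
          apply Tri.sto
          · simpa [E.eval] using hP1
          · refine ⟨by simpa using j6, by simpa using j41, fun m => ?_⟩
            have hev : (E.mul (.reg 41) (.reg 42)).eval env (s''.set 42 j) = k * j := by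
              simp [E.eval, j41]
            rw [hev]
            simp only [St.put_a, St.set_a, Function.update_self, E.eval, Function.update_apply]
            by_cases hm : m = k * j
            · rw [if_pos hm]
              constructor
              · intro h1; omega
              · intro h1
                exact absurd (Or.inr ⟨j, hj2, by omega, hm.symm⟩) h1
            · rw [if_neg hm, jm m]
              constructor
              · rintro h1 (h2 | ⟨e, he1, he2, he3⟩)
                · exact h1 (Or.inl h2)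
                · rcases Nat.lt_succ_iff_lt_or_eq.mp he2 with h3 | h3
                  · exact h1 (Or.inr ⟨e, he1, h3, he3⟩)
                  · subst h3; exact hm he3.symm
              · rintro h1 (h2 | ⟨e, he1, he2, he3⟩)
                · exact h1 (Or.inl h2)
                · exact h1 (Or.inr ⟨e, he1, by omega, he3⟩)
        · intro hlt'
          have hj2 : ¬ 1 < j := by simpa [E.eval] using hlt'
          refine Tri.skip ?_
          refine ⟨by simpa using j6, by simpa using j41, fun m => ?_⟩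
          simp only [St.set_a]
          rw [jm m]
          constructor
          · rintro h1 (h2 | ⟨e, he1, he2, he3⟩)
            · exact h1 (Or.inl h2)
            · omega
          · rintro h1 (h2 | ⟨e, he1, he2, he3⟩)
            · exact h1 (Or.inl h2)
            · omega
      · intro s'' ⟨j6, _, jm⟩
        rw [he'] at jm
        refine ⟨j6, fun m => ?_⟩
        rw [jm m]
        constructor
        · rintro h1 ⟨d, hd, hd', e, he1, he2, he3⟩
          rcases Nat.lt_succ_iff_lt_or_eq.mp hd' with h3 | h3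
          · exact h1 (Or.inl ⟨d, hd, h3, e, he1, he2, he3⟩)
          · subst h3; exact h1 (Or.inr ⟨e, he1, he2, he3⟩)
        · rintro h1 (⟨d, hd, hd', e, he1, he2, he3⟩ | ⟨e, he1, he2, he3⟩)
          · exact h1 ⟨d, hd, by omega, e, he1, he2, he3⟩
          · exact h1 ⟨k, hk2, by omega, e, he1, he2, he3⟩
    · intro hlt
      have hk2 : ¬ 1 < k := by simpa [E.eval] using hlt
      refine (Tri.skip ?_).mono (by omega) (fun _ h => h)
      refine ⟨by simpa using i6, fun m => ?_⟩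
      simp only [St.set_a]
      rw [im m]
      constructor
      · rintro h1 ⟨d, hd, hd', h2⟩
        omega
      · rintro h1 ⟨d, hd, hd', h2⟩
        omega
  · intro s' ⟨_, im⟩ m
    rw [he] at im
    exact im m

theorem find_tri (env : Env) (cap w : ℕ) (s : St) (h6 : s.r 6 = w) (hw : 0 < w)
    (h2 : ∀ m, s.a 2 m = 0 ↔ ¬ Mk (2 * w) (2 * w + 1) m) (hcap : 2 * w ≤ cap) :
    Tri env cap findC s (1 + w * (1 + (1 + 1))) (fun s' =>
      s'.r 1 = Nat.findGreatest Nat.Prime (2 * w)) := by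
  have he : (E.reg 6).eval env s = w := by simp only [E.eval, h6]
  have h := Tri.for_ (env := env) (cap := cap) (i := 43) (e := .reg 6)
    (p := .ite (.ld 2 (.add (.add (.reg 6) (.const 1)) (.reg 43))) (.const 1)
      (.asg 1 (.add (.add (.reg 6) (.const 1)) (.reg 43))) .skip)
    (s := s) (T := 1 + 1)
    (fun k s' => s'.r 6 = w ∧ (∀ m, s'.a 2 m = 0 ↔ ¬ Mk (2 * w) (2 * w + 1) m) ∧
      ∀ q, q.Prime → w < q → q ≤ w + k → s'.r 1 = Nat.findGreatest Nat.Prime (w + k))
    (Q := fun s' => s'.r 1 = Nat.findGreatest Nat.Prime (2 * w))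
    (by rw [he]; omega) ⟨h6, h2, fun q _ h1 h2 => by omega⟩ ?_ ?_
  · rw [he] at h
    exact h
  · intro k hk s' ⟨i6, im, iq⟩
    rw [he] at hk
    have hev : (E.add (.add (.reg 6) (.const 1)) (.reg 43)).eval env (s'.set 43 k) = w + 1 + k := by
      simp [E.eval, i6]
    have hev2 : (E.ld 2 (.add (.add (.reg 6) (.const 1)) (.reg 43))).eval env (s'.set 43 k)
        = s'.a 2 (w + 1 + k) := by
      rw [E.eval, hev, St.set_a]
    have hpm : (w + 1 + k).Prime ↔ ¬ Mk (2 * w) (2 * w + 1) (w + 1 + k) :=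
      prime_iff_not_mk (by omega) (by omega)
    apply Tri.ite
    · intro hlt
      rw [hev2] at hlt
      have h0 : s'.a 2 (w + 1 + k) = 0 := by simpa [E.eval] using hlt
      have hp : (w + 1 + k).Prime := hpm.mpr ((im _).mp h0)
      apply Tri.asg
      · rw [hev]; omega
      · refine ⟨by simpa using i6, by simpa using im, fun q _ _ _ => ?_⟩
        rw [hev]
        simp only [St.set_r, Function.update_self]
        rw [show w + (k + 1) = w + 1 + k by omega]
        exact (Nat.findGreatest_eq hp).symm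
    · intro hlt
      rw [hev2] at hlt
      have h0 : ¬ s'.a 2 (w + 1 + k) = 0 := by simpa [E.eval] using hlt
      have hp : ¬ (w + 1 + k).Prime := fun h => h0 ((im _).mpr (hpm.mp h))
      apply Tri.skip
      refine ⟨by simpa using i6, by simpa using im, fun q hq h1 h2 => ?_⟩
      have hq' : q ≠ w + 1 + k := by rintro rfl; exact hp hq
      have := iq q hq h1 (by omega)
      simp only [St.set_r, ne_eq, Nat.reduceEqDiff, not_false_eq_true, Function.update_of_ne]
      rw [this, show w + (k + 1) = (w + k) + 1 by omega]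
      exact (Nat.findGreatest_of_not (by rwa [show w + k + 1 = w + 1 + k by omega])).symm
  · intro s' ⟨_, _, iq⟩
    rw [he] at iq
    obtain ⟨q, hq, h1, h2⟩ := Nat.exists_prime_lt_and_le_two_mul w (by omega)
    rw [← two_mul] at iq
    exact iq q hq h1 h2

end H984

theorem prime_tri (𝔸 : Alg) (L : ℕ) (hL : 1 ≤ L) : ∃ c : ℕ, ∀ (env : Env) (cap n : ℕ) (s : St),
    s.r 2 = nV 𝔸 L n → (∀ x, s.a 2 x = 0) → big 𝔸 L n ≤ cap →
    Tri env cap (primeC 𝔸) s (c * (nV 𝔸 L n ^ 2 * (bit 𝔸 L n + 1))) (fun s' =>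
      s'.r 6 = 2 ^ bit 𝔸 L n ∧ s'.r 7 = bit 𝔸 L n ∧ s'.r 1 = prm 𝔸 L n ∧
      (∀ x, (x < 40 ∨ 100 ≤ x) → x ≠ 1 → x ≠ 6 → x ≠ 7 → s'.r x = s.r x) ∧
      (∀ j, j ≠ 2 → s'.a j = s.a j) ∧ s'.pos = s.pos) := by
  refine ⟨1000 * 𝔸.D, fun env cap n s h2 h0 hcap => ?_⟩
  have hD := 𝔸.D_pos
  have hnn2 : 2 ≤ nV 𝔸 L n := by have := le_nV 𝔸 hL n; omega
  have hbl := bit_le 𝔸 hL n
  have hbig : 1000 * 𝔸.D * nV 𝔸 L n ^ 2 ≤ cap :=
    le_trans (by unfold big; exact Nat.le_add_right _ _) hcap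
  have hprm : prm 𝔸 L n = Nat.findGreatest Nat.Prime (2 * 2 ^ bit 𝔸 L n) := by
    unfold prm
    rw [pow_succ, Nat.mul_comm]
  generalize hnn : nV 𝔸 L n = nn at *
  generalize hb : bit 𝔸 L n = b at *
  have hnn1 : nn ≤ nn ^ 2 := Nat.le_self_pow (by norm_num) _
  have hDnn : 𝔸.D * nn ≤ 𝔸.D * nn ^ 2 := Nat.mul_le_mul_left _ hnn1
  have hDnn' : 1 ≤ 𝔸.D * nn ^ 2 := Nat.mul_pos hD (by positivity)
  rw [Nat.mul_assoc] at hbl hbig
  have hpw1 : 1 ≤ 2 ^ b := Nat.one_le_two_pow
  have main : Tri env cap (primeC 𝔸) s (1 + (1 + ((1 + 12 * 𝔸.D * nn * (1 + (1 + 2))) +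
      ((1 + (6 * (2 * 2 ^ b + 1) + 3 * (2 * 2 ^ b * (b + 2)))) +
        (1 + 2 ^ b * (1 + (1 + 1)))))))
      (fun s' => s'.r 6 = 2 ^ b ∧ s'.r 7 = b ∧
        s'.r 1 = Nat.findGreatest Nat.Prime (2 * 2 ^ b)) := by
    unfold primeC
    apply Tri.seq (Q := fun s' => s'.r 2 = nn ∧ s'.r 6 = 1 ∧ ∀ x, s'.a 2 x = 0)
    · apply Tri.asg
      · simp only [E.eval]; omega
      · refine ⟨by simpa using h2, by simp [E.eval], by simpa using h0⟩
    intro s1 ⟨a2, a6, a0⟩
    apply Tri.seq (Q := fun s' => s'.r 2 = nn ∧ s'.r 6 = 1 ∧ s'.r 7 = 0 ∧ ∀ x, s'.a 2 x = 0)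
    · apply Tri.asg
      · simp only [E.eval]; omega
      · refine ⟨by simpa using a2, by simpa using a6, by simp [E.eval], by simpa using a0⟩
    intro s2 ⟨b2, b6, b7, b0⟩
    apply Tri.seq (Q := fun s' => s'.r 6 = 2 ^ b ∧ s'.r 7 = b ∧ ∀ x, s'.a 2 x = 0)
    · have h := bits_tri 𝔸 hL env cap n s2 (by rw [hnn]; exact b2) b6 b7 hcap
      rw [hnn, hb] at h
      refine (H984.Tri.frame h (by simp [bitsC, NoCoin])).mono le_rfl ?_
      rintro s' ⟨⟨h1, h2⟩, -, h3, -⟩
      refine ⟨h1, h2, fun x => ?_⟩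
      rw [h3 2 (by simp [bitsC, C.wa])]
      exact b0 x
    intro s3 ⟨c6, c7, c0⟩
    apply Tri.seq (Q := fun s' => s'.r 6 = 2 ^ b ∧ s'.r 7 = b ∧
      ∀ m, s'.a 2 m = 0 ↔ ¬ Mk (2 * 2 ^ b) (2 * 2 ^ b + 1) m)
    · have h := sieve_tri env cap (2 * 2 ^ b) (b + 2) s3 (by rw [c6]) c0 (by omega) (by omega)
        (by rw [pow_add]; omega)
      refine (H984.Tri.frame h (by simp [sieveC, NoCoin])).mono le_rfl ?_
      rintro s' ⟨h1, h2, -, -⟩
      refine ⟨?_, ?_, h1⟩
      · rw [h2 6 (by simp [sieveC, C.wr])]; exact c6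
      · rw [h2 7 (by simp [sieveC, C.wr])]; exact c7
    intro s4 ⟨d6, d7, d0⟩
    have h := find_tri env cap (2 ^ b) s4 d6 (by omega) d0 (by omega)
    refine (H984.Tri.frame h (by simp [findC, NoCoin])).mono le_rfl ?_
    rintro s' ⟨h1, h2, -, -⟩
    refine ⟨?_, ?_, h1⟩
    · rw [h2 6 (by simp [findC, C.wr])]; exact d6
    · rw [h2 7 (by simp [findC, C.wr])]; exact d7
  refine (H984.Tri.frame main (by simp [primeC, bitsC, sieveC, findC, NoCoin])).mono ?_ ?_
  · have e1 : 1000 * 𝔸.D * (nn ^ 2 * (b + 1)) = 1000 * (𝔸.D * nn ^ 2) * (b + 1) := by ring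
    have e2 : 12 * 𝔸.D * nn * (1 + (1 + 2)) = 48 * (𝔸.D * nn) := by ring
    have e3 : 3 * (2 * 2 ^ b * (b + 2)) ≤ 12 * (2 ^ b * (b + 1)) := by
      have : b + 2 ≤ 2 * (b + 1) := by omega
      calc 3 * (2 * 2 ^ b * (b + 2)) ≤ 3 * (2 * 2 ^ b * (2 * (b + 1))) := by gcongr
        _ = 12 * (2 ^ b * (b + 1)) := by ring
    have e4 : 2 ^ b * (b + 1) ≤ 24 * (𝔸.D * nn ^ 2) * (b + 1) := Nat.mul_le_mul_right _ hbl
    have e5 : 𝔸.D * nn ^ 2 ≤ 𝔸.D * nn ^ 2 * (b + 1) := Nat.le_mul_of_pos_right _ (by omega)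
    rw [e1, e2]
    have e6 : 24 * (𝔸.D * nn ^ 2) * (b + 1) = 24 * (𝔸.D * nn ^ 2 * (b + 1)) := by ring
    have e7 : 1000 * (𝔸.D * nn ^ 2) * (b + 1) = 1000 * (𝔸.D * nn ^ 2 * (b + 1)) := by ring
    rw [e6] at e4
    rw [e7]
    omega
  · rintro s' ⟨⟨h1, h2, h3⟩, hr, ha, hp⟩
    refine ⟨h1, h2, h3.trans hprm.symm, fun x hx x1 x6 x7 => hr x ?_, fun j hj => ha j ?_, hp⟩
    · simp only [primeC, bitsC, sieveC, findC, C.wr, or_false, not_or]
      omega
    · simp only [primeC, bitsC, sieveC, findC, C.wa, or_false, false_or]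
      omega

end Vale.Agent.P305.MM
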