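import Vale.Agent.P305.MM.Defs2

/-! TASK F3 (inverse table, tables of the base algorithm). `a 3 [1] := 1`;
`for i < p`: if `2 ≤ i`: `a 3 [i] := (p - p / i) * a 3 [p % i] % p`. Tables: a fixed list of stores;
entry for the integer `c`: `((c⁺ % p + (p - c⁻ % p)) * a 3 [D % p]) % p`. -/

set_option autoImplicit false

namespace Vale.Agent.P305.MM

open Finset

/-- The inverse table. -/
def invC : C :=
  .seq (.sto 3 (.const 1) (.const 1))
    (.for_ 40 (.reg 1) (.ite (.reg 40) (.const 2) .skip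
      (.sto 3 (.reg 40) (.mod (.mul (.sub (.reg 1) (.div (.reg 1) (.reg 40)))
        (.ld 3 (.mod (.reg 1) (.reg 40)))) (.reg 1)))))

/-- The step of the inverse table. -/
theorem inv_step {p k : ℕ} [hp : Fact p.Prime] (hk : 2 ≤ k) (hkp : k < p) :
    (p - p / k) * (((p % k : ℕ) : ZMod p)⁻¹).val % p = ((k : ZMod p)⁻¹).val := by
  have hp0 : 0 < p := hp.out.pos
  rw [← ZMod.val_natCast]
  congr 1
  have hle : p / k ≤ p := Nat.div_le_self _ _
  rw [Nat.cast_mul, Nat.cast_sub hle, ZMod.natCast_self, zero_sub, ZMod.natCast_val,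
    ZMod.cast_id', id]
  have hk0 : (k : ZMod p) ≠ 0 := by
    intro h
    rw [ZMod.natCast_eq_zero_iff] at h
    exact absurd (Nat.le_of_dvd (by omega) h) (by omega)
  have hm0 : ((p % k : ℕ) : ZMod p) ≠ 0 := by
    intro h
    rw [ZMod.natCast_eq_zero_iff] at h
    have hlt : p % k < k := Nat.mod_lt _ (by omega)
    have h0 : p % k = 0 := Nat.eq_zero_of_dvd_of_lt h (by omega)
    have := (Nat.dvd_prime hp.out).mp (Nat.dvd_of_mod_eq_zero h0)
    omega
  have hsum : (k : ZMod p) * ((p / k : ℕ) : ZMod p) + ((p % k : ℕ) : ZMod p) = 0 := by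
    rw [← Nat.cast_mul, ← Nat.cast_add, Nat.div_add_mod, ZMod.natCast_self]
  field_simp
  linear_combination (-1 : ZMod p) * hsum

theorem inv_tri : ∃ c : ℕ, ∀ (env : Env) (cap p : ℕ) [Fact p.Prime] (s : St), s.r 1 = p → p ≤ cap →
    Tri env cap invC s (c * p) (fun s' =>
      (∀ x : ZMod p, x ≠ 0 → s'.a 3 x.val = (x⁻¹).val) ∧
      (∀ x, x < 40 ∨ 100 ≤ x → s'.r x = s.r x) ∧ (∀ j, j ≠ 3 → s'.a j = s.a j) ∧
      s'.pos = s.pos) := by
  refine ⟨4, fun env cap p hp s h1 hcap => ?_⟩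
  have hp2 : 2 ≤ p := hp.out.two_le
  have hone : ((1 : ℕ) : ZMod p)⁻¹.val = 1 := by
    have : Fact (1 < p) := ⟨by omega⟩
    rw [Nat.cast_one, inv_one, ZMod.val_one]
  have key := Tri.seq (env := env) (cap := cap) (p := .sto 3 (.const 1) (.const 1))
    (q := .for_ 40 (.reg 1) (.ite (.reg 40) (.const 2) .skip
      (.sto 3 (.reg 40) (.mod (.mul (.sub (.reg 1) (.div (.reg 1) (.reg 40)))
        (.ld 3 (.mod (.reg 1) (.reg 40)))) (.reg 1))))) (s := s) (t := 1)
    (t' := 1 + p * (1 + (1 + 1)))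
    (Q := fun s' => s'.a 3 1 = 1 ∧ s'.r = s.r ∧ (∀ j, j ≠ 3 → s'.a j = s.a j) ∧ s'.pos = s.pos)
    (Q' := fun s' =>
      (∀ x : ZMod p, x ≠ 0 → s'.a 3 x.val = (x⁻¹).val) ∧
      (∀ x, x < 40 ∨ 100 ≤ x → s'.r x = s.r x) ∧ (∀ j, j ≠ 3 → s'.a j = s.a j) ∧
      s'.pos = s.pos)
    (Tri.sto (by simp only [E.eval]; omega) ⟨by simp [E.eval], rfl, fun j hj => by
      simp only [St.put_a, Function.update_of_ne hj], rfl⟩) ?_
  · exact key.mono (by omega) (fun _ h => h)
  · rintro s1 ⟨ha1, hr1, hf1, hpos1⟩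
    have he : (E.reg 1).eval env s1 = p := by simp only [E.eval, hr1, h1]
    have hfor := Tri.for_ (env := env) (cap := cap) (i := 40) (e := .reg 1)
      (p := .ite (.reg 40) (.const 2) .skip
        (.sto 3 (.reg 40) (.mod (.mul (.sub (.reg 1) (.div (.reg 1) (.reg 40)))
          (.ld 3 (.mod (.reg 1) (.reg 40)))) (.reg 1)))) (s := s1) (T := 1 + 1)
      (fun k s' => s'.a 3 1 = 1 ∧ (∀ x, 1 ≤ x → x < k → s'.a 3 x = ((x : ZMod p)⁻¹).val) ∧
        (∀ x, x ≠ 40 → s'.r x = s.r x) ∧ (∀ j, j ≠ 3 → s'.a j = s.a j) ∧ s'.pos = s.pos)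
      (Q := fun s' =>
      (∀ x : ZMod p, x ≠ 0 → s'.a 3 x.val = (x⁻¹).val) ∧
      (∀ x, x < 40 ∨ 100 ≤ x → s'.r x = s.r x) ∧ (∀ j, j ≠ 3 → s'.a j = s.a j) ∧
      s'.pos = s.pos)
      (by rw [he]; exact hcap)
      ⟨ha1, fun x h h' => by omega, fun x _ => by rw [hr1], hf1, hpos1⟩ ?_ ?_
    · rw [he] at hfor
      exact hfor
    · rw [he]
      rintro k hk s2 ⟨g1, g2, g3, g4, g5⟩
      refine Tri.ite (fun hlt => ?_) (fun hlt => ?_)
      · simp only [E.eval, St.set_r, Function.update_self] at hlt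
        refine Tri.skip ⟨g1, fun x hx1 hx2 => ?_, fun x hx => ?_, g4, g5⟩
        · obtain rfl : x = 1 := by omega
          simp only [St.set_a]
          rw [g1, hone]
        · simp only [St.set_r, Function.update_of_ne hx, g3 x hx]
      · simp only [E.eval, St.set_r, Function.update_self] at hlt
        have hr2 : s2.r 1 = p := by rw [g3 1 (by omega), h1]
        have hupd : Function.update s2.r 40 k 1 = p := by
          rw [Function.update_of_ne (by omega), hr2]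
        have hmod : p % k < k := Nat.mod_lt _ (by omega)
        have hmod1 : 1 ≤ p % k := by
          rcases Nat.eq_zero_or_pos (p % k) with h0 | h0
          · have := (Nat.dvd_prime hp.out).mp (Nat.dvd_of_mod_eq_zero h0)
            omega
          · exact h0
        have hval : (E.mod (.mul (.sub (.reg 1) (.div (.reg 1) (.reg 40)))
            (.ld 3 (.mod (.reg 1) (.reg 40)))) (.reg 1)).eval env (s2.set 40 k) =
            ((k : ZMod p)⁻¹).val := by
          simp only [E.eval, St.set_r, St.set_a, Function.update_self, hupd]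
          rw [g2 _ hmod1 hmod]
          exact inv_step (by omega) hk
        refine Tri.sto ?_ ?_
        · rw [hval]
          exact (ZMod.val_lt _).le.trans hcap
        · rw [hval]
          have hidx : (E.reg 40).eval env (s2.set 40 k) = k := by
            simp only [E.eval, St.set_r, Function.update_self]
          rw [hidx]
          refine ⟨?_, fun x hx1 hx2 => ?_, fun x hx => ?_, fun j hj => ?_, g5⟩
          · simp only [St.put_a, St.set_a, Function.update_self]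
            rw [Function.update_of_ne (by omega), g1]
          · simp only [St.put_a, St.set_a, Function.update_self]
            by_cases hxk : x = k
            · subst hxk; rw [Function.update_self]
            · rw [Function.update_of_ne hxk, g2 x hx1 (by omega)]
          · simp only [St.put_r, St.set_r, Function.update_of_ne hx, g3 x hx]
          · simp only [St.put_a, St.set_a, Function.update_of_ne hj, g4 j hj]
    · rw [he]
      rintro s2 ⟨g1, g2, g3, g4, g5⟩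
      refine ⟨fun x hx => ?_, fun x hx => g3 x (by omega), g4, g5⟩
      have hpos : 1 ≤ x.val := Nat.pos_of_ne_zero (fun h => hx ((ZMod.val_eq_zero x).mp h))
      rw [g2 x.val hpos (ZMod.val_lt x), ZMod.natCast_val, ZMod.cast_id', id]

/-- The residue of the integer `c` divided by `D`. -/
def resE (D : ℕ) (c : ℤ) : E :=
  .mod (.mul (.add (.mod (.const c.toNat) (.reg 1))
    (.sub (.reg 1) (.mod (.const (-c).toNat) (.reg 1)))) (.ld 3 (.mod (.const D) (.reg 1)))) (.reg 1)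

theorem resE_eval {env : Env} {p D : ℕ} [hp : Fact p.Prime] {c : ℤ} {s : St} (h1 : s.r 1 = p)
    (h3 : ∀ x : ZMod p, x ≠ 0 → s.a 3 x.val = (x⁻¹).val) (hD0 : 0 < D) (hD : D < p) :
    (resE D c).eval env s = ((c : ZMod p) * (D : ZMod p)⁻¹).val := by
  have hp0 : 0 < p := hp.out.pos
  have hDne : (D : ZMod p) ≠ 0 := by
    intro h
    rw [ZMod.natCast_eq_zero_iff] at h
    exact absurd (Nat.le_of_dvd hD0 h) (by omega)
  have h3' := h3 _ hDne
  rw [ZMod.val_natCast] at h3'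
  simp only [resE, E.eval, h1]
  rw [h3', ← ZMod.val_natCast]
  congr 1
  have hle : (-c).toNat % p ≤ p := (Nat.mod_lt _ hp0).le
  rw [Nat.cast_mul, Nat.cast_add, Nat.cast_sub hle, ZMod.natCast_self, zero_sub, ZMod.natCast_val,
    ZMod.cast_id', id, ZMod.natCast_mod, ZMod.natCast_mod]
  congr 1
  have hc : c = (c.toNat : ℤ) - ((-c).toNat : ℤ) := by omega
  conv_rhs => rw [hc]
  push_cast
  ring

/-- Entries `0, …, m - 1` of array `j` become `f x / D`. -/
def tabL (D j : ℕ) (f : ℕ → ℤ) : ℕ → C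
  | 0 => .skip
  | m + 1 => .seq (tabL D j f m) (.sto j (.const m) (resE D (f m)))

theorem tabL_tri {env : Env} {cap p D j : ℕ} [hp : Fact p.Prime] {f : ℕ → ℤ} {s : St}
    (h1 : s.r 1 = p) (h3 : ∀ x : ZMod p, x ≠ 0 → s.a 3 x.val = (x⁻¹).val) (hD0 : 0 < D)
    (hD : D < p) (hcap : p ≤ cap) (hj : j ≠ 3) (m : ℕ) :
    Tri env cap (tabL D j f m) s (m + 1) (fun s' =>
      (∀ x < m, s'.a j x = ((f x : ZMod p) * (D : ZMod p)⁻¹).val) ∧ s'.r = s.r ∧
      (∀ j', j' ≠ j → s'.a j' = s.a j') ∧ s'.pos = s.pos) := by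
  induction m with
  | zero =>
    exact Tri.skip ⟨fun x hx => by omega, rfl, fun _ _ => rfl, rfl⟩
  | succ m ih =>
    refine Tri.seq ih ?_
    rintro s1 ⟨g1, g2, g3, g4⟩
    have hval : (resE D (f m)).eval env s1 = ((f m : ZMod p) * (D : ZMod p)⁻¹).val := by
      refine resE_eval (by rw [g2, h1]) ?_ hD0 hD
      intro x hx
      rw [g3 3 (Ne.symm hj)]
      exact h3 x hx
    refine Tri.sto ?_ ?_
    · rw [hval]
      exact (ZMod.val_lt _).le.trans hcap
    · rw [hval]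
      refine ⟨fun x hx => ?_, ?_, fun j' hj' => ?_, ?_⟩
      · simp only [E.eval, St.put_a, Function.update_self]
        by_cases hxm : x = m
        · subst hxm; rw [Function.update_self]
        · rw [Function.update_of_ne hxm, g1 x (by omega)]
      · rw [St.put_r, g2]
      · rw [St.put_a, Function.update_of_ne hj', g3 j' hj']
      · rw [St.put_pos, g4]

/-- The tables of the base algorithm. -/
def tabC (𝔸 : Alg) : C :=
  .seq (tabL 𝔸.D 4 (fun x => 𝔸.u (x / (𝔸.q * 𝔸.q)) (x / 𝔸.q % 𝔸.q) (x % 𝔸.q)) (𝔸.R * 𝔸.q * 𝔸.q))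
    (.seq (tabL 𝔸.D 5 (fun x => 𝔸.v (x / (𝔸.q * 𝔸.q)) (x / 𝔸.q % 𝔸.q) (x % 𝔸.q)) (𝔸.R * 𝔸.q * 𝔸.q))
      (tabL 𝔸.D 6 (fun x => 𝔸.w (x / (𝔸.q * 𝔸.q)) (x / 𝔸.q % 𝔸.q) (x % 𝔸.q)) (𝔸.R * 𝔸.q * 𝔸.q)))

theorem tab_digits {q R r d e : ℕ} (hr : r < R) (hd : d < q) (he : e < q) :
    (r * q + d) * q + e < R * q * q ∧ ((r * q + d) * q + e) / (q * q) = r ∧
      ((r * q + d) * q + e) / q % q = d ∧ ((r * q + d) * q + e) % q = e := by
  have hq : 0 < q := by omega
  have h1 : ((r * q + d) * q + e) / q = r * q + d := by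
    rw [Nat.mul_comm (r * q + d) q, Nat.mul_add_div hq, Nat.div_eq_of_lt he, Nat.add_zero]
  have h2 : (r * q + d) / q = r := by
    rw [Nat.mul_comm r q, Nat.mul_add_div hq, Nat.div_eq_of_lt hd, Nat.add_zero]
  refine ⟨?_, ?_, ?_, ?_⟩
  · have a1 : r * q + d + 1 ≤ R * q := by
      calc r * q + d + 1 ≤ r * q + q := by omega
        _ = (r + 1) * q := by ring
        _ ≤ R * q := Nat.mul_le_mul_right _ hr
    calc (r * q + d) * q + e < (r * q + d) * q + q := by omega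
      _ = (r * q + d + 1) * q := by ring
      _ ≤ R * q * q := Nat.mul_le_mul_right _ a1
  · rw [← Nat.div_div_eq_div_mul, h1, h2]
  · rw [h1, Nat.mul_comm r q, Nat.mul_add_mod, Nat.mod_eq_of_lt hd]
  · rw [Nat.mul_comm (r * q + d) q, Nat.mul_add_mod, Nat.mod_eq_of_lt he]

theorem tab_tri (𝔸 : Alg) : ∃ c : ℕ, ∀ (env : Env) (cap p : ℕ) [Fact p.Prime] (s : St),
    s.r 1 = p → (∀ x : ZMod p, x ≠ 0 → s.a 3 x.val = (x⁻¹).val) → 𝔸.D < p → p ≤ cap →
    Tri env cap (tabC 𝔸) s c (fun s' => Base 𝔸 p s' ∧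
      (∀ x, x < 40 ∨ 100 ≤ x → s'.r x = s.r x) ∧
      (∀ j, j ≠ 4 → j ≠ 5 → j ≠ 6 → s'.a j = s.a j) ∧ s'.pos = s.pos) := by
  refine ⟨𝔸.R * 𝔸.q * 𝔸.q + 1 + (𝔸.R * 𝔸.q * 𝔸.q + 1 + (𝔸.R * 𝔸.q * 𝔸.q + 1)),
    fun env cap p hp s h1 h3 hD hcap => ?_⟩
  refine Tri.seq (tabL_tri h1 h3 𝔸.D_pos hD hcap (by omega) _) ?_
  rintro s1 ⟨a1, a2, a3, a4⟩
  refine Tri.seq (tabL_tri (p := p) (by rw [a2, h1]) (by rw [a3 3 (by omega)]; exact h3) 𝔸.D_pos hD
    hcap (by omega) _) ?_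
  rintro s2 ⟨b1, b2, b3, b4⟩
  refine (tabL_tri (p := p) (by rw [b2, a2, h1]) (by rw [b3 3 (by omega), a3 3 (by omega)]; exact h3)
    𝔸.D_pos hD hcap (by omega) _).mono le_rfl ?_
  rintro s3 ⟨c1, c2, c3, c4⟩
  refine ⟨⟨by rw [c2, b2, a2, h1], ?_, ?_, ?_, ?_⟩, fun x _ => by rw [c2, b2, a2],
    fun j h4 h5 h6 => by rw [c3 j h6, b3 j h5, a3 j h4], by rw [c4, b4, a4]⟩
  · rw [c3 3 (by omega), b3 3 (by omega), a3 3 (by omega)]
    exact h3
  · intro r hr d hd e he
    obtain ⟨t1, t2, t3, t4⟩ := tab_digits hr hd he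
    rw [c3 4 (by omega), b3 4 (by omega), a1 _ t1, t2, t3, t4]
  · intro r hr d hd e he
    obtain ⟨t1, t2, t3, t4⟩ := tab_digits hr hd he
    rw [c3 5 (by omega), b1 _ t1, t2, t3, t4]
  · intro r hr d hd e he
    obtain ⟨t1, t2, t3, t4⟩ := tab_digits hr hd he
    rw [c1 _ t1, t2, t3, t4]

end Vale.Agent.P305.MM
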