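import Vale.Agent.P305.MM.Defs2

/-! TASK F4 (adjacency matrix from the adjacency lists). Input layout: cell `0` = `n`,
cells `1 + v` (`v ≤ n`) = offsets, cells `n + 2 + k` = concatenated lists. -/

set_option autoImplicit false

namespace Vale.Agent.P305.MM

open Finset

/-- `for v < n: for k < off (v + 1) - off v: a 7 [v * nn + adj (off v + k)] := 1`. -/
def adjC : C :=
  .for_ 41 (.reg 0)
    (.for_ 42 (.sub (.raw (.add (.reg 41) (.const 2))) (.raw (.add (.reg 41) (.const 1))))
      (.sto 7
        (.add (.mul (.reg 41) (.reg 2))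
          (.raw (.add (.add (.reg 0) (.const 2))
            (.add (.raw (.add (.reg 41) (.const 1))) (.reg 42)))))
        (.const 1)))

namespace AdjProg

variable {n : ℕ} {G : SimpleGraph (Fin n)} (L : AdjLists G)

theorem enc_off (v : ℕ) (hv : v ≤ n) :
    L.encode.getD (v + 1) 0 = (L.upTo v).length := by
  simp only [AdjLists.encode, List.getD_cons_succ]
  rw [List.getD_append _ _ _ _ (by simp only [List.length_map, List.length_range]; omega)]
  rw [List.getD_eq_getElem _ _ (by simp only [List.length_map, List.length_range]; omega)]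
  simp only [List.getElem_map, List.getElem_range]

theorem enc_adj (k : ℕ) :
    L.encode.getD (n + 2 + k) 0 = ((L.upTo n).map Fin.val).getD k 0 := by
  have h : n + 2 + k = (n + 1 + k) + 1 := by omega
  rw [h]
  simp only [AdjLists.encode, List.getD_cons_succ]
  rw [List.getD_append_right _ _ _ _ (by simp only [List.length_map, List.length_range]; omega)]
  simp only [List.length_map, List.length_range]
  congr 1
  omega

theorem upTo_succ (v : ℕ) (hv : v < n) :
    L.upTo (v + 1) = L.upTo v ++ L.nbrs ⟨v, hv⟩ := by
  unfold AdjLists.upTo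
  have h : (List.finRange n).take (v + 1) = (List.finRange n).take v ++ [⟨v, hv⟩] := by
    rw [List.take_succ_eq_append_getElem (by simpa using hv)]
    simp
  rw [h, List.flatMap_append]
  simp

theorem upTo_split (v : ℕ) :
    ∃ l, L.upTo n = L.upTo v ++ l := by
  unfold AdjLists.upTo
  refine ⟨((List.finRange n).drop v).flatMap L.nbrs, ?_⟩
  rw [← List.flatMap_append, List.take_append_drop]
  rw [List.take_of_length_le (by simp)]

theorem adj_entry (v : ℕ) (hv : v < n) (k : ℕ) (hk : k < (L.nbrs ⟨v, hv⟩).length) :
    ((L.upTo n).map Fin.val).getD ((L.upTo v).length + k) 0 = ((L.nbrs ⟨v, hv⟩)[k] : Fin n).val := by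
  obtain ⟨l, hl⟩ := upTo_split L (v + 1)
  rw [hl, upTo_succ L v hv]
  simp only [List.map_append, List.append_assoc]
  rw [List.getD_append_right _ _ _ _ (by simp only [List.length_map]; omega)]
  simp only [List.length_map, Nat.add_sub_cancel_left]
  rw [List.getD_append _ _ _ _ (by simpa using hk)]
  rw [List.getD_eq_getElem _ _ (by simpa using hk)]
  simp only [List.getElem_map]

theorem nbrs_length (v : Fin n) : (L.nbrs v).length ≤ n := by
  have := (L.nodup v).length_le_card
  simpa using this

end AdjProg

open Classical in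
theorem adj_tri : ∃ c : ℕ, ∀ (env : Env) (cap N n : ℕ) (G : SimpleGraph (Fin n)) (L : AdjLists G)
    (s : St), env.inp = L.encode → s.r 0 = n → s.r 2 = N → n ≤ N → N * N ≤ cap → 1 ≤ cap →
    (∀ x, s.a 7 x = 0) →
    Tri env cap adjC s (c * (N ^ 2 + 1)) (fun s' =>
      (∀ u < N, ∀ v < N, s'.a 7 (u * N + v) = if nAdj G u v then 1 else 0) ∧
      (∀ x, x < 40 ∨ 100 ≤ x → s'.r x = s.r x) ∧ (∀ j, j ≠ 7 → s'.a j = s.a j) ∧
      s'.pos = s.pos) := by
  refine ⟨3, ?_⟩
  intro env cap N n G L s hinp h0 h2 hnN hcap h1 hz
  have hncap : n ≤ cap := by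
    rcases Nat.eq_zero_or_pos N with h | h
    · omega
    · exact (hnN.trans (Nat.le_mul_of_pos_left N h)).trans hcap
  have key := Tri.for_ (env := env) (cap := cap) (i := 41) (e := .reg 0)
    (p := .for_ 42 (.sub (.raw (.add (.reg 41) (.const 2))) (.raw (.add (.reg 41) (.const 1))))
      (.sto 7
        (.add (.mul (.reg 41) (.reg 2))
          (.raw (.add (.add (.reg 0) (.const 2))
            (.add (.raw (.add (.reg 41) (.const 1))) (.reg 42)))))
        (.const 1))) (s := s) (T := 1 + n * 2)
    (fun v s' => (∀ u < N, ∀ w < N, s'.a 7 (u * N + w) = if u < v ∧ nAdj G u w then 1 else 0) ∧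
      (∀ x, x < 40 ∨ 100 ≤ x → s'.r x = s.r x) ∧ (∀ j, j ≠ 7 → s'.a j = s.a j) ∧
      s'.pos = s.pos)
    (Q := fun s' =>
      (∀ u < N, ∀ v < N, s'.a 7 (u * N + v) = if nAdj G u v then 1 else 0) ∧
      (∀ x, x < 40 ∨ 100 ≤ x → s'.r x = s.r x) ∧ (∀ j, j ≠ 7 → s'.a j = s.a j) ∧
      s'.pos = s.pos)
    (by simp only [E.eval]; omega)
    ⟨fun u _ w _ => by simp [hz], fun _ _ => rfl, fun _ _ => rfl, rfl⟩ ?_ ?_
  · refine key.mono ?_ (fun _ h => h)
    simp only [E.eval, h0]
    have : n * n ≤ N ^ 2 := by rw [pow_two]; exact Nat.mul_le_mul hnN hnN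
    nlinarith [Nat.zero_le n, sq_nonneg ((n : ℤ) - 1), Nat.le_mul_self n]
  · intro v hv s1 ⟨i1, i2, i3, i4⟩
    simp only [E.eval, h0] at hv
    have r41 : (s1.set 41 v).r 41 = v := by simp
    have r0 : (s1.set 41 v).r 0 = n := by simp [i2 0 (by omega), h0]
    have hrounds : (E.sub (.raw (.add (.reg 41) (.const 2)))
        (.raw (.add (.reg 41) (.const 1)))).eval env (s1.set 41 v) =
        (L.nbrs ⟨v, hv⟩).length := by
      simp only [E.eval, r41, hinp]
      rw [AdjProg.enc_off L v hv.le, show v + 2 = (v + 1) + 1 from rfl,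
        AdjProg.enc_off L (v + 1) hv, AdjProg.upTo_succ L v hv]
      simp
    have inner := Tri.for_ (env := env) (cap := cap) (i := 42)
      (e := .sub (.raw (.add (.reg 41) (.const 2))) (.raw (.add (.reg 41) (.const 1))))
      (p := .sto 7
        (.add (.mul (.reg 41) (.reg 2))
          (.raw (.add (.add (.reg 0) (.const 2))
            (.add (.raw (.add (.reg 41) (.const 1))) (.reg 42)))))
        (.const 1)) (s := s1.set 41 v) (T := 1)
      (fun k s' => s'.r 41 = v ∧
        (∀ u < N, ∀ w < N, s'.a 7 (u * N + w) = if (u < v ∧ nAdj G u w) ∨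
          (u = v ∧ ∃ (i : ℕ) (hi : i < (L.nbrs ⟨v, hv⟩).length), i < k ∧
            ((L.nbrs ⟨v, hv⟩)[i] : Fin n).val = w) then 1 else 0) ∧
        (∀ x, x < 40 ∨ 100 ≤ x → s'.r x = s.r x) ∧ (∀ j, j ≠ 7 → s'.a j = s.a j) ∧
        s'.pos = s.pos)
      (Q := fun s' =>
        (∀ u < N, ∀ w < N, s'.a 7 (u * N + w) = if u < v + 1 ∧ nAdj G u w then 1 else 0) ∧
        (∀ x, x < 40 ∨ 100 ≤ x → s'.r x = s.r x) ∧ (∀ j, j ≠ 7 → s'.a j = s.a j) ∧
        s'.pos = s.pos)
      (by rw [hrounds]; exact (AdjProg.nbrs_length L _).trans hncap)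
      ⟨r41, fun u hu w hw => by
          rw [St.set_a, i1 u hu w hw]
          simp, fun x hx => by
          simp only [St.set_r]
          rw [Function.update_of_ne (by omega), i2 x hx], fun j hj => by
          rw [St.set_a, i3 j hj], by rw [St.set_pos, i4]⟩ ?_ ?_
    · refine inner.mono ?_ (fun _ h => h)
      rw [hrounds]
      have := AdjProg.nbrs_length L ⟨v, hv⟩
      omega
    · intro k hk s2 ⟨j0, j1, j2, j3, j4⟩
      rw [hrounds] at hk
      apply Tri.sto
      · simpa only [E.eval] using h1
      · have haddr : (E.add (.mul (.reg 41) (.reg 2))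
          (.raw (.add (.add (.reg 0) (.const 2))
            (.add (.raw (.add (.reg 41) (.const 1))) (.reg 42))))).eval env (s2.set 42 k) =
            v * N + ((L.nbrs ⟨v, hv⟩)[k] : Fin n).val := by
          simp only [E.eval, St.set_r, Function.update_self]
          rw [Function.update_of_ne (by omega), Function.update_of_ne (by omega),
            Function.update_of_ne (by omega), j0, j2 2 (by omega), j2 0 (by omega), h0, h2, hinp,
            AdjProg.enc_off L v hv.le, AdjProg.enc_adj, AdjProg.adj_entry L v hv k hk]
        rw [haddr]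
        simp only [E.eval]
        refine ⟨?_, ?_, ?_, ?_, ?_⟩
        · simp only [St.put_r, St.set_r]
          rw [Function.update_of_ne (by omega), j0]
        · intro u hu w hw
          simp only [St.put_a, St.set_a, Function.update_self]
          have hlt : ((L.nbrs ⟨v, hv⟩)[k] : Fin n).val < N := lt_of_lt_of_le (Fin.isLt _) hnN
          by_cases he : u * N + w = v * N + ((L.nbrs ⟨v, hv⟩)[k] : Fin n).val
          · rw [he, Function.update_self]
            have huv : u = v := by
              have e1 : (u * N + w) / N = u := by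
                rw [Nat.add_comm, Nat.add_mul_div_right _ _ (by omega), Nat.div_eq_of_lt hw]
                omega
              have e2 : (v * N + ((L.nbrs ⟨v, hv⟩)[k] : Fin n).val) / N = v := by
                rw [Nat.add_comm, Nat.add_mul_div_right _ _ (by omega), Nat.div_eq_of_lt hlt]
                omega
              rw [← e1, he, e2]
            subst huv
            rw [if_pos]
            right
            exact ⟨rfl, k, hk, by omega, by omega⟩
          · rw [Function.update_of_ne he, j1 u hu w hw]
            apply if_congr _ rfl rfl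
            constructor
            · rintro (h | ⟨h, i, hi, hik, hiw⟩)
              · exact Or.inl h
              · exact Or.inr ⟨h, i, hi, by omega, hiw⟩
            · rintro (h | ⟨h, i, hi, hik, hiw⟩)
              · exact Or.inl h
              · right
                refine ⟨h, i, hi, ?_, hiw⟩
                rcases Nat.lt_or_ge i k with h' | h'
                · exact h'
                · exfalso
                  have : i = k := by omega
                  subst this
                  apply he
                  rw [h, hiw]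
        · intro x hx
          simp only [St.put_r, St.set_r]
          rw [Function.update_of_ne (by omega), j2 x hx]
        · intro j hj
          simp only [St.put_a, St.set_a]
          rw [Function.update_of_ne hj, j3 j hj]
        · simp only [St.put_pos, St.set_pos, j4]
    · intro s2 ⟨j0, j1, j2, j3, j4⟩
      rw [hrounds] at j1
      refine ⟨?_, j2, j3, j4⟩
      intro u hu w hw
      rw [j1 u hu w hw]
      apply if_congr _ rfl rfl
      constructor
      · rintro (⟨h, h'⟩ | ⟨h, i, hi, -, hiw⟩)
        · exact ⟨by omega, h'⟩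
        · subst h
          refine ⟨by omega, hv, ?_⟩
          refine ⟨hiw ▸ Fin.isLt _, ?_⟩
          rw [← L.mem_iff]
          have : (⟨w, hiw ▸ Fin.isLt _⟩ : Fin n) = (L.nbrs ⟨u, hv⟩)[i] := Fin.ext hiw.symm
          rw [this]
          exact List.getElem_mem hi
      · rintro ⟨h, hA⟩
        rcases Nat.lt_or_ge u v with h' | h'
        · exact Or.inl ⟨h', hA⟩
        · have : u = v := by omega
          subst this
          right
          obtain ⟨hu', hw', hadj⟩ := hA
          rw [← L.mem_iff] at hadj
          obtain ⟨i, hi, hii⟩ := List.getElem_of_mem hadj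
          exact ⟨rfl, i, hi, hi, by rw [hii]⟩
  · intro s' ⟨i1, i2, i3, i4⟩
    simp only [E.eval, h0] at i1
    refine ⟨?_, i2, i3, i4⟩
    intro u hu v hv
    rw [i1 u hu v hv]
    apply if_congr _ rfl rfl
    constructor
    · exact fun h => h.2
    · intro h
      exact ⟨h.choose, h⟩

end Vale.Agent.P305.MM
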