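import Vale.Agent.P305.MM.TN
import Vale.Agent.P305.MM.Expo

/-! TASK G2 (exponents): see `Expo.lean` (`costA_le`, `big_le`). -/
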