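import Vale.Agent.P305.MM.TH1
import Vale.Agent.P305.MM.TC
import Vale.Agent.P305.MM.TF5a
import Vale.Agent.P305.MM.TF5b

/-! TASK H1 (composition of all programs). -/

set_option autoImplicit false

namespace Vale.Agent.P305.MM

open Finset

/-- The whole program. -/
def mainC (𝔸 : Alg) (L : ℕ) : C :=
  .seq (sizesC 𝔸 L) <| .seq (primeC 𝔸) <| .seq invC <| .seq (tabC 𝔸) <| .seq wordsC <|
  .seq adjC <| .seq (initC L) <| .seq (crossC 𝔸 L) <| .seq (pass2C L) <| .seq (crossC 𝔸 L) <|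
  .seq (pass3C L) <| .seq (crossC 𝔸 L) <| outC L

theorem post_tri (𝔸 : Alg) (L : ℕ) (hL : 1 ≤ L) : ∃ c : ℕ, ∀ (env : Env) (cap n : ℕ)
    (G : SimpleGraph (Fin n)) (h0 : 0 < 2 * (nV 𝔸 L n / 2)) (s : St), big 𝔸 L n ≤ cap →
    Glob 𝔸 L n G env.ω h0 s →
    Tri env cap (.seq (initC L) <| .seq (crossC 𝔸 L) <| .seq (pass2C L) <| .seq (crossC 𝔸 L) <|
      .seq (pass3C L) <| .seq (crossC 𝔸 L) <| outC L) s (c * costA 𝔸 L n) (fun s' =>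
      ∀ M : Finset (ℕ × ℕ), (∀ u v, (u, v) ∈ M ↔
          (theTop 𝔸 L n G env.ω h0).mat (𝔸.q ^ kap 𝔸 L n) L u v) → IsMat (nAdj G) M →
        (∀ v, (∀ e ∈ M, v ≠ e.1 ∧ v ≠ e.2) → s'.a 0 v = 0) ∧
        ∀ e ∈ M, s'.a 0 e.1 = e.2 + 1 ∧ s'.a 0 e.2 = e.1 + 1) := by
  obtain ⟨c7, H7⟩ := init_tri L
  obtain ⟨cX, HX⟩ := cross_tri 𝔸 L
  obtain ⟨c8, H8⟩ := pass2_tri L
  obtain ⟨c9, H9⟩ := pass3_tri L
  obtain ⟨c10, H10⟩ := out_tri L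
  refine ⟨2 * c7 + 3 * cX + 2 * c8 + 2 * c9 + 2 * c10, ?_⟩
  intro env cap n G h0 s hcap hG
  have hN2 : 2 * (nV 𝔸 L n / 2) = nV 𝔸 L n := nV_even 𝔸 hL n
  have hNn : 2 * n + 2 ≤ nV 𝔸 L n := le_nV 𝔸 hL n
  have hκ1 : 1 ≤ kap 𝔸 L n := kap_pos 𝔸 hL n
  have hpcap : prm 𝔸 L n ≤ cap := (prm_le_big 𝔸 hL n).trans hcap
  have h4N : 4 * nV 𝔸 L n ^ 2 ≤ cap := (sq_le_big 𝔸 L n).trans hcap
  have hRcap : 𝔸.R ^ (kap 𝔸 L n * L + 2) ≤ cap := (pow_le_big 𝔸 L n).trans hcap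
  have hDp : (𝔸.D : ZMod (prm 𝔸 L n)) ≠ 0 := D_ne_zero 𝔸 hL n
  have hσL : (𝔸.q ^ kap 𝔸 L n) ^ L = nV 𝔸 L n := rfl
  have hh : (theTop 𝔸 L n G env.ω h0).h = nV 𝔸 L n / 2 := rfl
  have hAd : (theTop 𝔸 L n G env.ω h0).Ad = nAdj G := rfl
  have fr : ∀ {s s' : St}, (∀ x, x < 10 ∨ 110 + 10 * L ≤ x ∨ (∃ l' ≤ L, x = 100 + 10 * l') →
      s'.r x = s.r x) → (∀ j, j < 9 ∨ 22 + 2 * L ≤ j → s'.a j = s.a j) →
      Glob 𝔸 L n G env.ω h0 s → Glob 𝔸 L n G env.ω h0 s' := fun h1 h2 h =>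
    h.of_frame (fun x hx => h1 x (Or.inl hx)) (fun l hl => h1 _ (Or.inr (Or.inr ⟨l, hl, rfl⟩)))
      (fun j hj => h2 j (Or.inl (by omega)))
  have fr' : ∀ {s s' : St}, (∀ x, x < 40 ∨ 100 ≤ x → s'.r x = s.r x) →
      (∀ j, j < 8 → s'.a j = s.a j) →
      Glob 𝔸 L n G env.ω h0 s → Glob 𝔸 L n G env.ω h0 s' := fun h1 h2 h =>
    h.of_frame (fun x hx => h1 x (Or.inl (by omega))) (fun l hl => h1 _ (Or.inr (by omega))) h2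
  refine Tri.mono (t := c7 * (nV 𝔸 L n ^ 2 + 1) +
    (cX * ((𝔸.q ^ kap 𝔸 L n) ^ 2 * ((kap 𝔸 L n * L + 2) * 𝔸.R ^ (kap 𝔸 L n * L))) +
    (c8 * (nV 𝔸 L n ^ 2 + 1) +
    (cX * ((𝔸.q ^ kap 𝔸 L n) ^ 2 * ((kap 𝔸 L n * L + 2) * 𝔸.R ^ (kap 𝔸 L n * L))) +
    (c9 * (nV 𝔸 L n ^ 2 + 1) +
    (cX * ((𝔸.q ^ kap 𝔸 L n) ^ 2 * ((kap 𝔸 L n * L + 2) * 𝔸.R ^ (kap 𝔸 L n * L))) +
    c10 * (nV 𝔸 L n ^ 2 + 1))))))) ?_ ?_ (fun _ h => h)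
  · refine Tri.seq (H7 env cap (prm 𝔸 L n) (nV 𝔸 L n) s _ hG.env5 hpcap h4N) ?_
    rintro s1 ⟨a1, a2, a3, a4, a5⟩
    have g1 := fr' a3 (fun j hj => a4 j (by omega)) hG
    refine Tri.seq (HX env cap (prm 𝔸 L n) (kap 𝔸 L n) s1
      (dbl (2 * (theTop 𝔸 L n G env.ω h0).h) (theTop 𝔸 L n G env.ω h0).N0,
        (theTop 𝔸 L n G env.ω h0).D1) g1.base hDp hκ1 g1.r4 g1.r5 g1.rl
      (by rw [hσL, hh, hN2]; exact a1) (by rw [hσL]; exact a2) hpcap hRcap) ?_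
    rintro s2 ⟨b1, b2, b3, b4, b5⟩
    have g2 := fr b3 b4 g1
    refine Tri.seq (H8 env cap (prm 𝔸 L n) (nV 𝔸 L n) s2 _
      ((theTop 𝔸 L n G env.ω h0).out1 (𝔸.q ^ kap 𝔸 L n) L).2 g2.env5 (by
        rw [hσL] at b2; exact b2) hpcap h4N) ?_
    rintro s3 ⟨d1, d2, d3, d4, d5⟩
    have g3 := fr' d3 (fun j hj => d4 j (by omega) (by omega)) g2
    refine Tri.seq (HX env cap (prm 𝔸 L n) (kap 𝔸 L n) s3
      (((theTop 𝔸 L n G env.ω h0).out1 (𝔸.q ^ kap 𝔸 L n) L).1, (theTop 𝔸 L n G env.ω h0).D2)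
      g3.base hDp hκ1 g3.r4 g3.r5 g3.rl
      (by rw [d4 _ (by omega) (by omega)]; exact b1) (by rw [hσL]; exact d2) hpcap hRcap) ?_
    rintro s4 ⟨e1, e2, e3, e4, e5⟩
    have g4 := fr e3 e4 g3
    refine Tri.seq (H9 env cap (prm 𝔸 L n) (nV 𝔸 L n) s4 _
      ((theTop 𝔸 L n G env.ω h0).out1 (𝔸.q ^ kap 𝔸 L n) L).2 g4.env5 (by
        rw [e4 8 (Or.inl (by omega))]; exact d1) hpcap h4N) ?_
    rintro s5 ⟨f2, f3, f4, f5⟩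
    have g5 := fr' f3 (fun j hj => f4 j (by omega)) g4
    refine Tri.seq (HX env cap (prm 𝔸 L n) (kap 𝔸 L n) s5
      (((theTop 𝔸 L n G env.ω h0).out2 (𝔸.q ^ kap 𝔸 L n) L).1,
        (theTop 𝔸 L n G env.ω h0).D3 ((theTop 𝔸 L n G env.ω h0).out1 (𝔸.q ^ kap 𝔸 L n) L).2)
      g5.base hDp hκ1 g5.r4 g5.r5 g5.rl
      (by rw [f4 _ (by omega)]; exact e1) (by rw [hσL]; exact f2) hpcap hRcap) ?_
    rintro s6 ⟨k1, k2, k3, k4, k5⟩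
    have g6 := fr k3 k4 g5
    refine (H10 env cap (prm 𝔸 L n) (nV 𝔸 L n) s6 _
      ((theTop 𝔸 L n G env.ω h0).out3 (𝔸.q ^ kap 𝔸 L n) L).2 g6.env5 (by
        rw [hσL] at k2; exact k2) g6.a0 ?_ h4N).mono le_rfl ?_
    · rintro u v ⟨hu, hv, -⟩
      omega
    · intro s' hs' M hM hmat
      exact hs' M hM hmat
  · unfold costA
    have hX : nV 𝔸 L n ^ 2 ≤ nV 𝔸 L n ^ 2 * (bit 𝔸 L n + 1) := Nat.le_mul_of_pos_right _ (by omega)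
    have hN1 : 1 ≤ nV 𝔸 L n ^ 2 := Nat.one_le_pow _ _ (by omega)
    generalize nV 𝔸 L n ^ 2 * (bit 𝔸 L n + 1) = X at *
    generalize (𝔸.q ^ kap 𝔸 L n) ^ 2 * ((kap 𝔸 L n * L + 2) * 𝔸.R ^ (kap 𝔸 L n * L)) = Y at *
    generalize nV 𝔸 L n ^ 2 = Z at *
    have key : ∀ c : ℕ, c * (Z + 1) ≤ 2 * c * X := fun c => by
      calc c * (Z + 1) ≤ c * (2 * X) := Nat.mul_le_mul_left _ (by omega)
        _ = 2 * c * X := by ring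
    have k7 := key c7
    have k8 := key c8
    have k9 := key c9
    have k10 := key c10
    have e : (2 * c7 + 3 * cX + 2 * c8 + 2 * c9 + 2 * c10) * (X + Y) =
      2 * c7 * X + 3 * (cX * Y) + 2 * c8 * X + 2 * c9 * X + 2 * c10 * X +
      (2 * c7 * Y + 3 * (cX * X) + 2 * c8 * Y + 2 * c9 * Y + 2 * c10 * Y) := by ring
    rw [e]
    have := Nat.zero_le (2 * c7 * Y + 3 * (cX * X) + 2 * c8 * Y + 2 * c9 * Y + 2 * c10 * Y)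
    linarith

theorem main_tri (𝔸 : Alg) (L : ℕ) (hL : 1 ≤ L) : ∃ c : ℕ, 1 ≤ c ∧ ∀ (env : Env) (cap n : ℕ)
    (G : SimpleGraph (Fin n)) (Li : AdjLists G) (h0 : 0 < 2 * (nV 𝔸 L n / 2)),
    env.inp = Li.encode → big 𝔸 L n ≤ cap →
    Tri env cap (mainC 𝔸 L) St.init (c * costA 𝔸 L n) (fun s' =>
      ∀ M : Finset (ℕ × ℕ), (∀ u v, (u, v) ∈ M ↔
          (theTop 𝔸 L n G env.ω h0).mat (𝔸.q ^ kap 𝔸 L n) L u v) → IsMat (nAdj G) M →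
        (∀ v, (∀ e ∈ M, v ≠ e.1 ∧ v ≠ e.2) → s'.a 0 v = 0) ∧
        ∀ e ∈ M, s'.a 0 e.1 = e.2 + 1 ∧ s'.a 0 e.2 = e.1 + 1) := by
  obtain ⟨c1, H1⟩ := pre_tri 𝔸 L hL
  obtain ⟨c2, H2⟩ := post_tri 𝔸 L hL
  refine ⟨c1 + c2 + 1, by omega, ?_⟩
  intro env cap n G Li h0 hinp hcap
  refine Tri.mono (H1 env cap n G Li h0 _ (c2 * costA 𝔸 L n) _ hinp hcap
    (fun s hs => H2 env cap n G h0 s hcap hs)) ?_ (fun _ h => h)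
  have h1 : nV 𝔸 L n ^ 2 * (bit 𝔸 L n + 1) ≤ costA 𝔸 L n := by
    unfold costA
    omega
  have h2 : c1 * (nV 𝔸 L n ^ 2 * (bit 𝔸 L n + 1)) ≤ c1 * costA 𝔸 L n := Nat.mul_le_mul_left _ h1
  have e : (c1 + c2 + 1) * costA 𝔸 L n = c1 * costA 𝔸 L n + c2 * costA 𝔸 L n + costA 𝔸 L n := by
    ring
  omega

end Vale.Agent.P305.MM
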