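import Vale.Agent.P305.MM.Defs2

/-! TASK W2 (the program that draws the random words) -/

set_option autoImplicit false

namespace Vale.Agent.P305.MM

open Finset

/-- `for x < N * N: w := 0; for k < b: coin c; w := 2 w + c;  a 1 [x] := w + 1`. -/
def wordsC : C :=
  .for_ 40 (.mul (.reg 2) (.reg 2))
    (.seq (.asg 41 (.const 0))
      (.seq (.for_ 42 (.reg 7)
        (.seq (.coin 43) (.asg 41 (.add (.mul (.const 2) (.reg 41)) (.reg 43)))))
        (.sto 1 (.reg 40) (.add (.reg 41) (.const 1)))))

theorem words_tri : ∃ c : ℕ, ∀ (env : Env) (cap N b : ℕ) (s : St), s.r 2 = N → s.r 7 = b →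
    s.pos = 0 → N * N ≤ cap → 2 ^ b ≤ cap →
    Tri env cap wordsC s (c * (N ^ 2 * (b + 1) + 1)) (fun s' =>
      (∀ u < N, ∀ v < N, s'.a 1 (u * N + v) = wordAt env.ω ((u * N + v) * b) b + 1) ∧
      s'.pos = N * N * b ∧ (∀ x, x < 40 ∨ 100 ≤ x → s'.r x = s.r x) ∧
      (∀ j, j ≠ 1 → s'.a j = s.a j)) := by
  refine ⟨4, fun env cap N b s hN hb hpos hcap hcap2 => ?_⟩
  have hbcap : b ≤ cap := (Nat.lt_two_pow_self).le.trans hcap2
  have hev : (E.mul (.reg 2) (.reg 2)).eval env s = N * N := by simp only [E.eval, hN]
  refine (Tri.for_ (T := 3 + 3 * b) (fun k s' =>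
      (∀ x < k, s'.a 1 x = wordAt env.ω (x * b) b + 1) ∧ s'.pos = k * b ∧
      (∀ x, x < 40 ∨ 100 ≤ x → s'.r x = s.r x) ∧ (∀ j, j ≠ 1 → s'.a j = s.a j))
      (by rw [hev]; exact hcap) ⟨fun x hx => by omega, by omega, fun _ _ => rfl, fun _ _ => rfl⟩
      ?_ (fun s' h => h)).mono ?_ ?_
  · intro k hk s' ⟨h1, h2, h3, h4⟩
    have hs7 : s'.r 7 = b := by rw [h3 7 (by omega), hb]
    have hstep : ∀ s1 : St, s1 = (s'.set 40 k).set 41 0 →
        Tri env cap (.for_ 42 (.reg 7)
          (.seq (.coin 43) (.asg 41 (.add (.mul (.const 2) (.reg 41)) (.reg 43))))) s1 (1 + 3 * b)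
          (fun s2 => s2.r 41 = wordAt env.ω (k * b) b ∧ s2.r 40 = k ∧ s2.pos = k * b + b ∧
            (∀ x, x < 40 ∨ 100 ≤ x → s2.r x = s.r x) ∧ s2.a = s'.a) := by
      intro s1 hs1
      have hev2 : (E.reg 7).eval env s1 = b := by
        simp only [E.eval, hs1, St.set_r]
        rw [Function.update_of_ne (by decide), Function.update_of_ne (by decide), hs7]
      refine (Tri.for_ (T := 2) (fun m s2 => s2.r 41 = wordAt env.ω (k * b) m ∧ s2.r 40 = k ∧
          s2.pos = k * b + m ∧ (∀ x, x < 40 ∨ 100 ≤ x → s2.r x = s.r x) ∧ s2.a = s'.a)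
          (by rw [hev2]; exact hbcap) ?_ ?_ (fun s2 h => h)).mono ?_ ?_
      · subst hs1
        refine ⟨by simp [wordAt], ?_, ?_, ?_, ?_⟩
        · simp only [St.set_r]
          rw [Function.update_of_ne (by decide), Function.update_self]
        · simpa using h2
        · intro x hx
          simp only [St.set_r]
          rw [Function.update_of_ne (by omega), Function.update_of_ne (by omega), h3 x hx]
        · simp only [St.set_a]
      · intro m hm s2 ⟨g1, g2, g3, g4, g5⟩
        rw [hev2] at hm
        refine (Tri.seq (t := 1) (t' := 1) (Tri.coin (Q := fun s3 =>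
            s3 = ⟨Function.update (s2.set 42 m).r 43 (if env.ω (s2.set 42 m).pos then 1 else 0),
              (s2.set 42 m).a, (s2.set 42 m).pos + 1⟩) rfl) ?_).mono le_rfl (fun _ h => h)
        intro s3 hs3
        have r41 : s3.r 41 = wordAt env.ω (k * b) m := by
          rw [hs3]
          simp only [St.set_r]
          rw [Function.update_of_ne (by decide), Function.update_of_ne (by decide), g1]
        have r43 : s3.r 43 = if env.ω (k * b + m) then 1 else 0 := by
          rw [hs3]
          simp only [St.set_pos, g3, Function.update_self]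
        have hw : (E.add (.mul (.const 2) (.reg 41)) (.reg 43)).eval env s3 =
            wordAt env.ω (k * b) (m + 1) := by
          simp only [E.eval, r41, r43, wordAt]
        apply Tri.asg
        · rw [hw]
          exact (wordAt_lt _ _ _).le.trans
            ((Nat.pow_le_pow_right (by norm_num) (by omega)).trans hcap2)
        · rw [hw]
          refine ⟨by simp only [St.set_r, Function.update_self], ?_, ?_, ?_, ?_⟩
          · simp only [St.set_r]
            rw [Function.update_of_ne (by decide), hs3]
            simp only [St.set_r]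
            rw [Function.update_of_ne (by decide), Function.update_of_ne (by decide), g2]
          · simp only [St.set_pos]
            rw [hs3]
            simp only [St.set_pos, g3]
            omega
          · intro x hx
            simp only [St.set_r]
            rw [Function.update_of_ne (by omega), hs3]
            simp only [St.set_r]
            rw [Function.update_of_ne (by omega), Function.update_of_ne (by omega), g4 x hx]
          · simp only [St.set_a]
            rw [hs3]
            simp only [St.set_a, g5]
      · rw [hev2]; omega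
      · intro s2 h
        rw [hev2] at h
        exact h
    refine (Tri.seq (t := 1) (t' := (1 + 3 * b) + 1) (Tri.asg (Q := fun s1 =>
        s1 = (s'.set 40 k).set 41 0) (by simp [E.eval]) (by simp [E.eval])) ?_).mono
        (by omega) (fun _ h => h)
    intro s1 hs1
    refine Tri.seq (hstep s1 hs1) ?_
    intro s2 ⟨g1, g2, g3, g4, g5⟩
    have hval : (E.add (.reg 41) (.const 1)).eval env s2 = wordAt env.ω (k * b) b + 1 := by
      simp only [E.eval, g1]
    apply Tri.sto
    · rw [hval]
      have := wordAt_lt env.ω (k * b) b
      omega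
    · rw [hval]
      simp only [E.eval, g2]
      refine ⟨?_, ?_, ?_, ?_⟩
      · intro x hx
        simp only [St.put_a, Function.update_self]
        by_cases hxk : x = k
        · subst hxk; simp
        · rw [Function.update_of_ne hxk, g5]
          exact h1 x (by omega)
      · simp only [St.put_pos, g3]
        ring
      · intro x hx
        simp only [St.put_r, g4 x hx]
      · intro j hj
        simp only [St.put_a]
        rw [Function.update_of_ne hj, g5, h4 j hj]
  · rw [hev]
    have : N ^ 2 = N * N := by ring
    rw [this]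
    nlinarith [Nat.zero_le (N * N * b)]
  · intro s' h
    rw [hev] at h
    obtain ⟨h1, h2, h3, h4⟩ := h
    refine ⟨fun u hu v hv => h1 _ ?_, h2, h3, h4⟩
    calc u * N + v < u * N + N := by omega
      _ = (u + 1) * N := by ring
      _ ≤ N * N := Nat.mul_le_mul_right _ (by omega)

end Vale.Agent.P305.MM
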