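import Vale.Agent.P305.MM.TT
import Vale.Agent.P305.MM.TE3
import Vale.Agent.P305.MM.TW2
import Vale.Agent.P305.MM.TF1
import Vale.Agent.P305.MM.TF2
import Vale.Agent.P305.MM.TF3
import Vale.Agent.P305.MM.TF4

/-! TASK H1, first part: everything up to the adjacency matrix. -/

set_option autoImplicit false

namespace Vale.Agent.P305.MM

open Finset

/-- Everything that stays true once the tables are computed. -/
structure Glob (𝔸 : Alg) (L n : ℕ) (G : SimpleGraph (Fin n)) (ω : ℕ → Bool)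
    (h0 : 0 < 2 * (nV 𝔸 L n / 2)) (s : St) : Prop where
  base : Base 𝔸 (prm 𝔸 L n) s
  env5 : Env5 s (theTop 𝔸 L n G ω h0) (nV 𝔸 L n)
  r4 : s.r 4 = 𝔸.q ^ kap 𝔸 L n
  r5 : s.r 5 = kap 𝔸 L n
  rl : ∀ l ≤ L, s.r (100 + 10 * l) = (𝔸.q ^ kap 𝔸 L n) ^ l
  a0 : ∀ x, s.a 0 x = 0

theorem Glob.of_frame {𝔸 : Alg} {L n : ℕ} {G : SimpleGraph (Fin n)} {ω : ℕ → Bool}
    {h0 : 0 < 2 * (nV 𝔸 L n / 2)} {s s' : St} (h : Glob 𝔸 L n G ω h0 s)
    (hr : ∀ x, x < 10 → s'.r x = s.r x) (hl : ∀ l ≤ L, s'.r (100 + 10 * l) = s.r (100 + 10 * l))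
    (ha : ∀ j, j < 8 → s'.a j = s.a j) : Glob 𝔸 L n G ω h0 s' where
  base := h.base.of_frame (hr 1 (by omega)) (ha 3 (by omega)) (ha 4 (by omega)) (ha 5 (by omega))
    (ha 6 (by omega))
  env5 := h.env5.of_frame hr ha
  r4 := by rw [hr 4 (by omega)]; exact h.r4
  r5 := by rw [hr 5 (by omega)]; exact h.r5
  rl := fun l hl' => by rw [hl l hl']; exact h.rl l hl'
  a0 := by rw [ha 0 (by omega)]; exact h.a0

theorem D_lt_prm (𝔸 : Alg) {L : ℕ} (hL : 1 ≤ L) (n : ℕ) : 𝔸.D < prm 𝔸 L n := by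
  have h1 := le_bit 𝔸 hL n
  have h2 := lt_prm 𝔸 L n
  have h3 := le_nV 𝔸 hL n
  have h4 : 1 ≤ nV 𝔸 L n ^ 2 := Nat.one_le_pow _ _ (by omega)
  have h5 : 𝔸.D ≤ 12 * 𝔸.D * nV 𝔸 L n ^ 2 := by nlinarith
  omega

theorem D_ne_zero (𝔸 : Alg) {L : ℕ} (hL : 1 ≤ L) (n : ℕ) : (𝔸.D : ZMod (prm 𝔸 L n)) ≠ 0 := by
  rw [Ne, ZMod.natCast_eq_zero_iff]
  intro h
  exact absurd (Nat.le_of_dvd 𝔸.D_pos h) (by have := D_lt_prm 𝔸 hL n; omega)

theorem prm_le_big (𝔸 : Alg) {L : ℕ} (hL : 1 ≤ L) (n : ℕ) : prm 𝔸 L n ≤ big 𝔸 L n := by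
  have h1 := bit_le 𝔸 hL n
  have h2 := prm_le 𝔸 L n
  rw [pow_succ] at h2
  unfold big
  nlinarith [Nat.zero_le (𝔸.R ^ (kap 𝔸 L n * L + 2))]

theorem sq_le_big (𝔸 : Alg) (L n : ℕ) : 4 * nV 𝔸 L n ^ 2 ≤ big 𝔸 L n := by
  have := 𝔸.D_pos
  unfold big
  nlinarith [Nat.zero_le (𝔸.R ^ (kap 𝔸 L n * L + 2)), Nat.zero_le (nV 𝔸 L n ^ 2)]

theorem pow_le_big (𝔸 : Alg) (L n : ℕ) : 𝔸.R ^ (kap 𝔸 L n * L + 2) ≤ big 𝔸 L n := by
  unfold big
  omega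

theorem wt_words (p N b : ℕ) (hN : 0 < N) (ω : ℕ → Bool) (u v : ℕ) (hu : u < N) (hv : v < N) :
    wt p (words ω N b) (gF hN u) (gF hN v) =
      ((wordAt ω ((u * N + v) * b) b + 1 : ℕ) : ZMod p) := by
  unfold wt words gF
  simp only [Nat.mod_eq_of_lt hu, Nat.mod_eq_of_lt hv]
  push_cast
  rfl

theorem env5_of {p N b n : ℕ} [Fact p.Prime] (h0 : 0 < 2 * (N / 2)) (hN2 : 2 * (N / 2) = N)
    (hbp : 2 ^ b < p) (G : SimpleGraph (Fin n)) (ω : ℕ → Bool) (s : St) (h1 : s.r 1 = p)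
    (h2 : s.r 2 = N) (h3 : s.r 3 = N / 2)
    (ha1 : ∀ u < N, ∀ v < N, s.a 1 (u * N + v) = wordAt ω ((u * N + v) * b) b + 1)
    (ha3 : ∀ x : ZMod p, x ≠ 0 → s.a 3 x.val = (x⁻¹).val)
    (ha7 : ∀ u < N, ∀ v < N, s.a 7 (u * N + v) = @ite _ (nAdj G u v) (Classical.propDecidable _) 1 0) :
    Env5 s (⟨N / 2, nAdj G, fun u v => wt p (words ω (2 * (N / 2)) b) (gF h0 u) (gF h0 v)⟩ :
      Top (ZMod p)) N := by
  refine ⟨h1, h2, h3, hN2.symm, ?_, ?_, ha3, ha7⟩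
  · intro u hu v hv
    rw [ha1 u hu v hv]
    have hlt : wordAt ω ((u * N + v) * b) b + 1 < p := by
      have := wordAt_lt ω ((u * N + v) * b) b
      omega
    show _ = (wt p (words ω (2 * (N / 2)) b) (gF h0 u) (gF h0 v)).val
    rw [wt_words p _ b h0 ω u v (by omega) (by omega), hN2, ZMod.val_natCast,
      Nat.mod_eq_of_lt hlt]
  · intro u hu v hv
    exact wt_ne_zero hbp _ _ _

theorem pre_tri (𝔸 : Alg) (L : ℕ) (hL : 1 ≤ L) : ∃ c : ℕ, ∀ (env : Env) (cap n : ℕ)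
    (G : SimpleGraph (Fin n)) (Li : AdjLists G) (h0 : 0 < 2 * (nV 𝔸 L n / 2)) (rest : C) (t : ℕ)
    (Q : St → Prop), env.inp = Li.encode → big 𝔸 L n ≤ cap →
    (∀ s, Glob 𝔸 L n G env.ω h0 s → Tri env cap rest s t Q) →
    Tri env cap (.seq (sizesC 𝔸 L) <| .seq (primeC 𝔸) <| .seq invC <| .seq (tabC 𝔸) <|
      .seq wordsC <| .seq adjC rest) St.init (c * (nV 𝔸 L n ^ 2 * (bit 𝔸 L n + 1)) + t) Q := by
  classical
  obtain ⟨c1, H1⟩ := sizes_tri 𝔸 L hL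
  obtain ⟨c2, H2⟩ := prime_tri 𝔸 L hL
  obtain ⟨c3, H3⟩ := inv_tri
  obtain ⟨c4, H4⟩ := tab_tri 𝔸
  obtain ⟨c5, H5⟩ := words_tri
  obtain ⟨c6, H6⟩ := adj_tri
  refine ⟨c1 + c2 + 48 * 𝔸.D * c3 + c4 + 2 * c5 + 2 * c6, ?_⟩
  intro env cap n G Li h0 rest t Q hinp hcap hrest
  have hN2 : 2 * (nV 𝔸 L n / 2) = nV 𝔸 L n := nV_even 𝔸 hL n
  have hNn : 2 * n + 2 ≤ nV 𝔸 L n := le_nV 𝔸 hL n
  have hpcap : prm 𝔸 L n ≤ cap := (prm_le_big 𝔸 hL n).trans hcap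
  have h4N : 4 * nV 𝔸 L n ^ 2 ≤ cap := (sq_le_big 𝔸 L n).trans hcap
  have hNN : nV 𝔸 L n * nV 𝔸 L n ≤ cap := by nlinarith [Nat.zero_le (nV 𝔸 L n ^ 2)]
  have h2b : 2 ^ bit 𝔸 L n ≤ cap := (lt_prm 𝔸 L n).le.trans hpcap
  have hinp0 : env.inp.getD 0 0 = n := by rw [hinp]; rfl
  have h1cap : 1 ≤ cap := le_trans (by nlinarith) h4N
  refine Tri.mono (t := c1 * nV 𝔸 L n + (c2 * (nV 𝔸 L n ^ 2 * (bit 𝔸 L n + 1)) +
    (c3 * prm 𝔸 L n + (c4 + (c5 * (nV 𝔸 L n ^ 2 * (bit 𝔸 L n + 1) + 1) +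
    (c6 * (nV 𝔸 L n ^ 2 + 1) + t)))))) ?_ ?_ (fun _ h => h)
  · refine Tri.seq (H1 env cap n hinp0 hcap) ?_
    rintro s1 ⟨a0, a2, a3, a4, a5, a6, a7, a8⟩
    have z1 : ∀ j x, s1.a j x = 0 := by intro j x; rw [a7]; rfl
    refine Tri.seq (H2 env cap n s1 a2 (fun x => z1 2 x) hcap) ?_
    rintro s2 ⟨b6, b7, b1, bf, ba, bp⟩
    refine Tri.seq (H3 env cap (prm 𝔸 L n) s2 b1 hpcap) ?_
    rintro s3 ⟨d1, d2, d3, d4⟩
    refine Tri.seq (H4 env cap (prm 𝔸 L n) s3 (by rw [d2 1 (Or.inl (by omega))]; exact b1) d1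
      (D_lt_prm 𝔸 hL n) hpcap) ?_
    rintro s4 ⟨e1, e2, e3, e4⟩
    have fr4 : ∀ x, (x < 40 ∨ 100 ≤ x) → s4.r x = s2.r x := fun x hx => by rw [e2 x hx, d2 x hx]
    have fa4 : ∀ j, j ≠ 3 → j ≠ 4 → j ≠ 5 → j ≠ 6 → s4.a j = s2.a j := fun j h3 h4 h5 h6 => by
      rw [e3 j h4 h5 h6, d3 j h3]
    refine Tri.seq (H5 env cap (nV 𝔸 L n) (bit 𝔸 L n) s4
      (by rw [fr4 2 (Or.inl (by omega)), bf 2 (Or.inl (by omega)) (by omega) (by omega) (by omega)]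
          exact a2)
      (by rw [fr4 7 (Or.inl (by omega))]; exact b7) (by rw [e4, d4, bp]; exact a8) hNN h2b) ?_
    rintro s5 ⟨f1, f2, f3, f4⟩
    refine Tri.seq (H6 env cap (nV 𝔸 L n) n G Li s5 hinp
      (by rw [f3 0 (Or.inl (by omega)), fr4 0 (Or.inl (by omega)),
            bf 0 (Or.inl (by omega)) (by omega) (by omega) (by omega)]
          exact a0)
      (by rw [f3 2 (Or.inl (by omega)), fr4 2 (Or.inl (by omega)),
            bf 2 (Or.inl (by omega)) (by omega) (by omega) (by omega)]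
          exact a2) (by omega) hNN h1cap (by
        intro x
        rw [f4 7 (by omega), fa4 7 (by omega) (by omega) (by omega) (by omega), ba 7 (by omega)]
        exact z1 7 x)) ?_
    rintro s6 ⟨g1, g2, g3, g4⟩
    have fr6 : ∀ x, (x < 40 ∨ 100 ≤ x) → s6.r x = s2.r x := fun x hx => by
      rw [g2 x hx, f3 x hx, fr4 x hx]
    apply hrest
    refine ⟨?_, ?_, ?_, ?_, ?_, ?_⟩
    · exact e1.of_frame (by rw [g2 1 (Or.inl (by omega)), f3 1 (Or.inl (by omega))])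
        (by rw [g3 3 (by omega), f4 3 (by omega)]) (by rw [g3 4 (by omega), f4 4 (by omega)])
        (by rw [g3 5 (by omega), f4 5 (by omega)]) (by rw [g3 6 (by omega), f4 6 (by omega)])
    · apply env5_of h0 hN2 (lt_prm 𝔸 L n) G env.ω s6
      · rw [fr6 1 (Or.inl (by omega))]; exact b1
      · rw [fr6 2 (Or.inl (by omega)), bf 2 (Or.inl (by omega)) (by omega) (by omega) (by omega)]
        exact a2
      · rw [fr6 3 (Or.inl (by omega)), bf 3 (Or.inl (by omega)) (by omega) (by omega) (by omega)]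
        exact a3
      · intro u hu v hv
        rw [g3 1 (by omega)]
        exact f1 u hu v hv
      · rw [g3 3 (by omega), f4 3 (by omega), e3 3 (by omega) (by omega) (by omega)]
        exact d1
      · intro u hu v hv
        rw [g1 u hu v hv]
    · rw [fr6 4 (Or.inl (by omega)), bf 4 (Or.inl (by omega)) (by omega) (by omega) (by omega)]
      exact a4
    · rw [fr6 5 (Or.inl (by omega)), bf 5 (Or.inl (by omega)) (by omega) (by omega) (by omega)]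
      exact a5
    · intro l hl
      rw [fr6 _ (Or.inr (by omega)), bf _ (Or.inr (by omega)) (by omega) (by omega) (by omega)]
      exact a6 l hl
    · intro x
      rw [g3 0 (by omega), f4 0 (by omega), fa4 0 (by omega) (by omega) (by omega) (by omega),
        ba 0 (by omega)]
      exact z1 0 x
  · have hX : nV 𝔸 L n ^ 2 ≤ nV 𝔸 L n ^ 2 * (bit 𝔸 L n + 1) := Nat.le_mul_of_pos_right _ (by omega)
    have hN1 : nV 𝔸 L n ≤ nV 𝔸 L n ^ 2 := by nlinarith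
    have h1X : 1 ≤ nV 𝔸 L n ^ 2 * (bit 𝔸 L n + 1) := by omega
    have hp : prm 𝔸 L n ≤ 48 * 𝔸.D * nV 𝔸 L n ^ 2 := by
      have h1 := bit_le 𝔸 hL n
      have h2 := prm_le 𝔸 L n
      rw [pow_succ] at h2
      linarith
    generalize nV 𝔸 L n ^ 2 * (bit 𝔸 L n + 1) = X at *
    have e1 : c1 * nV 𝔸 L n ≤ c1 * X := Nat.mul_le_mul_left _ (by omega)
    have e3 : c3 * prm 𝔸 L n ≤ 48 * 𝔸.D * c3 * X := by
      calc c3 * prm 𝔸 L n ≤ c3 * (48 * 𝔸.D * nV 𝔸 L n ^ 2) := Nat.mul_le_mul_left _ hp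
        _ = 48 * 𝔸.D * c3 * nV 𝔸 L n ^ 2 := by ring
        _ ≤ 48 * 𝔸.D * c3 * X := Nat.mul_le_mul_left _ hX
    have e4 : c4 ≤ c4 * X := Nat.le_mul_of_pos_right _ (by omega)
    have e5 : c5 * (X + 1) ≤ 2 * c5 * X := by
      calc c5 * (X + 1) ≤ c5 * (2 * X) := Nat.mul_le_mul_left _ (by omega)
        _ = 2 * c5 * X := by ring
    have e6 : c6 * (nV 𝔸 L n ^ 2 + 1) ≤ 2 * c6 * X := by
      calc c6 * (nV 𝔸 L n ^ 2 + 1) ≤ c6 * (2 * X) := Nat.mul_le_mul_left _ (by omega)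
        _ = 2 * c6 * X := by ring
    linarith

end Vale.Agent.P305.MM
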