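import Vale.Agent.P305.MM.Defs2
import Vale.Agent.P305.MM.ParamFacts

/-! TASK N (numbers): see `ParamFacts.lean` (`kap_pos` there needs `1 ≤ L`). -/
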