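import Vale.Agent.P305.MM.TT
import Vale.Agent.P305.MM.TE6
import Vale.Agent.P305.MM.H970.Prob

/-! TASK H2 (probability part of the assembly) -/

set_option autoImplicit false

namespace Vale.Agent.P305.MM

open Finset

theorem prob_good (𝔸 : Alg) (L n : ℕ) (G : SimpleGraph (Fin n)) (hL : 1 ≤ L)
    (h0 : 0 < 2 * (nV 𝔸 L n / 2)) (B : ℕ)
    (hB : 2 * (nV 𝔸 L n / 2) * (2 * (nV 𝔸 L n / 2)) * bit 𝔸 L n ≤ B) :
    2 * 2 ^ B ≤ 3 * Nat.card {ω : Fin B → Bool // ∀ M : Finset (ℕ × ℕ),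
      (∀ u v, (u, v) ∈ M ↔
        (theTop 𝔸 L n G (extend ω) h0).mat (𝔸.q ^ kap 𝔸 L n) L u v) → IsMaxMat (nAdj G) M} := by
  classical
  have hq := 𝔸.two_le
  have heven := nV_even 𝔸 hL n
  have hle := le_nV 𝔸 hL n
  obtain ⟨S₀, S₁, es₀, es₁, ⟨hPM₀, hnd₀, hes₀⟩, ⟨hPM₁, hnd₁, hes₁⟩, key⟩ :=
    top_good (𝔸.q ^ kap 𝔸 L n) L (nV 𝔸 L n / 2) (Nat.pow_pos (by omega)) (by omega)
      (by rw [heven]; rfl) (nAdj G)
      (fun u v ⟨hu, hv, h⟩ => ⟨hv, hu, h.symm⟩)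
      (fun u v ⟨hu, hv, _⟩ => ⟨by omega, by omega⟩)
  have hbit : 12 * (2 * (nV 𝔸 L n / 2)) ^ 2 ≤ 2 ^ bit 𝔸 L n := by
    rw [heven]
    refine le_trans ?_ (le_bit 𝔸 hL n)
    have hD := 𝔸.D_pos
    calc 12 * nV 𝔸 L n ^ 2 = 12 * 1 * nV 𝔸 L n ^ 2 := by ring
      _ ≤ 12 * 𝔸.D * nV 𝔸 L n ^ 2 := Nat.mul_le_mul_right _ (Nat.mul_le_mul_left _ hD)
  have hgood := H970.good_bits (p := prm 𝔸 L n) (lt_prm 𝔸 L n) hbit hB S₀ S₁ hPM₀ hPM₁ es₀ es₁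
    hnd₀ hnd₁ hes₀ hes₁
  refine le_trans hgood (Nat.mul_le_mul_left _ ?_)
  refine Nat.card_le_card_of_injective (Subtype.map id fun ω hω => ?_)
    (Subtype.map_injective _ Function.injective_id)
  exact key (ZMod (prm 𝔸 L n)) _ (fun u v => wt_ne_zero (lt_prm 𝔸 L n) _ u v) hω.1 hω.2

end Vale.Agent.P305.MM
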