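import Vale.Agent.P305.MM.TN

/-! The data of the pure algorithm that the program computes. -/

set_option autoImplicit false

namespace Vale.Agent.P305.MM

instance factPrm (𝔸 : Alg) (L n : ℕ) : Fact (prm 𝔸 L n).Prime := ⟨prm_prime 𝔸 L n⟩

/-- The data of the pure algorithm that the program computes. -/
noncomputable def theTop (𝔸 : Alg) (L n : ℕ) (G : SimpleGraph (Fin n)) (ω : ℕ → Bool)
    (h0 : 0 < 2 * (nV 𝔸 L n / 2)) : Top (ZMod (prm 𝔸 L n)) :=
  ⟨nV 𝔸 L n / 2, nAdj G, fun u v =>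
    wt (prm 𝔸 L n) (words ω (2 * (nV 𝔸 L n / 2)) (bit 𝔸 L n)) (gF h0 u) (gF h0 v)⟩

end Vale.Agent.P305.MM
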